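import Vale.Agent.P026.TP.Defs

/-!
# P026 (three primes): additive characters and Ramanujan sums
-/

open Finset ArithmeticFunction

namespace Vale.Agent.P026.TP

theorem e_zero : e 0 = 1 := by simp [e]

theorem e_add (x y : ℝ) : e (x + y) = e x * e y := by
  unfold e
  rw [← Complex.exp_add]
  congr 1
  push_cast
  ring

theorem e_neg (x : ℝ) : e (-x) = (e x)⁻¹ := by
  unfold e
  rw [← Complex.exp_neg]
  congr 1
  push_cast
  ring

theorem norm_e (x : ℝ) : ‖e x‖ = 1 := by
  unfold e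
  rw [show (2 * (Real.pi : ℂ) * (x : ℂ) * Complex.I) = ((2 * Real.pi * x : ℝ) : ℂ) * Complex.I by
    push_cast; ring]
  exact Complex.norm_exp_ofReal_mul_I _

theorem e_ne_zero (x : ℝ) : e x ≠ 0 := Complex.exp_ne_zero _

theorem e_int (n : ℤ) : e (n : ℝ) = 1 := by
  unfold e
  rw [Complex.exp_eq_one_iff]
  exact ⟨n, by push_cast; ring⟩

theorem e_nat (n : ℕ) : e (n : ℝ) = 1 := by
  have := e_int (n : ℤ)
  simpa using this

theorem e_add_int (x : ℝ) (n : ℤ) : e (x + n) = e x := by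
  rw [e_add, e_int, mul_one]

theorem conj_e (x : ℝ) : (starRingEnd ℂ) (e x) = e (-x) := by
  unfold e
  rw [← Complex.exp_conj]
  congr 1
  rw [map_mul, map_mul, map_mul, Complex.conj_I, Complex.conj_ofReal, Complex.conj_ofReal,
    map_ofNat]
  push_cast
  ring

theorem e_nat_mul (x : ℝ) (n : ℕ) : e ((n : ℝ) * x) = e x ^ n := by
  induction n with
  | zero => simp [e_zero]
  | succ n ih =>
    rw [pow_succ, ← ih, ← e_add]
    congr 1
    push_cast
    ring

theorem e_eq_one_iff (x : ℝ) : e x = 1 ↔ ∃ n : ℤ, x = n := by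
  constructor
  · intro h1
    unfold e at h1
    rw [Complex.exp_eq_one_iff] at h1
    obtain ⟨n, hn⟩ := h1
    refine ⟨n, ?_⟩
    have hI : (2 * (Real.pi : ℂ) * Complex.I) ≠ 0 := Complex.two_pi_I_ne_zero
    have h2 : (x : ℂ) = n := by
      have : (2 * (Real.pi : ℂ) * Complex.I) * (x : ℂ) =
          (2 * (Real.pi : ℂ) * Complex.I) * n := by
        rw [mul_comm _ (n : ℂ), ← hn]; ring
      exact mul_left_cancel₀ hI this
    exact_mod_cast h2
  · rintro ⟨n, rfl⟩
    exact e_int n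

/-- Orthogonality of additive characters. -/
theorem geom_e (h : ℤ) (q : ℕ) (hq : 0 < q) :
    ∑ a ∈ range q, e ((a : ℝ) * h / q) = if (q : ℤ) ∣ h then (q : ℂ) else 0 := by
  have hq' : (q : ℝ) ≠ 0 := by exact_mod_cast hq.ne'
  have hpow : ∀ a : ℕ, e ((a : ℝ) * h / q) = (e ((h : ℝ) / q)) ^ a := by
    intro a
    rw [← e_nat_mul, mul_div_assoc]
  split_ifs with hd
  · obtain ⟨k, rfl⟩ := hd
    have : ∀ a ∈ range q, e ((a : ℝ) * (((q : ℤ) * k : ℤ) : ℝ) / q) = 1 := by
      intro a _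
      have : (a : ℝ) * (((q : ℤ) * k : ℤ) : ℝ) / q = ((a * k : ℤ) : ℝ) := by
        push_cast; field_simp
      rw [this, e_int]
    rw [Finset.sum_congr rfl this]
    simp
  · have hz : e ((h : ℝ) / q) ≠ 1 := by
      intro h1
      obtain ⟨n, hn⟩ := (e_eq_one_iff _).mp h1
      apply hd
      refine ⟨n, ?_⟩
      have h4 : (h : ℝ) = q * n := by
        rw [div_eq_iff hq'] at hn; rw [hn]; ring
      exact_mod_cast h4
    simp_rw [hpow]
    have h5 := geom_sum_mul (e ((h : ℝ) / q)) q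
    rw [← hpow q] at h5
    have h6 : e ((q : ℝ) * h / q) = 1 := by
      rw [mul_comm, mul_div_assoc, div_self hq', mul_one, e_int]
    rw [h6, sub_self] at h5
    exact (mul_eq_zero.mp h5).resolve_right (sub_ne_zero.mpr hz)

theorem sum_moebius_divisors (n : ℕ) :
    ∑ d ∈ n.divisors, (moebius d : ℂ) = if n = 1 then 1 else 0 := by
  have h := congrArg (fun f : ArithmeticFunction ℤ => f n) moebius_mul_coe_zeta
  simp only [coe_mul_zeta_apply, one_apply] at h
  have h2 : ((∑ d ∈ n.divisors, moebius d : ℤ) : ℂ) =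
      ((if n = 1 then 1 else 0 : ℤ) : ℂ) := by rw [h]
  push_cast at h2
  exact h2

/-- Ramanujan's sum as a divisor sum. -/
theorem ram_eq (Q n : ℕ) (hQ : 0 < Q) :
    ram Q n = ∑ d ∈ Q.divisors, (moebius d : ℂ) * (if (Q / d) ∣ n then ((Q / d : ℕ) : ℂ) else 0) := by
  classical
  have hQ' : (Q : ℝ) ≠ 0 := by exact_mod_cast hQ.ne'
  have h1 : ram Q n =
      ∑ a ∈ range Q, ∑ d ∈ Q.divisors.filter (fun d => d ∣ a),
        (moebius d : ℂ) * e ((a : ℝ) * n / Q) := by
    unfold ram
    rw [Finset.sum_filter]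
    refine Finset.sum_congr rfl fun a _ => ?_
    rw [← Finset.sum_mul]
    have hset : Q.divisors.filter (fun d => d ∣ a) = (Nat.gcd a Q).divisors := by
      ext d
      simp only [Finset.mem_filter, Nat.mem_divisors]
      constructor
      · rintro ⟨⟨h1, h2⟩, h3⟩
        exact ⟨Nat.dvd_gcd h3 h1, (Nat.gcd_pos_of_pos_right a hQ).ne'⟩
      · rintro ⟨h1, h2⟩
        exact ⟨⟨h1.trans (Nat.gcd_dvd_right _ _), hQ.ne'⟩, h1.trans (Nat.gcd_dvd_left _ _)⟩
    rw [hset, sum_moebius_divisors]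
    by_cases hc : Nat.Coprime a Q
    · rw [if_pos hc, if_pos hc, one_mul]
    · rw [if_neg hc, if_neg hc, zero_mul]
  have h2 : ∑ a ∈ range Q, ∑ d ∈ Q.divisors.filter (fun d => d ∣ a),
        (moebius d : ℂ) * e ((a : ℝ) * n / Q) =
      ∑ d ∈ Q.divisors, (moebius d : ℂ) *
        ∑ a ∈ (range Q).filter (fun a => d ∣ a), e ((a : ℝ) * n / Q) := by
    simp_rw [Finset.sum_filter, Finset.mul_sum]
    rw [Finset.sum_comm]
    refine Finset.sum_congr rfl fun d _ => Finset.sum_congr rfl fun a _ => ?_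
    split_ifs <;> simp
  have h3 : ∀ d ∈ Q.divisors, ∑ a ∈ (range Q).filter (fun a => d ∣ a), e ((a : ℝ) * n / Q) =
      if (Q / d) ∣ n then ((Q / d : ℕ) : ℂ) else 0 := by
    intro d hd
    rw [Nat.mem_divisors] at hd
    obtain ⟨k, hk⟩ := hd.1
    have hd0 : 0 < d := Nat.pos_of_dvd_of_pos hd.1 hQ
    have hk0 : 0 < k := by
      rcases Nat.eq_zero_or_pos k with rfl | h
      · omega
      · exact h
    have hQd : Q / d = k := by rw [hk]; exact Nat.mul_div_cancel_left k hd0
    have hg := geom_e (n : ℤ) k hk0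
    simp only [Int.natCast_dvd_natCast, Int.cast_natCast] at hg
    rw [hQd, ← hg]
    symm
    refine Finset.sum_bij (fun a _ => d * a) ?_ ?_ ?_ ?_
    · intro a ha
      rw [Finset.mem_range] at ha
      rw [Finset.mem_filter, Finset.mem_range]
      refine ⟨?_, dvd_mul_right _ _⟩
      rw [hk]; exact Nat.mul_lt_mul_of_pos_left ha hd0
    · intro a _ b _ hab
      exact Nat.eq_of_mul_eq_mul_left hd0 hab
    · intro b hb
      rw [Finset.mem_filter, Finset.mem_range] at hb
      obtain ⟨a, rfl⟩ := hb.2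
      refine ⟨a, ?_, rfl⟩
      rw [Finset.mem_range]
      have := hb.1
      rw [hk] at this
      exact lt_of_mul_lt_mul_left this (Nat.zero_le d)
    · intro a _
      congr 1
      rw [hk]
      push_cast
      have hd' : (d : ℝ) ≠ 0 := by exact_mod_cast hd0.ne'
      have hk' : (k : ℝ) ≠ 0 := by exact_mod_cast hk0.ne'
      field_simp
  rw [h1, h2, Finset.sum_congr rfl (fun d hd => by rw [h3 d hd])]

theorem card_coprime_range (q : ℕ) :
    ((range q).filter (fun a => Nat.Coprime a q)).card = Nat.totient q := by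
  rw [Nat.totient_eq_card_coprime]
  congr 1
  ext a
  simp [Nat.coprime_comm]

theorem norm_ram_le (q n : ℕ) : ‖ram q n‖ ≤ Nat.totient q := by
  unfold ram
  refine (norm_sum_le _ _).trans ?_
  simp only [norm_e, sum_const, nsmul_eq_mul, mul_one]
  rw [card_coprime_range]

end Vale.Agent.P026.TP
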