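import Vale.Agent.P026.TP.Base

/-!
# P026 (three primes), module M7: the singular series
-/

open Finset ArithmeticFunction

namespace Vale.Agent.P026.TP

/-- `m ↦ m` if `m ∣ n`, else `0`. -/
noncomputable def hR (n : ℕ) : ArithmeticFunction ℝ :=
  ⟨fun m => if m ∣ n then (m : ℝ) else 0, by simp⟩

theorem hR_apply (n m : ℕ) : hR n m = if m ∣ n then (m : ℝ) else 0 := rfl

theorem hR_mult (n : ℕ) : (hR n).IsMultiplicative := by
  refine ⟨by simp [hR_apply], ?_⟩
  intro m k hmk
  simp only [hR_apply]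
  by_cases h1 : m ∣ n
  · by_cases h2 : k ∣ n
    · rw [if_pos h1, if_pos h2, if_pos (hmk.mul_dvd_of_dvd_of_dvd h1 h2)]
      push_cast; ring
    · rw [if_neg h2, mul_zero, if_neg]
      exact fun h => h2 ((Dvd.intro_left m rfl).trans h)
  · rw [if_neg h1, zero_mul, if_neg]
    exact fun h => h1 ((Dvd.intro k rfl).trans h)

/-- The Ramanujan sum as a real arithmetic function. -/
noncomputable def ramR (n : ℕ) : ArithmeticFunction ℝ := (moebius : ArithmeticFunction ℝ) * hR n

theorem ramR_mult (n : ℕ) : (ramR n).IsMultiplicative :=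
  (isMultiplicative_moebius.intCast).mul (hR_mult n)

theorem ramR_apply (n q : ℕ) :
    ramR n q = ∑ d ∈ q.divisors, (moebius d : ℝ) * (if (q / d) ∣ n then ((q / d : ℕ) : ℝ) else 0) := by
  unfold ramR
  rw [ArithmeticFunction.mul_apply, Nat.sum_divisorsAntidiagonal
    (fun a b => ((moebius : ArithmeticFunction ℝ) a) * hR n b)]
  rfl

theorem ram_eq_ramR (q n : ℕ) (hq : 0 < q) : ram q n = (ramR n q : ℂ) := by
  rw [ram_eq q n hq, ramR_apply]
  push_cast
  refine Finset.sum_congr rfl fun d _ => ?_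
  split_ifs <;> simp

/-- The terms of the singular series. -/
noncomputable def fR (n q : ℕ) : ℝ := (moebius q : ℝ) / (Nat.totient q : ℝ) ^ 3 * ramR n q

theorem fR_zero (n : ℕ) : fR n 0 = 0 := by simp [fR]

theorem fR_one (n : ℕ) : fR n 1 = 1 := by
  simp [fR, (ramR_mult n).1]

theorem fR_mul (n : ℕ) {m k : ℕ} (h : Nat.Coprime m k) : fR n (m * k) = fR n m * fR n k := by
  unfold fR
  rw [Nat.totient_mul h, (ramR_mult n).2 h, isMultiplicative_moebius.2 h]
  push_cast
  rw [mul_pow]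
  ring

theorem abs_ramR_le (n q : ℕ) (hq : 0 < q) : |ramR n q| ≤ Nat.totient q := by
  have h1 := norm_ram_le q n
  rw [ram_eq_ramR q n hq, Complex.norm_real, Real.norm_eq_abs] at h1
  exact h1

theorem cube_le_totient {q : ℕ} (hq : Squarefree q) :
    (q : ℝ) ^ 3 ≤ 27 / 2 * (Nat.totient q : ℝ) ^ 4 := by
  have hq0 : q ≠ 0 := hq.ne_zero
  have h1 : ∏ p ∈ q.primeFactors, p = q := Nat.prod_primeFactors_of_squarefree hq
  have h2 : Nat.totient q = ∏ p ∈ q.primeFactors, (p - 1) := by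
    have := Nat.totient_mul_prod_primeFactors q
    rw [h1, mul_comm] at this
    exact Nat.eq_of_mul_eq_mul_left (Nat.pos_of_ne_zero hq0) this
  have h3 : (q : ℝ) ^ 3 = ∏ p ∈ q.primeFactors, (p : ℝ) ^ 3 := by
    conv_lhs => rw [← h1]
    push_cast
    rw [Finset.prod_pow]
  have h4 : (Nat.totient q : ℝ) ^ 4 = ∏ p ∈ q.primeFactors, ((p : ℝ) - 1) ^ 4 := by
    rw [h2, Finset.prod_pow]
    congr 1
    rw [Nat.cast_prod]
    refine Finset.prod_congr rfl fun p hp => ?_
    have := (Nat.prime_of_mem_primeFactors hp).one_lt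
    rw [Nat.cast_sub this.le]
    simp
  have h5 : ∏ p ∈ q.primeFactors, ((if p = 2 then (8 : ℝ) else 1) * (if p = 3 then (27 / 16 : ℝ) else 1))
      ≤ 27 / 2 := by
    rw [Finset.prod_mul_distrib, Finset.prod_ite_eq', Finset.prod_ite_eq']
    split_ifs <;> norm_num
  calc (q : ℝ) ^ 3 = ∏ p ∈ q.primeFactors, (p : ℝ) ^ 3 := h3
    _ ≤ ∏ p ∈ q.primeFactors, (((if p = 2 then (8 : ℝ) else 1) *
          (if p = 3 then (27 / 16 : ℝ) else 1)) * ((p : ℝ) - 1) ^ 4) := by
        refine Finset.prod_le_prod (fun p _ => by positivity) fun p hp => ?_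
        have hp' := Nat.prime_of_mem_primeFactors hp
        by_cases hp2 : p = 2
        · subst hp2; norm_num
        by_cases hp3 : p = 3
        · subst hp3; norm_num
        rw [if_neg hp2, if_neg hp3]
        have hp5 : 5 ≤ p := by
          have h2 := hp'.two_le
          by_contra hlt
          have : p = 4 := by omega
          subst this
          exact absurd hp' (by norm_num)
        have hp5' : (5 : ℝ) ≤ p := by exact_mod_cast hp5
        obtain ⟨x, hx⟩ : ∃ x : ℝ, (p : ℝ) = x + 5 := ⟨p - 5, by ring⟩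
        have hx0 : 0 ≤ x := by linarith
        rw [hx]
        nlinarith [pow_nonneg hx0 2, pow_nonneg hx0 3, pow_nonneg hx0 4]
    _ = (∏ p ∈ q.primeFactors, ((if p = 2 then (8 : ℝ) else 1) *
          (if p = 3 then (27 / 16 : ℝ) else 1))) * (Nat.totient q : ℝ) ^ 4 := by
        rw [Finset.prod_mul_distrib, h4]
    _ ≤ _ := mul_le_mul_of_nonneg_right h5 (by positivity)

/-- `φ(q)² ≥ q^{3/2} / 4` for squarefree `q`. -/
theorem totient_sq_ge {q : ℕ} (hq : Squarefree q) :
    (q : ℝ) * Real.sqrt q ≤ 4 * (Nat.totient q : ℝ) ^ 2 := by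
  have h1 := cube_le_totient hq
  have h2 : ((q : ℝ) * Real.sqrt q) ^ 2 ≤ (4 * (Nat.totient q : ℝ) ^ 2) ^ 2 := by
    rw [mul_pow, Real.sq_sqrt (Nat.cast_nonneg q)]
    nlinarith [pow_nonneg (Nat.cast_nonneg (α := ℝ) (Nat.totient q)) 4]
  exact le_of_sq_le_sq h2 (by positivity) |> fun h => h

theorem abs_fR_le (n q : ℕ) (hq : 0 < q) : |fR n q| ≤ 4 / ((q : ℝ) * Real.sqrt q) := by
  have hq' : (0 : ℝ) < q := by exact_mod_cast hq
  by_cases hs : Squarefree q
  · have hφ : (0 : ℝ) < Nat.totient q := by exact_mod_cast Nat.totient_pos.mpr hq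
    have h1 := totient_sq_ge hs
    unfold fR
    rw [abs_mul, abs_div, abs_pow, Nat.abs_cast]
    have hmu : |(moebius q : ℝ)| ≤ 1 := by
      have := abs_moebius_le_one (n := q)
      exact_mod_cast this
    calc |(moebius q : ℝ)| / (Nat.totient q : ℝ) ^ 3 * |ramR n q|
        ≤ 1 / (Nat.totient q : ℝ) ^ 3 * Nat.totient q := by
          gcongr
          exact abs_ramR_le n q hq
      _ = 1 / (Nat.totient q : ℝ) ^ 2 := by field_simp
      _ ≤ 4 / ((q : ℝ) * Real.sqrt q) := by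
          rw [div_le_div_iff₀ (by positivity) (by positivity)]
          linarith
  · have : moebius q = 0 := moebius_eq_zero_of_not_squarefree hs
    unfold fR
    rw [this]
    simp only [Int.cast_zero, zero_div, zero_mul, abs_zero]
    positivity

theorem inv_le_telescope (q : ℕ) (hq : 1 ≤ q) :
    1 / (((q + 1 : ℕ) : ℝ) * Real.sqrt ((q + 1 : ℕ) : ℝ)) ≤
      2 * (1 / Real.sqrt q - 1 / Real.sqrt ((q + 1 : ℕ) : ℝ)) := by
  have hq' : (0 : ℝ) < q := by exact_mod_cast hq
  set s := Real.sqrt q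
  set t := Real.sqrt ((q + 1 : ℕ) : ℝ)
  have hs : 0 < s := Real.sqrt_pos.mpr hq'
  have ht : 0 < t := Real.sqrt_pos.mpr (by positivity)
  have hs2 : s ^ 2 = q := Real.sq_sqrt hq'.le
  have ht2 : t ^ 2 = ((q + 1 : ℕ) : ℝ) := Real.sq_sqrt (by positivity)
  have hst : s ≤ t := Real.sqrt_le_sqrt (by push_cast; linarith)
  have hdiff : t ^ 2 - s ^ 2 = 1 := by rw [hs2, ht2]; push_cast; ring
  rw [← ht2]
  have h1 : 1 / s - 1 / t = (t - s) / (s * t) := by field_simp
  have h2 : (t - s) = 1 / (t + s) := by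
    rw [eq_div_iff (by positivity)]
    nlinarith
  rw [h1, h2, div_div, mul_one_div, div_le_div_iff₀ (by positivity) (by positivity)]
  nlinarith [mul_nonneg hs.le ht.le, mul_nonneg (mul_nonneg hs.le ht.le) (sub_nonneg.mpr hst),
    mul_nonneg (mul_nonneg ht.le ht.le) (sub_nonneg.mpr hst)]

theorem sum_Ioc_le (Q K : ℕ) (hQ : 1 ≤ Q) (hK : Q ≤ K) :
    ∑ q ∈ Ioc Q K, 1 / ((q : ℝ) * Real.sqrt q) ≤ 2 * (1 / Real.sqrt Q - 1 / Real.sqrt K) := by
  induction K, hK using Nat.le_induction with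
  | base => simp
  | succ K hK ih =>
    rw [← Finset.insert_Ioc_right_eq_Ioc_add_one hK, Finset.sum_insert (by simp)]
    have := inv_le_telescope K (hQ.trans hK)
    linarith

theorem summable_fR (n : ℕ) : Summable (fun q => ‖fR n q‖) := by
  have h1 : Summable (fun q : ℕ => 4 / ((q : ℝ) * Real.sqrt q)) := by
    have h2 : Summable (fun q : ℕ => 4 * (1 / (q : ℝ) ^ (3 / 2 : ℝ))) :=
      (Real.summable_one_div_nat_rpow.mpr (by norm_num)).mul_left 4
    refine h2.congr fun q => ?_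
    rcases Nat.eq_zero_or_pos q with rfl | hq
    · simp
    · have hq' : (0 : ℝ) < q := by exact_mod_cast hq
      rw [Real.sqrt_eq_rpow, show (3 / 2 : ℝ) = 1 + 1 / 2 by norm_num, Real.rpow_add hq',
        Real.rpow_one]
      ring
  refine Summable.of_nonneg_of_le (fun q => norm_nonneg _) (fun q => ?_) h1
  rcases Nat.eq_zero_or_pos q with rfl | hq
  · simp [fR_zero]
  · exact abs_fR_le n q hq

theorem ramR_prime (n : ℕ) {p : ℕ} (hp : p.Prime) :
    ramR n p = if p ∣ n then (p : ℝ) - 1 else -1 := by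
  rw [ramR_apply, Nat.Prime.sum_divisors hp]
  rw [Nat.div_self hp.pos, Nat.div_one, moebius_apply_prime hp]
  by_cases h : p ∣ n
  · simp [h]; ring
  · simp [h]

theorem tsum_pow (n : ℕ) (p : Nat.Primes) :
    ∑' k : ℕ, fR n ((p : ℕ) ^ k) =
      if (p : ℕ) ∣ n then 1 - 1 / ((p : ℝ) - 1) ^ 2 else 1 + 1 / ((p : ℝ) - 1) ^ 3 := by
  have hp := p.2
  have h1 : ∀ k ∉ range 2, fR n ((p : ℕ) ^ k) = 0 := by
    intro k hk
    rw [mem_range, not_lt] at hk
    unfold fR
    rw [moebius_apply_prime_pow hp (by omega), if_neg (by omega)]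
    simp
  rw [tsum_eq_sum h1, Finset.sum_range_succ, Finset.sum_range_one, pow_zero, pow_one, fR_one]
  unfold fR
  rw [ramR_prime n hp, moebius_apply_prime hp, Nat.totient_prime hp, Nat.cast_sub hp.one_lt.le]
  have hp1 : (0 : ℝ) < (p : ℝ) - 1 := by
    have : (1 : ℝ) < (p : ℕ) := by exact_mod_cast hp.one_lt
    linarith
  have hp1' := hp1.ne'
  split_ifs
  · push_cast
    field_simp
    ring
  · push_cast
    field_simp

theorem singular_eq (n : ℕ) : HasSum (fR n) (singular n) := by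
  have h1 := EulerProduct.eulerProduct_tprod (f := fR n) (fR_one n) (fun h => fR_mul n h)
    (summable_fR n) (fR_zero n)
  have h2 : ∑' q, fR n q = singular n := by
    rw [← h1]
    unfold singular
    exact tprod_congr fun p => tsum_pow n p
  rw [← h2]
  exact (summable_fR n).of_norm.hasSum

theorem term_eq (n q : ℕ) :
    ((moebius q : ℤ) : ℂ) / (Nat.totient q : ℂ) ^ 3 * ram q n = ((fR n q : ℝ) : ℂ) := by
  rcases Nat.eq_zero_or_pos q with rfl | hq
  · simp [fR]
  · rw [ram_eq_ramR q n hq]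
    unfold fR
    push_cast
    ring

theorem tail_le (n Q : ℕ) (hQ : 1 ≤ Q) :
    |singular n - ∑ q ∈ Icc 1 Q, fR n q| ≤ 8 / Real.sqrt Q := by
  have h1 : Filter.Tendsto (fun K => ∑ q ∈ range (K + 1), fR n q) Filter.atTop
      (nhds (singular n)) :=
    (singular_eq n).tendsto_sum_nat.comp (Filter.tendsto_add_atTop_nat 1)
  have h2 : Filter.Tendsto (fun K => |∑ q ∈ range (K + 1), fR n q - ∑ q ∈ Icc 1 Q, fR n q|)
      Filter.atTop (nhds |singular n - ∑ q ∈ Icc 1 Q, fR n q|) :=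
    (h1.sub_const _).abs
  refine le_of_tendsto h2 ?_
  filter_upwards [Filter.eventually_ge_atTop Q] with K hK
  have h3 : ∑ q ∈ range (K + 1), fR n q = ∑ q ∈ Icc 1 Q, fR n q + ∑ q ∈ Ioc Q K, fR n q := by
    have h4 : range (K + 1) = insert 0 (Icc 1 Q ∪ Ioc Q K) := by
      ext q
      simp only [mem_range, mem_insert, mem_union, mem_Icc, mem_Ioc]
      omega
    rw [h4, Finset.sum_insert, fR_zero, zero_add, Finset.sum_union]
    · rw [Finset.disjoint_left]
      intro q h5 h6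
      simp only [mem_Icc, mem_Ioc] at h5 h6
      omega
    · simp
  rw [h3, add_sub_cancel_left]
  calc |∑ q ∈ Ioc Q K, fR n q| ≤ ∑ q ∈ Ioc Q K, |fR n q| := Finset.abs_sum_le_sum_abs _ _
    _ ≤ ∑ q ∈ Ioc Q K, 4 * (1 / ((q : ℝ) * Real.sqrt q)) := by
        refine Finset.sum_le_sum fun q hq => ?_
        rw [mem_Ioc] at hq
        rw [mul_one_div]
        exact abs_fR_le n q (by omega)
    _ = 4 * ∑ q ∈ Ioc Q K, 1 / ((q : ℝ) * Real.sqrt q) := by rw [Finset.mul_sum]
    _ ≤ 4 * (2 * (1 / Real.sqrt Q - 1 / Real.sqrt K)) := by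
        gcongr
        exact sum_Ioc_le Q K hQ hK
    _ ≤ 8 / Real.sqrt Q := by
        have : 0 ≤ 1 / Real.sqrt K := by positivity
        have h7 : 8 / Real.sqrt Q = 8 * (1 / Real.sqrt Q) := by ring
        rw [h7]
        linarith

theorem singularStmt : SingularStmt := by
  refine ⟨fun n => ?_, 8, fun n Q hQ => ?_⟩
  · have h1 : HasSum (fun q => ((fR n q : ℝ) : ℂ)) ((singular n : ℝ) : ℂ) :=
      Complex.hasSum_ofReal.mpr (singular_eq n)
    refine h1.congr_fun ?_ |> fun h => h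
    intro q
    exact term_eq n q
  · have h2 : (singular n : ℂ) - ∑ q ∈ Icc 1 Q,
        ((moebius q : ℤ) : ℂ) / (Nat.totient q : ℂ) ^ 3 * ram q n =
        ((singular n - ∑ q ∈ Icc 1 Q, fR n q : ℝ) : ℂ) := by
      rw [Finset.sum_congr rfl (fun q _ => term_eq n q)]
      push_cast
      rfl
    rw [h2, Complex.norm_real, Real.norm_eq_abs]
    exact tail_le n Q hQ

end Vale.Agent.P026.TP
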