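import Mathlib

/-! A differential equation of first order excludes zeros. -/

open Set Filter Topology Complex

namespace Vale.Agent.P026.TP

theorem no_zero {E Ψ : ℂ → ℂ} {c : ℝ} (hc : c < 1) (hE : Differentiable ℂ E) (hE2 : E 2 ≠ 0)
    (hΨ : ∀ s : ℂ, c < s.re → DifferentiableAt ℂ Ψ s)
    (h : ∀ s : ℂ, 1 < s.re → (s - 1) * deriv E s = Ψ s * E s) {ρ : ℂ} (hρ : c < ρ.re)
    (hρ1 : ρ ≠ 1) : E ρ ≠ 0 := by
  intro h0
  have hopen : IsOpen {s : ℂ | c < s.re} := continuous_re.isOpen_preimage _ isOpen_Ioi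
  have hE' : Differentiable ℂ (deriv E) := hE.contDiff.differentiable_deriv_two
  have hA : AnalyticOnNhd ℂ (fun s => (s - 1) * deriv E s) {s : ℂ | c < s.re} :=
    (((differentiable_id.sub_const 1).mul hE').differentiableOn).analyticOnNhd hopen
  have hB : AnalyticOnNhd ℂ (fun s => Ψ s * E s) {s : ℂ | c < s.re} :=
    (DifferentiableOn.mul (fun s hs => (hΨ s hs).differentiableWithinAt)
      hE.differentiableOn).analyticOnNhd hopen
  have hpc : IsPreconnected {s : ℂ | c < s.re} := (convex_halfSpace_re_gt c).isPreconnected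
  have hEq : EqOn (fun s => (s - 1) * deriv E s) (fun s => Ψ s * E s) {s : ℂ | c < s.re} := by
    refine hA.eqOn_of_preconnected_of_eventuallyEq hB hpc (z₀ := 2) ?_ ?_
    · show c < (2 : ℂ).re
      simp
      linarith
    · have h2 : {s : ℂ | 1 < s.re} ∈ 𝓝 (2 : ℂ) :=
        (continuous_re.isOpen_preimage _ isOpen_Ioi).mem_nhds (by simp)
      filter_upwards [h2] with z hz
      exact h z hz
  have hloc : (fun s => (s - 1) * deriv E s) =ᶠ[𝓝 ρ] (fun s => Ψ s * E s) := by
    filter_upwards [hopen.mem_nhds hρ] with z hz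
    exact hEq hz
  have aE : AnalyticAt ℂ E ρ := hE.analyticAt ρ
  have aE' : AnalyticAt ℂ (deriv E) ρ := hE'.analyticAt ρ
  have aΨ : AnalyticAt ℂ Ψ ρ := by
    have : AnalyticOnNhd ℂ Ψ {s : ℂ | c < s.re} :=
      DifferentiableOn.analyticOnNhd (fun s hs => (hΨ s hs).differentiableWithinAt) hopen
    exact this ρ hρ
  have a1 : AnalyticAt ℂ (fun s : ℂ => s - 1) ρ := (differentiable_id.sub_const 1).analyticAt ρ
  have o1 : analyticOrderAt (fun s : ℂ => s - 1) ρ = 0 := by
    rw [a1.analyticOrderAt_eq_zero]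
    exact sub_ne_zero.mpr hρ1
  have oL : analyticOrderAt (fun s => (s - 1) * deriv E s) ρ = analyticOrderAt (deriv E) ρ := by
    have := analyticOrderAt_mul a1 aE'
    rw [o1, zero_add] at this
    exact this
  have oR : analyticOrderAt (fun s => Ψ s * E s) ρ = analyticOrderAt Ψ ρ + analyticOrderAt E ρ :=
    analyticOrderAt_mul aΨ aE
  have oeq := analyticOrderAt_congr hloc
  rw [oL, oR] at oeq
  have hd := aE.analyticOrderAt_deriv_add_one
  have hfun : (fun z => E z - E ρ) = E := by
    funext z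
    rw [h0, sub_zero]
  rw [hfun] at hd
  -- the order of `E` at `ρ` is infinite
  have htop : analyticOrderAt E ρ = ⊤ := by
    by_contra hne
    obtain ⟨n, hn⟩ := ENat.ne_top_iff_exists.mp hne
    rw [← hn] at hd oeq
    have h1 : analyticOrderAt (deriv E) ρ ≠ ⊤ := by
      intro h'
      rw [h'] at hd
      simp at hd
    obtain ⟨m, hm⟩ := ENat.ne_top_iff_exists.mp h1
    rw [← hm] at hd oeq
    have h2 : m + 1 = n := by exact_mod_cast hd
    have h3 : (n : ℕ∞) ≤ m := by
      rw [oeq]
      exact le_add_self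
    have h4 : n ≤ m := by exact_mod_cast h3
    omega
  rw [analyticOrderAt_eq_top] at htop
  have hall := (hE.differentiableOn (s := univ)).analyticOnNhd isOpen_univ
  have := hall.eqOn_zero_of_preconnected_of_eventuallyEq_zero isPreconnected_univ (mem_univ ρ) htop
  exact hE2 (this (mem_univ 2))

end Vale.Agent.P026.TP
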