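import Vale.Agent.P026.TP.Mellin
import Vale.Agent.P026.TP.NoZero

/-!
# P026 TP: from the rays to the zeros of Dirichlet L-functions
-/

open Finset ArithmeticFunction Filter Topology

namespace Vale.Agent.P026.TP

/-- the generating function has a polar asymptotic with saving `u ^ η` on the ray to `e β`. -/
def RaySave (β η : ℝ) : Prop :=
  ∃ (k : ℂ) (C u₁ : ℝ), 0 < u₁ ∧ ∀ u, 0 < u → u ≤ u₁ →
    ‖FL ((Real.exp (-u) : ℂ) * e β) - k / u‖ ≤ C * u ^ (-1 + η)

theorem RaySave.congr_e {β β' η : ℝ} (h : RaySave β η) (hβ : e β = e β') : RaySave β' η := by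
  unfold RaySave at h ⊢
  rw [← hβ]
  exact h

theorem char_expand {q : ℕ} [NeZero q] (χ : DirichletCharacter ℂ q) :
    ∃ c : ZMod q → ℂ, ∀ n : ℕ, χ (n : ZMod q) =
      ∑ j : ZMod q, c j * e ((n : ℝ) * ((j.val : ℝ) / q)) := by
  refine ⟨fun j => (q : ℂ)⁻¹ * ZMod.dft (fun x : ZMod q => χ x) j, fun n => ?_⟩
  have h1 : (ZMod.dft (N := q) (E := ℂ)).symm (ZMod.dft (fun x : ZMod q => χ x)) =
      fun x : ZMod q => χ x := LinearEquiv.symm_apply_apply _ _
  have h2 := congrFun h1 (n : ZMod q)
  rw [ZMod.invDFT_apply] at h2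
  rw [← h2, smul_eq_mul, Finset.mul_sum]
  refine Finset.sum_congr rfl fun j _ => ?_
  have h3 : ZMod.stdAddChar (N := q) (j * (n : ZMod q)) = e ((n : ℝ) * ((j.val : ℝ) / q)) := by
    have h4 : j * (n : ZMod q) = (((j.val * n : ℕ) : ℤ) : ZMod q) := by
      push_cast
      rw [ZMod.natCast_zmod_val]
    rw [h4, ZMod.stdAddChar_coe, e]
    congr 1
    push_cast
    ring
  rw [h3, smul_eq_mul]
  ring

theorem zeros_of_rays {q : ℕ} [NeZero q] {η : ℝ} (hη0 : 0 < η) (hη1 : η ≤ 1)
    (h : ∀ b : ℕ, RaySave ((b : ℝ) / q) η) (χ : DirichletCharacter ℂ q) {ρ : ℂ}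
    (hρ1 : ρ ≠ 1) (hρ : 1 - η < ρ.re) : χ.LFunction ρ ≠ 0 := by
  obtain ⟨c, hc⟩ := char_expand χ
  choose k C u₁ hu₁ hk using h
  have hM := fun b : ℕ => mellin_ext hη0.le hη1 (hu₁ b) (hk b)
  choose M hMd hMe using hM
  -- the logarithmic derivative
  set Ψ : ℂ → ℂ := fun s => -(∑ j : ZMod q, c j * ((s - 1) * M j.val s + k j.val)) with hΨ
  have hΨd : ∀ s : ℂ, 1 - η < s.re → DifferentiableAt ℂ Ψ s := by
    intro s hs
    rw [hΨ]
    refine DifferentiableAt.neg ?_
    refine DifferentiableAt.fun_sum fun j _ => ?_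
    have := hMd j.val s hs
    fun_prop
  have hlog : ∀ s : ℂ, 1 < s.re → (s - 1) * deriv χ.LFunction s = Ψ s * χ.LFunction s := by
    intro s hs
    have hs1 : s - 1 ≠ 0 := by
      intro h
      have := congrArg Complex.re h
      simp at this
      linarith
    have hL0 : χ.LFunction s ≠ 0 := by
      rw [DirichletCharacter.LFunction_eq_LSeries χ hs]
      exact DirichletCharacter.LSeries_ne_zero_of_one_lt_re χ hs
    have h1 := DirichletCharacter.LSeries_twist_vonMangoldt_eq χ hs
    rw [← DirichletCharacter.deriv_LFunction_eq_deriv_LSeries χ hs,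
      ← DirichletCharacter.LFunction_eq_LSeries χ hs] at h1
    have h2 : LSeries ((fun n : ℕ => χ (n : ZMod q)) * fun n : ℕ => (vonMangoldt n : ℂ)) s =
        ∑ j : ZMod q, c j *
          LSeries (fun n : ℕ => (vonMangoldt n : ℂ) * e ((n : ℝ) * ((j.val : ℝ) / q))) s := by
      have hsum : ∀ β : ℝ, LSeriesSummable
          (fun n : ℕ => (vonMangoldt n : ℂ) * e ((n : ℝ) * β)) s := by
        intro β
        have h3 := (ArithmeticFunction.LSeriesSummable_vonMangoldt hs).norm
        refine Summable.of_norm (h3.congr fun i => ?_)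
        rw [LSeries.norm_term_eq, LSeries.norm_term_eq, norm_mul, norm_e, mul_one]
      have h4 : ((fun n : ℕ => χ (n : ZMod q)) * fun n : ℕ => (vonMangoldt n : ℂ)) =
          ∑ j : ZMod q, c j • fun n : ℕ =>
            (vonMangoldt n : ℂ) * e ((n : ℝ) * ((j.val : ℝ) / q)) := by
        funext n
        rw [Pi.mul_apply, hc n, Finset.sum_mul, Finset.sum_apply]
        refine Finset.sum_congr rfl fun j _ => ?_
        rw [Pi.smul_apply, smul_eq_mul]
        ring
      rw [h4, LSeries_sum fun j _ => (hsum _).smul _]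
      refine Finset.sum_congr rfl fun j _ => ?_
      rw [LSeries_smul]
    rw [h2] at h1
    have h5 : -deriv χ.LFunction s = (∑ j : ZMod q, c j *
          LSeries (fun n : ℕ => (vonMangoldt n : ℂ) * e ((n : ℝ) * ((j.val : ℝ) / q))) s) *
        χ.LFunction s := by
      rw [h1]; field_simp
    have h6 : deriv χ.LFunction s = -((∑ j : ZMod q, c j *
          LSeries (fun n : ℕ => (vonMangoldt n : ℂ) * e ((n : ℝ) * ((j.val : ℝ) / q))) s) *
        χ.LFunction s) := by
      rw [← h5, neg_neg]
    rw [h6, hΨ]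
    simp only
    rw [mul_neg, ← mul_assoc, Finset.mul_sum, neg_mul]
    congr 2
    refine Finset.sum_congr rfl fun j _ => ?_
    rw [hMe j.val s hs]
    field_simp
  rcases eq_or_ne χ 1 with rfl | hχ
  · intro h0
    have hEd := DirichletCharacter.differentiable_LFunctionTrivChar₁ q
    have hE2 : DirichletCharacter.LFunctionTrivChar₁ q 2 ≠ 0 := by
      rw [DirichletCharacter.LFunctionTrivChar₁, Function.update_of_ne (by norm_num)]
      refine mul_ne_zero (by norm_num) ?_
      have : (1 : ℝ) < (2 : ℂ).re := by simp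
      rw [DirichletCharacter.LFunctionTrivChar, DirichletCharacter.LFunction_eq_LSeries _ this]
      exact DirichletCharacter.LSeries_ne_zero_of_one_lt_re _ this
    have hne := no_zero (E := DirichletCharacter.LFunctionTrivChar₁ q) (Ψ := fun s => 1 + Ψ s)
      (c := 1 - η) (by linarith) hEd hE2 (fun s hs => (hΨd s hs).const_add 1) (fun s hs => by
        have hs1 : s ≠ 1 := by
          intro h
          rw [h] at hs
          simp at hs
        rw [DirichletCharacter.deriv_LFunctionTrivChar₁_apply_of_ne_one q hs1,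
          DirichletCharacter.LFunctionTrivChar₁, Function.update_of_ne hs1]
        have := hlog s hs
        rw [DirichletCharacter.LFunctionTrivChar]
        linear_combination (s - 1) * this) hρ hρ1
    apply hne
    rw [DirichletCharacter.LFunctionTrivChar₁, Function.update_of_ne hρ1,
      DirichletCharacter.LFunctionTrivChar, h0, mul_zero]
  · have hE2 : χ.LFunction 2 ≠ 0 := by
      have : (1 : ℝ) < (2 : ℂ).re := by simp
      rw [DirichletCharacter.LFunction_eq_LSeries _ this]
      exact DirichletCharacter.LSeries_ne_zero_of_one_lt_re _ this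
    exact no_zero (c := 1 - η) (by linarith) (DirichletCharacter.differentiable_LFunction hχ)
      hE2 hΨd hlog hρ hρ1

end Vale.Agent.P026.TP
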