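import Mathlib

/-! Roots of functions on a short interval `(0, u₀]`. -/

open Set Filter Topology

namespace Vale.Agent.P026.TP

/-- the principal cube root close to `1` -/
theorem croot_bound {V : ℂ} (hV : ‖V - 1‖ ≤ 1 / 2) :
    (V ^ ((3 : ℕ) : ℂ)⁻¹) ^ 3 = V ∧ ‖V ^ ((3 : ℕ) : ℂ)⁻¹ - 1‖ ≤ ‖V - 1‖ ∧ V ∈ Complex.slitPlane := by
  have hre : 1 / 2 ≤ V.re := by
    have h1 := Complex.abs_re_le_norm (V - 1)
    simp only [Complex.sub_re, Complex.one_re] at h1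
    have h2 := neg_abs_le (V.re - 1)
    linarith
  have hV0 : V ≠ 0 := by
    intro h
    rw [h] at hre
    simp at hre
    linarith
  have hslit : V ∈ Complex.slitPlane := Or.inl (by linarith)
  set ρ : ℂ := V ^ ((3 : ℕ) : ℂ)⁻¹ with hρ
  have h3 : ρ ^ 3 = V := Complex.cpow_nat_inv_pow V (by norm_num)
  refine ⟨h3, ?_, hslit⟩
  -- the argument of `V`
  have harg : |V.arg| ≤ Real.pi / 2 := Complex.abs_arg_le_pi_div_two_iff.mpr (by linarith)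
  have hexp : ρ = Complex.exp (Complex.log V * (((1 / 3 : ℝ)) : ℂ)) := by
    rw [hρ, Complex.cpow_def_of_ne_zero hV0]
    congr 2
    push_cast
    norm_num
  have hpi := Real.pi_pos
  have hρre : 0 ≤ ρ.re := by
    rw [hexp, Complex.exp_re]
    refine mul_nonneg (Real.exp_pos _).le (Real.cos_nonneg_of_mem_Icc ?_)
    rw [Complex.mul_im, Complex.ofReal_im, Complex.ofReal_re, Complex.log_im, mul_zero, zero_add]
    rw [abs_le] at harg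
    constructor <;> linarith
  have hρ2re : 0 ≤ (ρ ^ 2).re := by
    rw [hexp, ← Complex.exp_nat_mul, Complex.exp_re]
    refine mul_nonneg (Real.exp_pos _).le (Real.cos_nonneg_of_mem_Icc ?_)
    have : (((2 : ℕ) : ℂ) * (Complex.log V * (((1 / 3 : ℝ)) : ℂ))).im = 2 / 3 * V.arg := by
      rw [Complex.mul_im, Complex.mul_im, Complex.ofReal_im, Complex.ofReal_re, Complex.log_im]
      simp
      ring
    rw [this]
    rw [abs_le] at harg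
    constructor <;> linarith
  have hq : 1 ≤ ‖ρ ^ 2 + ρ + 1‖ := by
    have h1 := Complex.re_le_norm (ρ ^ 2 + ρ + 1)
    simp only [Complex.add_re, Complex.one_re] at h1
    linarith
  have hfac : V - 1 = (ρ - 1) * (ρ ^ 2 + ρ + 1) := by
    rw [← h3]
    ring
  rw [hfac, norm_mul]
  exact le_mul_of_one_le_right (norm_nonneg _) hq

/-- A continuous function whose cube is `(c / u)³ + O(u ^ (-3 + δ))`. -/
theorem cube_root {G : ℝ → ℂ} {u₀ c' δ : ℝ} {c : ℂ} (hu₀ : 0 < u₀)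
    (hδ : 0 < δ) (hc : c ≠ 0) (hG : ContinuousOn G (Ioc 0 u₀))
    (h : ∀ u ∈ Ioc 0 u₀, ‖G u ^ 3 - c ^ 3 / (u : ℂ) ^ 3‖ ≤ c' * u ^ (-3 + δ)) :
    ∃ (k : ℂ) (C u₁ : ℝ), 0 < u₁ ∧ u₁ ≤ u₀ ∧ ∀ u ∈ Ioc 0 u₁,
      ‖G u - k / (u : ℂ)‖ ≤ C * u ^ (-1 + δ) := by
  have hcn : 0 < ‖c‖ := norm_pos_iff.mpr hc
  set K : ℝ := |c'| / ‖c‖ ^ 3 + 1 with hK
  have hK0 : 0 < K := by positivity
  -- choose `u₁` with `K u₁ ^ δ ≤ 1 / 2`
  have hlim : Tendsto (fun u : ℝ => K * u ^ δ) (𝓝[>] 0) (𝓝 0) := by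
    have h1 : Tendsto (fun u : ℝ => u ^ δ) (𝓝[>] 0) (𝓝 0) := by
      have := (Real.continuousAt_rpow_const 0 δ (Or.inr hδ.le)).tendsto
      rw [Real.zero_rpow hδ.ne'] at this
      exact this.mono_left nhdsWithin_le_nhds
    simpa using h1.const_mul K
  have hev : ∀ᶠ u : ℝ in 𝓝[>] 0, K * u ^ δ < 1 / 2 := hlim.eventually (gt_mem_nhds (by norm_num))
  obtain ⟨u₂, hu₂, hu₂'⟩ := (mem_nhdsGT_iff_exists_Ioc_subset).mp hev
  set u₁ : ℝ := min u₂ u₀ with hu₁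
  have hu₁0 : 0 < u₁ := lt_min hu₂ hu₀
  have hu₁1 : u₁ ≤ u₀ := min_le_right _ _
  set V : ℝ → ℂ := fun u => ((u : ℂ) * G u / c) ^ 3 with hV
  have hVb : ∀ u ∈ Ioc 0 u₁, ‖V u - 1‖ ≤ K * u ^ δ := by
    intro u hu
    have hu0 : 0 < u := hu.1
    have huc : (u : ℂ) ≠ 0 := by exact_mod_cast hu0.ne'
    have h1 := h u ⟨hu.1, hu.2.trans hu₁1⟩
    have e1 : V u - 1 = (u : ℂ) ^ 3 / c ^ 3 * (G u ^ 3 - c ^ 3 / (u : ℂ) ^ 3) := by
      rw [hV]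
      field_simp
    rw [e1, norm_mul, norm_div, norm_pow, norm_pow, Complex.norm_real, Real.norm_of_nonneg hu0.le]
    calc u ^ 3 / ‖c‖ ^ 3 * ‖G u ^ 3 - c ^ 3 / (u : ℂ) ^ 3‖
        ≤ u ^ 3 / ‖c‖ ^ 3 * (|c'| * u ^ (-3 + δ)) := by
          refine mul_le_mul_of_nonneg_left (h1.trans ?_) (by positivity)
          exact mul_le_mul_of_nonneg_right (le_abs_self _) (by positivity)
      _ = |c'| / ‖c‖ ^ 3 * (u ^ (3 : ℝ) * u ^ (-3 + δ)) := by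
          rw [show u ^ (3 : ℝ) = u ^ 3 by norm_cast]
          ring
      _ = |c'| / ‖c‖ ^ 3 * u ^ δ := by
          rw [← Real.rpow_add hu0]
          ring_nf
      _ ≤ K * u ^ δ := mul_le_mul_of_nonneg_right (by rw [hK]; linarith) (by positivity)
  have hVhalf : ∀ u ∈ Ioc 0 u₁, ‖V u - 1‖ ≤ 1 / 2 := by
    intro u hu
    have := hu₂' ⟨hu.1, hu.2.trans (min_le_left _ _)⟩
    exact (hVb u hu).trans (le_of_lt this)
  set ρ : ℝ → ℂ := fun u => V u ^ ((3 : ℕ) : ℂ)⁻¹ with hρ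
  have hρ3 : ∀ u ∈ Ioc 0 u₁, ρ u ^ 3 = V u := fun u hu => (croot_bound (hVhalf u hu)).1
  have hρ1 : ∀ u ∈ Ioc 0 u₁, ‖ρ u - 1‖ ≤ K * u ^ δ := fun u hu =>
    (croot_bound (hVhalf u hu)).2.1.trans (hVb u hu)
  have hVne : ∀ u ∈ Ioc 0 u₁, V u ≠ 0 := fun u hu =>
    Complex.slitPlane_ne_zero (croot_bound (hVhalf u hu)).2.2
  have hρne : ∀ u ∈ Ioc 0 u₁, ρ u ≠ 0 := by
    intro u hu h0
    have := hρ3 u hu
    rw [h0] at this
    exact hVne u hu (by rw [← this]; norm_num)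
  have hWc : ContinuousOn (fun u : ℝ => (u : ℂ) * G u / c) (Ioc 0 u₁) :=
    ((Complex.continuous_ofReal.continuousOn).mul
      (hG.mono (Ioc_subset_Ioc_right hu₁1))).div_const c
  have hVc : ContinuousOn V (Ioc 0 u₁) := hWc.pow 3
  have hρc : ContinuousOn ρ (Ioc 0 u₁) :=
    hVc.cpow_const fun u hu => (croot_bound (hVhalf u hu)).2.2
  have hωc : ContinuousOn (fun u : ℝ => ((u : ℂ) * G u / c) / ρ u) (Ioc 0 u₁) :=
    hWc.div hρc hρne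
  have hω3 : ∀ u ∈ Ioc 0 u₁, (((u : ℂ) * G u / c) / ρ u) ^ 3 = 1 := by
    intro u hu
    rw [div_pow, hρ3 u hu]
    exact div_self (hVne u hu)
  have hfin : {z : ℂ | z ^ 3 = 1}.Finite := by
    refine ((Polynomial.nthRoots 3 (1 : ℂ)).toFinset.finite_toSet).subset fun z hz => ?_
    rw [mem_ofPred_eq] at hz
    simp [Polynomial.mem_nthRoots (by norm_num : 0 < 3), hz]
  set ω : ℂ := ((u₁ : ℂ) * G u₁ / c) / ρ u₁ with hω
  have hconst : ∀ u ∈ Ioc 0 u₁, ((u : ℂ) * G u / c) / ρ u = ω := by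
    intro u hu
    exact isPreconnected_Ioc.constant_of_mapsTo hfin.isDiscrete hωc
      (fun v hv => hω3 v hv) hu (right_mem_Ioc.mpr hu₁0)
  have hωn : ‖ω‖ = 1 := by
    have h1 := hω3 u₁ (right_mem_Ioc.mpr hu₁0)
    rw [← hω] at h1
    have h2 : ‖ω‖ ^ 3 = 1 := by rw [← norm_pow, h1, norm_one]
    exact (pow_eq_one_iff_of_nonneg (norm_nonneg _) (by norm_num)).mp h2
  refine ⟨ω * c, ‖c‖ * K, u₁, hu₁0, hu₁1, fun u hu => ?_⟩
  have hu0 : 0 < u := hu.1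
  have huc : (u : ℂ) ≠ 0 := by exact_mod_cast hu0.ne'
  have h1 := hconst u hu
  have h2 : G u = ω * c * ρ u / u := by
    have h3 := hρne u hu
    rw [div_div, div_eq_iff (mul_ne_zero hc h3)] at h1
    rw [eq_div_iff huc]
    linear_combination h1
  have h3 : G u - ω * c / u = ω * c / u * (ρ u - 1) := by
    rw [h2]
    ring
  rw [h3, norm_mul, norm_div, norm_mul, hωn, one_mul, Complex.norm_real,
    Real.norm_of_nonneg hu0.le]
  calc ‖c‖ / u * ‖ρ u - 1‖ ≤ ‖c‖ / u * (K * u ^ δ) :=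
        mul_le_mul_of_nonneg_left (hρ1 u hu) (by positivity)
    _ = ‖c‖ * K * (u ^ (-1 : ℝ) * u ^ δ) := by
        rw [Real.rpow_neg_one]
        ring
    _ = ‖c‖ * K * u ^ (-1 + δ) := by rw [← Real.rpow_add hu0]

/-- A function whose cube is `O(u ^ (-3 + δ))`. -/
theorem cube_zero {G : ℝ → ℂ} {u₀ c' δ : ℝ}
    (h : ∀ u ∈ Ioc 0 u₀, ‖G u ^ 3‖ ≤ c' * u ^ (-3 + δ)) :
    ∃ C : ℝ, ∀ u ∈ Ioc 0 u₀, ‖G u‖ ≤ C * u ^ (-1 + δ / 3) := by
  refine ⟨|c'| ^ (1 / 3 : ℝ), fun u hu => ?_⟩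
  have hu0 : 0 < u := hu.1
  have h1 : ‖G u‖ ^ 3 ≤ |c'| * u ^ (-3 + δ) := by
    rw [← norm_pow]
    exact (h u hu).trans (mul_le_mul_of_nonneg_right (le_abs_self _) (by positivity))
  have h2 : (|c'| ^ (1 / 3 : ℝ) * u ^ (-1 + δ / 3)) ^ 3 = |c'| * u ^ (-3 + δ) := by
    rw [mul_pow, ← Real.rpow_natCast, ← Real.rpow_natCast, ← Real.rpow_mul (abs_nonneg _),
      ← Real.rpow_mul hu0.le, show (1 / 3 : ℝ) * ((3 : ℕ) : ℝ) = 1 by norm_num,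
      show (-1 + δ / 3) * ((3 : ℕ) : ℝ) = -3 + δ by push_cast; ring, Real.rpow_one]
  rw [← h2] at h1
  exact (pow_le_pow_iff_left₀ (norm_nonneg _) (by positivity) (by norm_num)).mp h1

end Vale.Agent.P026.TP
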