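import Vale.Agent.P026.TP.Ray3
import Vale.Agent.P026.TP.Root
import Vale.Agent.P026.TP.Chars

/-!
# P026 TP-M8: a power saving in the three primes theorem excludes zeros
-/

open Finset ArithmeticFunction Filter Topology

namespace Vale.Agent.P026.TP

theorem RaySave.mono {β η η' : ℝ} (h : RaySave β η) (hη : η' ≤ η) : RaySave β η' := by
  obtain ⟨k, C, u₁, hu₁, hk⟩ := h
  refine ⟨k, |C|, min u₁ 1, lt_min hu₁ one_pos, fun u hu0 hu => ?_⟩
  have h1 := hk u hu0 (hu.trans (min_le_left _ _))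
  have hu1 : u ≤ 1 := hu.trans (min_le_right _ _)
  refine h1.trans ?_
  have h2 : u ^ (-1 + η) ≤ u ^ (-1 + η') :=
    Real.rpow_le_rpow_of_exponent_ge hu0 hu1 (by linarith)
  calc C * u ^ (-1 + η) ≤ |C| * u ^ (-1 + η) :=
        mul_le_mul_of_nonneg_right (le_abs_self _) (by positivity)
    _ ≤ |C| * u ^ (-1 + η') := mul_le_mul_of_nonneg_left h2 (abs_nonneg _)

/-- reduction of a fraction to its lowest terms -/
theorem reduce_frac (b : ℕ) {q : ℕ} (hq : 1 ≤ q) :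
    ∃ a q' : ℕ, 1 ≤ q' ∧ q' ∣ q ∧ Nat.Coprime a q' ∧ (b : ℝ) / q = (a : ℝ) / q' := by
  have hg : 0 < Nat.gcd b q := Nat.gcd_pos_of_pos_right _ hq
  refine ⟨b / Nat.gcd b q, q / Nat.gcd b q, ?_, Nat.div_dvd_of_dvd (Nat.gcd_dvd_right _ _),
    Nat.coprime_div_gcd_div_gcd hg, ?_⟩
  · exact Nat.div_pos (Nat.le_of_dvd hq (Nat.gcd_dvd_right _ _)) hg
  · have hg0 : ((Nat.gcd b q : ℕ) : ℝ) ≠ 0 := by exact_mod_cast hg.ne'
    rw [Nat.cast_div (Nat.gcd_dvd_left _ _) hg0, Nat.cast_div (Nat.gcd_dvd_right _ _) hg0]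
    rw [div_div_div_cancel_right₀ hg0]

/-- the rays to `e(a/q)` from the cube, for squarefree `q` -/
theorem raySave_of_cube {q a : ℕ} (hq : 1 ≤ q) {δ : ℝ} (hδ : 0 < δ)
    (hmu : moebius q ≠ 0)
    (h : ∃ C u₀ : ℝ, 0 < u₀ ∧ ∀ u, 0 < u → u ≤ u₀ →
      ‖FL ((Real.exp (-u) : ℂ) * e ((a : ℝ) / q)) ^ 3 -
        (((moebius q : ℤ) : ℂ) / (Nat.totient q : ℂ)) ^ 3 / (u : ℂ) ^ 3‖ ≤ C * u ^ (-3 + δ)) :
    RaySave ((a : ℝ) / q) δ := by
  obtain ⟨C, u₀, hu₀, hC⟩ := h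
  have hc : ((moebius q : ℤ) : ℂ) / (Nat.totient q : ℂ) ≠ 0 := by
    refine div_ne_zero (by exact_mod_cast hmu) ?_
    exact_mod_cast (Nat.totient_pos.mpr hq).ne'
  obtain ⟨k, C', u₁, hu₁, _, hk⟩ := cube_root (G := fun u : ℝ =>
    FL ((Real.exp (-u) : ℂ) * e ((a : ℝ) / q))) hu₀ hδ hc
    ((continuousOn_ray _).mono fun u hu => hu.1) (fun u hu => hC u hu.1 hu.2)
  exact ⟨k, C', u₁, hu₁, fun u hu0 hu => hk u ⟨hu0, hu⟩⟩

/-- the rays to `e(a/q)` from the cube, for `q` which is not squarefree -/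
theorem raySave_of_cube_zero {q a : ℕ} {δ : ℝ}
    (hmu : moebius q = 0)
    (h : ∃ C u₀ : ℝ, 0 < u₀ ∧ ∀ u, 0 < u → u ≤ u₀ →
      ‖FL ((Real.exp (-u) : ℂ) * e ((a : ℝ) / q)) ^ 3 -
        (((moebius q : ℤ) : ℂ) / (Nat.totient q : ℂ)) ^ 3 / (u : ℂ) ^ 3‖ ≤ C * u ^ (-3 + δ)) :
    RaySave ((a : ℝ) / q) (δ / 3) := by
  obtain ⟨C, u₀, hu₀, hC⟩ := h
  rw [hmu] at hC
  obtain ⟨C', hC'⟩ := cube_zero (G := fun u : ℝ =>
    FL ((Real.exp (-u) : ℂ) * e ((a : ℝ) / q))) (u₀ := u₀) (c' := C) (δ := δ) (fun u hu => by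
      have := hC u hu.1 hu.2
      simpa using this)
  exact ⟨0, C', u₀, hu₀, fun u hu0 hu => by simpa using hC' u ⟨hu0, hu⟩⟩

theorem converseStmt (hS : SingularStmt) : ConverseStmt := by
  intro δ hδ0 hδ hT q _ χ s hs0 hs1 hL
  have hq : 1 ≤ q := NeZero.one_le
  have hs1' : s ≠ 1 := by
    intro h
    rw [h] at hs1
    simp at hs1
  constructor
  · by_contra hcon
    push Not at hcon
    refine zeros_of_rays (η := δ / 3) (by positivity) (by linarith) ?_ χ hs1' hcon hL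
    intro b
    obtain ⟨a, q', hq', _, hco, hab⟩ := reduce_frac b hq
    rw [hab]
    have hray := ray3 hS hδ0 hδ hT hq' hco
    by_cases hmu : moebius q' = 0
    · exact raySave_of_cube_zero hmu hray
    · exact (raySave_of_cube hq' hδ0 hmu hray).mono (by linarith)
  · intro hsq
    by_contra hcon
    push Not at hcon
    refine zeros_of_rays (η := δ) hδ0 (by linarith) ?_ χ hs1' hcon hL
    intro b
    obtain ⟨a, q', hq', hdvd, hco, hab⟩ := reduce_frac b hq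
    rw [hab]
    have hray := ray3 hS hδ0 hδ hT hq' hco
    have hmu : moebius q' ≠ 0 := moebius_ne_zero_iff_squarefree.mpr (hsq.squarefree_of_dvd hdvd)
    exact raySave_of_cube hq' hδ0 hmu hray

end Vale.Agent.P026.TP
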