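import Vale.Agent.P026.TP.Base

/-! Facts on `e x = exp (2 π i x)`. -/

open Finset Real

namespace Vale.Agent.P026.TP

/-- `|1 - e x| = 2 |sin (π x)|` -/
theorem norm_one_sub_e (x : ℝ) : ‖1 - e x‖ = 2 * |Real.sin (π * x)| := by
  have h1 : e x = Complex.exp (Complex.I * ((2 * π * x : ℝ) : ℂ)) := by
    rw [e]; push_cast; ring_nf
  rw [norm_sub_rev, h1, Complex.norm_exp_I_mul_ofReal_sub_one]
  rw [Real.norm_eq_abs, abs_mul, abs_of_pos (by norm_num : (0 : ℝ) < 2)]
  congr 3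
  ring

/-- `4 |x| ≤ |1 - e x|` for `|x| ≤ 1 / 2` -/
theorem norm_one_sub_e_ge {x : ℝ} (hx : |x| ≤ 1 / 2) : 4 * |x| ≤ ‖1 - e x‖ := by
  rw [norm_one_sub_e]
  have h1 : |Real.sin (π * x)| = Real.sin (π * |x|) := by
    rcases le_or_gt 0 x with h | h
    · rw [abs_of_nonneg h] at hx ⊢
      exact abs_of_nonneg (Real.sin_nonneg_of_nonneg_of_le_pi (by positivity)
        (by nlinarith [Real.pi_pos]))
    · rw [abs_of_neg h] at hx ⊢
      have : Real.sin (π * x) = -Real.sin (π * -x) := by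
        rw [mul_neg, Real.sin_neg, neg_neg]
      rw [this, abs_neg]
      exact abs_of_nonneg (Real.sin_nonneg_of_nonneg_of_le_pi (by nlinarith [Real.pi_pos])
        (by nlinarith [Real.pi_pos]))
  rw [h1]
  have h2 := Real.mul_le_sin (x := π * |x|) (by positivity) (by nlinarith [Real.pi_pos])
  have h3 : 2 / π * (π * |x|) = 2 * |x| := by
    field_simp
  rw [h3] at h2
  linarith

/-- distance to the nearest integer -/
theorem norm_one_sub_e_round (x : ℝ) : 4 * |x - round x| ≤ ‖1 - e x‖ := by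
  have h1 : e x = e (x - round x) := by
    have := e_add_int (x - round x) (round x)
    rw [sub_add_cancel] at this
    exact this
  rw [h1]
  exact norm_one_sub_e_ge (abs_sub_round x)

/-- a rational number that is not an integer is far from the integers -/
theorem norm_one_sub_e_rat {m : ℤ} {M : ℕ} (hM : 1 ≤ M) (hm : ¬ (M : ℤ) ∣ m) :
    4 / (M : ℝ) ≤ ‖1 - e ((m : ℝ) / M)‖ := by
  have hM0 : (0 : ℝ) < M := by exact_mod_cast hM
  refine le_trans ?_ (norm_one_sub_e_round _)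
  have h1 : (m : ℝ) / M - round ((m : ℝ) / M) =
      ((m - M * round ((m : ℝ) / M) : ℤ) : ℝ) / M := by
    push_cast
    field_simp
  rw [h1, abs_div, abs_of_pos hM0, mul_div_assoc']
  refine div_le_div_of_nonneg_right ?_ hM0.le
  have h2 : m - M * round ((m : ℝ) / M) ≠ 0 := by
    intro h
    exact hm ⟨_, sub_eq_zero.mp h⟩
  have h3 : (1 : ℝ) ≤ |((m - M * round ((m : ℝ) / M) : ℤ) : ℝ)| := by
    rw [← Int.cast_abs]
    exact_mod_cast Int.one_le_abs h2
  linarith

/-- `|1 - e x| ≤ 2 |1 - r e x|` for `0 ≤ r ≤ 1` -/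
theorem norm_one_sub_mul_e_ge {r : ℝ} (hr0 : 0 ≤ r) (hr1 : r ≤ 1) (x : ℝ) :
    ‖1 - e x‖ / 2 ≤ ‖1 - (r : ℂ) * e x‖ := by
  have h1 : 1 - r ≤ ‖1 - (r : ℂ) * e x‖ := by
    have := norm_sub_norm_le (1 : ℂ) ((r : ℂ) * e x)
    rw [norm_one, norm_mul, norm_e, mul_one, Complex.norm_real, Real.norm_of_nonneg hr0] at this
    exact this
  have h2 : ‖1 - e x‖ ≤ ‖1 - (r : ℂ) * e x‖ + (1 - r) := by
    have e1 : 1 - e x = (1 - (r : ℂ) * e x) + ((r - 1 : ℝ) : ℂ) * e x := by push_cast; ring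
    rw [e1]
    refine (norm_add_le _ _).trans (add_le_add le_rfl ?_)
    rw [norm_mul, norm_e, mul_one, Complex.norm_real, Real.norm_eq_abs, abs_of_nonpos (by linarith)]
    linarith
  linarith

end Vale.Agent.P026.TP
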