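import Mathlib
import Vale.Agent.P026.TP.E

/-! The cube of the generating function of the von Mangoldt function. -/

open Finset Real ArithmeticFunction

namespace Vale.Agent.P026.TP

/-- the generating function `∑ Λ(n) zⁿ` -/
noncomputable def FL (z : ℂ) : ℂ := ∑' n : ℕ, (vonMangoldt n : ℂ) * z ^ n

theorem vM_le (n : ℕ) : vonMangoldt n ≤ n := by
  rcases Nat.eq_zero_or_pos n with rfl | hn
  · simp
  · have hn0 : (0 : ℝ) < n := by exact_mod_cast hn
    have h1 := vonMangoldt_le_log (n := n)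
    have h2 := Real.log_le_sub_one_of_pos hn0
    linarith

theorem summable_FL {z : ℂ} (hz : ‖z‖ < 1) :
    Summable (fun n : ℕ => ‖(vonMangoldt n : ℂ) * z ^ n‖) := by
  have h1 : Summable (fun n : ℕ => ‖(n : ℝ) ^ 1 * ‖z‖ ^ n‖) :=
    summable_norm_pow_mul_geometric_of_norm_lt_one 1 (by simpa using hz)
  refine Summable.of_nonneg_of_le (fun n => norm_nonneg _) (fun n => ?_) h1
  rw [norm_mul, norm_pow, Complex.norm_real, Real.norm_of_nonneg vonMangoldt_nonneg, pow_one,
    Real.norm_of_nonneg (by positivity)]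
  exact mul_le_mul_of_nonneg_right (vM_le n) (by positivity)

theorem r3_eq_antidiag (n : ℕ) : r3 n = ∑ x ∈ antidiagonal n, ∑ y ∈ antidiagonal x.1,
    vonMangoldt y.1 * vonMangoldt y.2 * vonMangoldt x.2 := by
  set f : ℕ → ℝ := fun n => vonMangoldt n with hf
  -- expand the antidiagonals
  have hanti : ∀ (m N : ℕ) (g : ℕ → ℕ → ℝ), m ≤ N → ∑ y ∈ antidiagonal m, g y.1 y.2 =
      ∑ a ∈ range (N + 1), ∑ b ∈ range (N + 1), if a + b = m then g a b else 0 := by
    intro m N g hm
    rw [← Finset.sum_product', ← Finset.sum_filter]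
    refine Finset.sum_congr ?_ fun _ _ => rfl
    ext y
    simp only [Finset.HasAntidiagonal.mem_antidiagonal, Finset.mem_filter, Finset.mem_product, Finset.mem_range]
    omega
  have h1 : ∑ x ∈ antidiagonal n, ∑ y ∈ antidiagonal x.1, f y.1 * f y.2 * f x.2 =
      ∑ k ∈ range (n + 1), ∑ c ∈ range (n + 1), if k + c = n then
        ∑ y ∈ antidiagonal k, f y.1 * f y.2 * f c else 0 :=
    hanti n n (fun k c => ∑ y ∈ antidiagonal k, f y.1 * f y.2 * f c) le_rfl
  have h2 : ∑ k ∈ range (n + 1), ∑ c ∈ range (n + 1), (if k + c = n then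
        ∑ y ∈ antidiagonal k, f y.1 * f y.2 * f c else 0) =
      ∑ k ∈ range (n + 1), ∑ c ∈ range (n + 1), ∑ a ∈ range (n + 1), ∑ b ∈ range (n + 1),
        if k + c = n ∧ a + b = k then f a * f b * f c else 0 := by
    refine Finset.sum_congr rfl fun k hk => Finset.sum_congr rfl fun c _ => ?_
    have hk' : k ≤ n := by simpa [Nat.lt_succ_iff] using hk
    split_ifs with h
    · rw [hanti k n (fun a b => f a * f b * f c) hk']
      refine Finset.sum_congr rfl fun a _ => Finset.sum_congr rfl fun b _ => ?_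
      simp [h]
    · symm
      refine Finset.sum_eq_zero fun a _ => Finset.sum_eq_zero fun b _ => ?_
      simp [h]
  rw [h1, h2, r3]
  -- swap the sums
  have h3 : ∑ k ∈ range (n + 1), ∑ c ∈ range (n + 1), ∑ a ∈ range (n + 1), ∑ b ∈ range (n + 1),
        (if k + c = n ∧ a + b = k then f a * f b * f c else 0) =
      ∑ a ∈ range (n + 1), ∑ b ∈ range (n + 1), ∑ c ∈ range (n + 1), ∑ k ∈ range (n + 1),
        (if k + c = n ∧ a + b = k then f a * f b * f c else 0) := by
    calc _ = ∑ c ∈ range (n + 1), ∑ k ∈ range (n + 1), ∑ a ∈ range (n + 1), ∑ b ∈ range (n + 1),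
        (if k + c = n ∧ a + b = k then f a * f b * f c else 0) := Finset.sum_comm
      _ = ∑ c ∈ range (n + 1), ∑ a ∈ range (n + 1), ∑ k ∈ range (n + 1), ∑ b ∈ range (n + 1),
        (if k + c = n ∧ a + b = k then f a * f b * f c else 0) :=
          Finset.sum_congr rfl fun c _ => Finset.sum_comm
      _ = ∑ a ∈ range (n + 1), ∑ c ∈ range (n + 1), ∑ k ∈ range (n + 1), ∑ b ∈ range (n + 1),
        (if k + c = n ∧ a + b = k then f a * f b * f c else 0) := Finset.sum_comm
      _ = ∑ a ∈ range (n + 1), ∑ c ∈ range (n + 1), ∑ b ∈ range (n + 1), ∑ k ∈ range (n + 1),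
        (if k + c = n ∧ a + b = k then f a * f b * f c else 0) :=
          Finset.sum_congr rfl fun a _ => Finset.sum_congr rfl fun c _ => Finset.sum_comm
      _ = _ := Finset.sum_congr rfl fun a _ => Finset.sum_comm
  rw [h3]
  refine Finset.sum_congr rfl fun a _ => Finset.sum_congr rfl fun b _ =>
    Finset.sum_congr rfl fun c _ => ?_
  by_cases h : a + b + c = n
  · rw [if_pos h, Finset.sum_eq_single (a + b)]
    · rw [if_pos ⟨h, rfl⟩]
    · intro k _ hk
      rw [if_neg (fun h' => hk h'.2.symm)]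
    · intro hk
      exact absurd (Finset.mem_range.mpr (by omega)) hk
  · rw [if_neg h]
    symm
    refine Finset.sum_eq_zero fun k _ => ?_
    rw [if_neg]
    rintro ⟨h1, h2⟩
    omega

theorem r3_nonneg (n : ℕ) : 0 ≤ r3 n := by
  unfold r3
  refine Finset.sum_nonneg fun a _ => Finset.sum_nonneg fun b _ => Finset.sum_nonneg fun c _ => ?_
  split_ifs
  · exact mul_nonneg (mul_nonneg vonMangoldt_nonneg vonMangoldt_nonneg) vonMangoldt_nonneg
  · exact le_rfl

theorem FL_cube {z : ℂ} (hz : ‖z‖ < 1) :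
    Summable (fun n : ℕ => ‖(r3 n : ℂ) * z ^ n‖) ∧
      FL z ^ 3 = ∑' n : ℕ, (r3 n : ℂ) * z ^ n := by
  set f : ℕ → ℂ := fun n => (vonMangoldt n : ℂ) * z ^ n with hf
  have hs : Summable (fun n => ‖f n‖) := summable_FL hz
  set g : ℕ → ℂ := fun n => ∑ kl ∈ antidiagonal n, f kl.1 * f kl.2 with hg
  have hgs : Summable (fun n => ‖g n‖) := summable_norm_sum_mul_antidiagonal_of_summable_norm hs hs
  have h2 : FL z * FL z = ∑' n, g n := tsum_mul_tsum_eq_tsum_sum_antidiagonal_of_summable_norm hs hs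
  have h3 : (∑' n, g n) * FL z = ∑' n, ∑ kl ∈ antidiagonal n, g kl.1 * f kl.2 :=
    tsum_mul_tsum_eq_tsum_sum_antidiagonal_of_summable_norm hgs hs
  have hcs := summable_norm_sum_mul_antidiagonal_of_summable_norm hgs hs
  have heq : ∀ n, ∑ kl ∈ antidiagonal n, g kl.1 * f kl.2 = (r3 n : ℂ) * z ^ n := by
    intro n
    rw [r3_eq_antidiag]
    push_cast
    rw [Finset.sum_mul]
    refine Finset.sum_congr rfl fun x hx => ?_
    rw [Finset.HasAntidiagonal.mem_antidiagonal] at hx
    rw [hg]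
    simp only
    rw [Finset.sum_mul, Finset.sum_mul]
    refine Finset.sum_congr rfl fun y hy => ?_
    rw [Finset.HasAntidiagonal.mem_antidiagonal] at hy
    simp only [hf]
    rw [← hx, ← hy, pow_add, pow_add]
    ring
  simp only [heq] at hcs h3
  refine ⟨hcs, ?_⟩
  rw [← h3, ← h2]
  ring

end Vale.Agent.P026.TP
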