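import Mathlib

/-!
# P026: uniform quasi-Riemann hypothesis and Vinogradov's three primes theorem

Target theorem: the uniform quasi-Riemann hypothesis (question Q2 of P026) holds if and only if
Vinogradov's asymptotic formula for sums of three primes holds with a power saving.

This file holds the definitions used in the final statement and the interface of the modules.
-/

open Finset ArithmeticFunction

namespace Vale.Agent.P026.TP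

/-- Every zero in the strip `0 < Re s < 1` of every Dirichlet `L`-function has real part at
most `σ₀`. -/
def ZeroFree (σ₀ : ℝ) : Prop :=
  ∀ (q : ℕ) [NeZero q] (χ : DirichletCharacter ℂ q) (s : ℂ),
    0 < s.re → s.re < 1 → χ.LFunction s = 0 → s.re ≤ σ₀

/-- The uniform quasi-Riemann hypothesis: one half plane `Re s > σ₀` with `σ₀ < 1` is free of
nontrivial zeros of all Dirichlet `L`-functions. -/
def UniformQuasiRH : Prop := ∃ σ₀ : ℝ, σ₀ < 1 ∧ ZeroFree σ₀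

/-- The weighted number of representations of `n` as a sum of three primes,
`∑_{a + b + c = n} Λ(a) Λ(b) Λ(c)`. -/
noncomputable def r3 (n : ℕ) : ℝ :=
  ∑ a ∈ range (n + 1), ∑ b ∈ range (n + 1), ∑ c ∈ range (n + 1),
    if a + b + c = n then vonMangoldt a * vonMangoldt b * vonMangoldt c else 0

/-- The singular series of the ternary Goldbach problem,
`∏_{p ∣ n} (1 - 1 / (p - 1)²) ∏_{p ∤ n} (1 + 1 / (p - 1)³)`. -/
noncomputable def singular (n : ℕ) : ℝ :=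
  ∏' p : Nat.Primes,
    if (p : ℕ) ∣ n then 1 - 1 / ((p : ℝ) - 1) ^ 2 else 1 + 1 / ((p : ℝ) - 1) ^ 3

/-- Vinogradov's three primes theorem with an error term `O(n ^ (2 - δ))`. -/
def ThreePrimes (δ : ℝ) : Prop :=
  ∃ C : ℝ, ∀ n : ℕ, 1 ≤ n → |r3 n - singular n * (n : ℝ) ^ 2 / 2| ≤ C * (n : ℝ) ^ (2 - δ)

/-! ## Interface of the modules (not used in the final statement) -/

/-- `e x = exp (2 π i x)`. -/
noncomputable def e (x : ℝ) : ℂ := Complex.exp (2 * Real.pi * x * Complex.I)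

/-- Chebyshev's function in a residue class. -/
noncomputable def psiAP (x : ℝ) (q a : ℕ) : ℝ :=
  ∑ n ∈ (Icc 1 ⌊x⌋₊).filter (fun n => n ≡ a [MOD q]), vonMangoldt n

/-- Ramanujan's sum. -/
noncomputable def ram (q n : ℕ) : ℂ :=
  ∑ a ∈ (range q).filter (fun a => Nat.Coprime a q), e ((a : ℝ) * n / q)

/-- The truncated Ramanujan expansion of the von Mangoldt function. -/
noncomputable def lamQ (Q n : ℕ) : ℂ :=
  ∑ q ∈ Icc 1 Q, ((moebius q : ℤ) : ℂ) / (Nat.totient q : ℂ) * ram q n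

/-- [M1] primes in progressions with a power saving. -/
def PsiAPStmt : Prop := ∀ σ₀ : ℝ, σ₀ < 1 → ZeroFree σ₀ →
  ∃ η A C : ℝ, 0 < η ∧ η < 1 ∧ 0 < A ∧ 0 < C ∧ ∀ (q a : ℕ) (x : ℝ), 1 ≤ q → Nat.Coprime a q →
    1 ≤ x → |psiAP x q a - x / (Nat.totient q : ℝ)| ≤ C * (q : ℝ) ^ A * x ^ (1 - η)

/-- [M2] the exponential sum at a rational point. -/
def RatStmt : Prop := ∀ σ₀ : ℝ, σ₀ < 1 → ZeroFree σ₀ →
  ∃ η A C : ℝ, 0 < η ∧ η < 1 ∧ 0 < A ∧ 0 < C ∧ ∀ (q : ℕ) (a : ℤ) (x : ℝ), 1 ≤ q →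
    IsCoprime a (q : ℤ) → 1 ≤ x →
    ‖∑ n ∈ Icc 1 ⌊x⌋₊, (vonMangoldt n : ℂ) * e ((n : ℝ) * a / q) -
      ((moebius q : ℤ) : ℂ) / (Nat.totient q : ℂ) * x‖ ≤ C * (q : ℝ) ^ A * x ^ (1 - η)

/-- [M3] minor arcs. -/
def MinorStmt : Prop := ∀ κ : ℝ, 0 < κ → κ < 1 / 2 → ∃ δ C : ℝ, 0 < δ ∧ 0 < C ∧
  ∀ (N q : ℕ) (a : ℤ) (α : ℝ), 1 ≤ N → 1 ≤ q → IsCoprime a (q : ℤ) →
    |α - a / q| ≤ 1 / (q : ℝ) ^ 2 → (N : ℝ) ^ κ ≤ q → (q : ℝ) ≤ (N : ℝ) ^ (1 - κ) →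
    ‖∑ n ∈ Icc 1 N, (vonMangoldt n : ℂ) * e ((n : ℝ) * α)‖ ≤ C * (N : ℝ) ^ (1 - δ)

/-- [M4] uniform Fourier approximation of `Λ` by the model, from [M2] and [M3]. -/
def SupStmt : Prop := ∀ σ₀ : ℝ, σ₀ < 1 → ZeroFree σ₀ →
  ∃ c δ C : ℝ, 0 < c ∧ c ≤ 1 / 10 ∧ 0 < δ ∧ 0 < C ∧ ∀ (N : ℕ) (α : ℝ), 1 ≤ N →
    ‖∑ n ∈ Icc 1 N, ((vonMangoldt n : ℂ) - lamQ ⌊(N : ℝ) ^ c⌋₊ n) * e ((n : ℝ) * α)‖ ≤
      C * (N : ℝ) ^ (1 - δ)

/-- [M5] comparison of ternary convolutions: `f`, `g` on `1 ≤ n ≤ N` whose difference has a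
small Fourier transform have close ternary convolutions at `n = N`. -/
def CompareStmt : Prop := ∀ (N : ℕ) (f g : ℕ → ℂ) (B L : ℝ), 1 ≤ N → 0 ≤ B → 0 ≤ L →
  (∀ α : ℝ, ‖∑ n ∈ Icc 1 N, (f n - g n) * e ((n : ℝ) * α)‖ ≤ B) →
  ∑ n ∈ Icc 1 N, ‖f n‖ ^ 2 ≤ L → ∑ n ∈ Icc 1 N, ‖g n‖ ^ 2 ≤ L →
    ‖∑ a ∈ Icc 1 N, ∑ b ∈ Icc 1 N, ∑ c ∈ Icc 1 N, (if a + b + c = N then f a * f b * f c else 0) -
      ∑ a ∈ Icc 1 N, ∑ b ∈ Icc 1 N, ∑ c ∈ Icc 1 N,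
        (if a + b + c = N then g a * g b * g c else 0)‖ ≤ 3 * B * L

/-- [M6a] the square mean of the model. -/
def ModelSqStmt : Prop := ∃ C : ℝ, ∀ N Q : ℕ, 1 ≤ N → 1 ≤ Q → Q ^ 4 ≤ N →
  ∑ n ∈ Icc 1 N, ‖lamQ Q n‖ ^ 2 ≤ C * N * (1 + Real.log N) ^ 3

/-- [M6b] the ternary convolution of the model. -/
def ModelStmt : Prop := ∃ C : ℝ, ∀ N Q : ℕ, 1 ≤ N → 1 ≤ Q →
  ‖∑ a ∈ Icc 1 N, ∑ b ∈ Icc 1 N, ∑ c ∈ Icc 1 N,
      (if a + b + c = N then lamQ Q a * lamQ Q b * lamQ Q c else 0) -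
    (∑ q ∈ Icc 1 Q, ((moebius q : ℤ) : ℂ) / (Nat.totient q : ℂ) ^ 3 * ram q N) * (N : ℂ) ^ 2 / 2‖ ≤
    C * (Q : ℝ) ^ 5 * N

/-- [M7] the singular series as a series, with a bound for the tail. -/
def SingularStmt : Prop := (∀ n : ℕ, HasSum
    (fun q : ℕ => ((moebius q : ℤ) : ℂ) / (Nat.totient q : ℂ) ^ 3 * ram q n) (singular n : ℂ)) ∧
  ∃ C : ℝ, ∀ n Q : ℕ, 1 ≤ Q →
    ‖(singular n : ℂ) - ∑ q ∈ Icc 1 Q, ((moebius q : ℤ) : ℂ) / (Nat.totient q : ℂ) ^ 3 * ram q n‖ ≤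
      C / Real.sqrt Q

/-- [M9] the forward direction. -/
def ForwardStmt : Prop := UniformQuasiRH → ∃ δ : ℝ, 0 < δ ∧ ThreePrimes δ

/-- [M8] the converse direction, with explicit exponents. -/
def ConverseStmt : Prop := ∀ δ : ℝ, 0 < δ → δ ≤ 1 / 2 → ThreePrimes δ →
  ∀ (q : ℕ) [NeZero q] (χ : DirichletCharacter ℂ q) (s : ℂ),
    0 < s.re → s.re < 1 → χ.LFunction s = 0 → s.re ≤ 1 - δ / 3 ∧ (Squarefree q → s.re ≤ 1 - δ)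

end Vale.Agent.P026.TP
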