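import Mathlib

/-! From Riesz means with a power saving to sums with a power saving. -/

open Finset Real

namespace Vale.Agent.P026.TP

theorem desmooth (a : ℕ → ℂ) (c : ℂ) {K θ : ℝ} (hθ0 : 0 ≤ θ) (hθ : θ < 1) (hK : 0 ≤ K)
    (hc : ‖c‖ ≤ 1) (ha : ∀ n : ℕ, 1 ≤ n → ‖a n‖ ≤ 1 + Real.log n)
    (hR : ∀ x : ℝ, 1 ≤ x → ‖∑ n ∈ Icc 1 ⌊x⌋₊, a n * (1 - (n : ℂ) / x) -
      c * (x / 2 - 1 + 1 / (2 * x))‖ ≤ K * x ^ θ) (x : ℝ) (hx : 1 ≤ x) :
    ‖∑ n ∈ Icc 1 ⌊x⌋₊, a n - c * x‖ ≤ (5 * K + 5 + 8 / (1 - θ)) * x ^ ((3 + θ) / 4) := by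
  have hx0 : 0 < x := by linarith
  set h : ℝ := x ^ ((1 + θ) / 2) with hh
  have hh1 : 1 ≤ h := Real.one_le_rpow hx (by linarith)
  have hhx : h ≤ x := by
    calc h ≤ x ^ (1 : ℝ) := Real.rpow_le_rpow_of_exponent_le hx (by linarith)
      _ = x := Real.rpow_one x
  have hhh : h * h = x ^ (1 + θ) := by
    rw [hh, ← Real.rpow_add hx0]
    congr 1
    ring
  set y : ℝ := x + h with hy
  have hy1 : 1 ≤ y := by linarith
  have hy0 : 0 < y := by linarith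
  have hT : ∀ z : ℝ, 1 ≤ z → ‖∑ n ∈ Icc 1 ⌊z⌋₊, a n * ((z : ℂ) - n) -
      c * (z ^ 2 / 2 - z + 1 / 2)‖ ≤ K * z ^ (1 + θ) := by
    intro z hz
    have hz0 : 0 < z := by linarith
    have hzc : (z : ℂ) ≠ 0 := by exact_mod_cast hz0.ne'
    have e1 : ∑ n ∈ Icc 1 ⌊z⌋₊, a n * ((z : ℂ) - n) - c * (z ^ 2 / 2 - z + 1 / 2) =
        z * (∑ n ∈ Icc 1 ⌊z⌋₊, a n * (1 - (n : ℂ) / z) - c * (z / 2 - 1 + 1 / (2 * z))) := by
      rw [mul_sub, Finset.mul_sum]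
      congr 1
      · refine Finset.sum_congr rfl fun n _ => ?_
        field_simp
      · field_simp
    rw [e1, norm_mul, Complex.norm_real, Real.norm_of_nonneg hz0.le, Real.rpow_add hz0,
      Real.rpow_one]
    calc z * _ ≤ z * (K * z ^ θ) := mul_le_mul_of_nonneg_left (hR z hz) hz0.le
      _ = K * (z * z ^ θ) := by ring
  have hfl : ⌊x⌋₊ ≤ ⌊y⌋₊ := Nat.floor_le_floor (by linarith)
  have hsplit : ∑ n ∈ Icc 1 ⌊y⌋₊, a n * ((y : ℂ) - n) =
      ∑ n ∈ Icc 1 ⌊x⌋₊, a n * ((x : ℂ) - n) + h * ∑ n ∈ Icc 1 ⌊x⌋₊, a n +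
        ∑ n ∈ Ioc ⌊x⌋₊ ⌊y⌋₊, a n * ((y : ℂ) - n) := by
    have e1 : Icc 1 ⌊y⌋₊ = Icc 1 ⌊x⌋₊ ∪ Ioc ⌊x⌋₊ ⌊y⌋₊ := by
      ext n
      simp only [Finset.mem_union, Finset.mem_Icc, Finset.mem_Ioc]
      omega
    have e2 : Disjoint (Icc 1 ⌊x⌋₊) (Ioc ⌊x⌋₊ ⌊y⌋₊) := by
      rw [Finset.disjoint_left]
      intro n hn hn'
      rw [Finset.mem_Icc] at hn
      rw [Finset.mem_Ioc] at hn'
      omega
    rw [e1, Finset.sum_union e2]
    congr 1
    rw [Finset.mul_sum, ← Finset.sum_add_distrib]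
    refine Finset.sum_congr rfl fun n _ => ?_
    rw [hy]
    push_cast
    ring
  have hmid : ‖∑ n ∈ Ioc ⌊x⌋₊ ⌊y⌋₊, a n * ((y : ℂ) - n)‖ ≤ 2 * h * (h * (1 + Real.log y)) := by
    have hly : 0 ≤ Real.log y := Real.log_nonneg hy1
    calc ‖∑ n ∈ Ioc ⌊x⌋₊ ⌊y⌋₊, a n * ((y : ℂ) - n)‖
        ≤ ∑ n ∈ Ioc ⌊x⌋₊ ⌊y⌋₊, h * (1 + Real.log y) := by
          refine norm_sum_le_of_le _ fun n hn => ?_
          rw [Finset.mem_Ioc] at hn
          have hn1 : 1 ≤ n := by omega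
          have hnx : x < n := (Nat.floor_lt hx0.le).mp hn.1
          have hny : (n : ℝ) ≤ y := (Nat.le_floor_iff hy0.le).mp hn.2
          have hn0 : (0 : ℝ) < n := by exact_mod_cast hn1
          rw [norm_mul, mul_comm]
          have e1 : ‖(y : ℂ) - n‖ ≤ h := by
            have : (y : ℂ) - n = ((y - n : ℝ) : ℂ) := by push_cast; ring
            rw [this, Complex.norm_real, Real.norm_of_nonneg (by linarith)]
            linarith
          have e2 : ‖a n‖ ≤ 1 + Real.log y := by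
            have := Real.log_le_log hn0 hny
            linarith [ha n hn1]
          exact mul_le_mul e1 e2 (norm_nonneg _) (by linarith)
      _ = (⌊y⌋₊ - ⌊x⌋₊ : ℕ) * (h * (1 + Real.log y)) := by
          rw [Finset.sum_const, Nat.card_Ioc, nsmul_eq_mul]
      _ ≤ 2 * h * (h * (1 + Real.log y)) := by
          refine mul_le_mul_of_nonneg_right ?_ (by positivity)
          rw [Nat.cast_sub hfl]
          have e1 : (⌊y⌋₊ : ℝ) ≤ y := Nat.floor_le hy0.le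
          have e2 : x < ⌊x⌋₊ + 1 := Nat.lt_floor_add_one x
          linarith
  have hx2 := hT x hx
  have hy2 := hT y hy1
  have hypow : y ^ (1 + θ) ≤ 4 * (h * h) := by
    rw [hhh]
    calc y ^ (1 + θ) ≤ (2 * x) ^ (1 + θ) :=
          Real.rpow_le_rpow hy0.le (by linarith) (by linarith)
      _ = 2 ^ (1 + θ) * x ^ (1 + θ) := Real.mul_rpow (by norm_num) hx0.le
      _ ≤ 4 * x ^ (1 + θ) := by
          refine mul_le_mul_of_nonneg_right ?_ (by positivity)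
          calc (2 : ℝ) ^ (1 + θ) ≤ 2 ^ (2 : ℝ) :=
                Real.rpow_le_rpow_of_exponent_le (by norm_num) (by linarith)
            _ = 4 := by norm_num
  have hlogx : Real.log x ≤ 4 / (1 - θ) * x ^ ((1 - θ) / 4) := by
    have hε : 0 < (1 - θ) / 4 := by linarith
    have := Real.log_le_rpow_div hx0.le hε
    calc Real.log x ≤ x ^ ((1 - θ) / 4) / ((1 - θ) / 4) := this
      _ = 4 / (1 - θ) * x ^ ((1 - θ) / 4) := by field_simp
  have hlogy : Real.log y ≤ 1 + Real.log x := by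
    calc Real.log y ≤ Real.log (2 * x) := Real.log_le_log hy0 (by linarith)
      _ = Real.log 2 + Real.log x := Real.log_mul (by norm_num) hx0.ne'
      _ ≤ 1 + Real.log x := by
          have : Real.log 2 ≤ 1 := by
            have := Real.log_two_lt_d9
            linarith
          linarith
  set E₁ := ∑ n ∈ Icc 1 ⌊x⌋₊, a n * ((x : ℂ) - n) - c * (x ^ 2 / 2 - x + 1 / 2) with hE1
  set E₂ := ∑ n ∈ Icc 1 ⌊y⌋₊, a n * ((y : ℂ) - n) - c * (y ^ 2 / 2 - y + 1 / 2) with hE2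
  set M := ∑ n ∈ Ioc ⌊x⌋₊ ⌊y⌋₊, a n * ((y : ℂ) - n) with hM
  have key : (h : ℂ) * (∑ n ∈ Icc 1 ⌊x⌋₊, a n - c * x) =
      E₂ - E₁ - M + c * (h ^ 2 / 2 - h) := by
    rw [hE2, hE1, hsplit, hy]
    push_cast
    ring
  have hcn : ‖c * ((h : ℂ) ^ 2 / 2 - h)‖ ≤ h * h := by
    rw [norm_mul]
    have e1 : ((h : ℂ) ^ 2 / 2 - h) = ((h ^ 2 / 2 - h : ℝ) : ℂ) := by push_cast; ring
    rw [e1, Complex.norm_real, Real.norm_eq_abs]
    have e2 : |h ^ 2 / 2 - h| ≤ h * h := by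
      rw [abs_le]
      constructor <;> nlinarith
    calc ‖c‖ * |h ^ 2 / 2 - h| ≤ 1 * (h * h) := mul_le_mul hc e2 (abs_nonneg _) zero_le_one
      _ = h * h := one_mul _
  have hnorm : h * ‖∑ n ∈ Icc 1 ⌊x⌋₊, a n - c * x‖ ≤
      h * (h * (5 * K + 5 + 2 * Real.log x)) := by
    have e1 : h * ‖∑ n ∈ Icc 1 ⌊x⌋₊, a n - c * x‖ =
        ‖(h : ℂ) * (∑ n ∈ Icc 1 ⌊x⌋₊, a n - c * x)‖ := by
      rw [norm_mul, Complex.norm_real, Real.norm_of_nonneg (by linarith)]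
    rw [e1, key]
    have e2 : ‖E₂ - E₁ - M + c * (h ^ 2 / 2 - h)‖ ≤
        ‖E₂‖ + ‖E₁‖ + ‖M‖ + ‖c * ((h : ℂ) ^ 2 / 2 - h)‖ := by
      refine (norm_add_le _ _).trans (add_le_add ?_ le_rfl)
      refine (norm_sub_le _ _).trans (add_le_add ?_ le_rfl)
      exact norm_sub_le _ _
    refine e2.trans ?_
    have e3 : ‖E₂‖ ≤ K * (4 * (h * h)) := hy2.trans (mul_le_mul_of_nonneg_left hypow hK)
    have e4 : ‖E₁‖ ≤ K * (h * h) := by rw [hhh]; exact hx2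
    have e5 : ‖M‖ ≤ 2 * h * (h * (2 + Real.log x)) := by
      refine hmid.trans ?_
      have : h * (1 + Real.log y) ≤ h * (2 + Real.log x) :=
        mul_le_mul_of_nonneg_left (by linarith) (by linarith)
      exact mul_le_mul_of_nonneg_left this (by linarith)
    calc ‖E₂‖ + ‖E₁‖ + ‖M‖ + ‖c * ((h : ℂ) ^ 2 / 2 - h)‖
        ≤ K * (4 * (h * h)) + K * (h * h) + 2 * h * (h * (2 + Real.log x)) + h * h := by
          linarith
      _ = h * (h * (5 * K + 5 + 2 * Real.log x)) := by ring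
  have hfin := le_of_mul_le_mul_left hnorm (by linarith : 0 < h)
  refine hfin.trans ?_
  have hp1 : 1 ≤ x ^ ((1 - θ) / 4) := Real.one_le_rpow hx (by linarith)
  have hpw : h * x ^ ((1 - θ) / 4) = x ^ ((3 + θ) / 4) := by
    rw [hh, ← Real.rpow_add hx0]
    congr 1
    ring
  have hθ1 : 0 < 1 - θ := by linarith
  calc h * (5 * K + 5 + 2 * Real.log x)
      ≤ h * ((5 * K + 5) * x ^ ((1 - θ) / 4) + 2 * (4 / (1 - θ) * x ^ ((1 - θ) / 4))) := by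
        refine mul_le_mul_of_nonneg_left ?_ (by linarith)
        have : 5 * K + 5 ≤ (5 * K + 5) * x ^ ((1 - θ) / 4) :=
          le_mul_of_one_le_right (by positivity) hp1
        linarith
    _ = (5 * K + 5 + 8 / (1 - θ)) * (h * x ^ ((1 - θ) / 4)) := by ring
    _ = (5 * K + 5 + 8 / (1 - θ)) * x ^ ((3 + θ) / 4) := by rw [hpw]

end Vale.Agent.P026.TP
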