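import Mathlib

/-! Riesz means by Fourier inversion. -/

open Finset Real MeasureTheory FourierTransform

namespace Vale.Agent.P026.TP.Rz

/-- the point `σ + 2 π i t` -/
noncomputable def lin (σ t : ℝ) : ℂ := (σ : ℂ) + 2 * π * t * Complex.I


/-- the kernel `(exp (-a v) - exp (-b v)) 1_{v ≥ 0}` -/
noncomputable def rzK (a b v : ℝ) : ℂ :=
  ((Real.exp (-(a * max v 0)) - Real.exp (-(b * max v 0)) : ℝ) : ℂ)

theorem rzK_cont (a b : ℝ) : Continuous (rzK a b) := by
  unfold rzK
  fun_prop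

theorem rzK_of_nonpos {a b v : ℝ} (hv : v ≤ 0) : rzK a b v = 0 := by
  simp [rzK, max_eq_right hv]

theorem rzK_of_nonneg {a b v : ℝ} (hv : 0 ≤ v) :
    rzK a b v = ((Real.exp (-(a * v)) - Real.exp (-(b * v)) : ℝ) : ℂ) := by
  simp [rzK, max_eq_left hv]

theorem rzK_ind (a b : ℝ) : rzK a b = (Set.Ioi (0 : ℝ)).indicator
    (fun v : ℝ => Complex.exp ((-a : ℂ) * v) - Complex.exp ((-b : ℂ) * v)) := by
  funext v
  by_cases hv : 0 < v
  · rw [Set.indicator_of_mem (Set.mem_Ioi.mpr hv), rzK_of_nonneg hv.le]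
    push_cast
    simp only [neg_mul]
  · rw [Set.indicator_of_notMem (by simpa using hv), rzK_of_nonpos (not_lt.mp hv)]

theorem rzK_integrable {a b : ℝ} (ha : 0 < a) (hb : 0 < b) : Integrable (rzK a b) := by
  rw [rzK_ind, integrable_indicator_iff measurableSet_Ioi]
  exact (integrableOn_exp_mul_complex_Ioi (by simpa using ha) 0).sub
    (integrableOn_exp_mul_complex_Ioi (by simpa using hb) 0)

theorem rz_lin_re (σ t : ℝ) : (lin σ t).re = σ := by simp [lin]

theorem rz_lin_im (σ t : ℝ) : (lin σ t).im = 2 * π * t := by simp [lin]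

theorem rz_lin_ne_zero {σ : ℝ} (hσ : 0 < σ) (t : ℝ) : lin σ t ≠ 0 := by
  intro h
  have := congrArg Complex.re h
  rw [rz_lin_re] at this
  simp at this
  linarith

theorem rz_lin_add_one (σ t : ℝ) : lin σ t + 1 = lin (σ + 1) t := by
  simp only [lin]; push_cast; ring

theorem rz_lin_sub_one (σ t : ℝ) : lin σ t - 1 = lin (σ - 1) t := by
  simp only [lin]; push_cast; ring

theorem rzK_fourier {a b : ℝ} (ha : 0 < a) (hb : 0 < b) (t : ℝ) :
    𝓕 (rzK a b) t = 1 / lin a t - 1 / lin b t := by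
  rw [Real.fourier_real_eq_integral_exp_smul]
  have h1 : (fun v : ℝ => Complex.exp (↑(-2 * π * v * t) * Complex.I) • rzK a b v) =
      (Set.Ioi (0 : ℝ)).indicator (fun v : ℝ =>
        Complex.exp (-lin a t * v) - Complex.exp (-lin b t * v)) := by
    funext v
    rw [rzK_ind]
    by_cases hv : v ∈ Set.Ioi (0 : ℝ)
    · rw [Set.indicator_of_mem hv, Set.indicator_of_mem hv, smul_eq_mul, mul_sub,
        ← Complex.exp_add, ← Complex.exp_add]
      congr 2
      · simp only [lin]; push_cast; ring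
      · simp only [lin]; push_cast; ring
    · rw [Set.indicator_of_notMem hv, Set.indicator_of_notMem hv, smul_zero]
  rw [h1, integral_indicator measurableSet_Ioi,
    integral_sub (integrableOn_exp_mul_complex_Ioi (by simpa [rz_lin_re] using ha) 0)
      (integrableOn_exp_mul_complex_Ioi (by simpa [rz_lin_re] using hb) 0),
    integral_exp_mul_complex_Ioi (by simpa [rz_lin_re] using ha),
    integral_exp_mul_complex_Ioi (by simpa [rz_lin_re] using hb)]
  simp [neg_div_neg_eq]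

theorem rz_diff {a b : ℝ} (ha : 0 < a) (hb : 0 < b) (t : ℝ) :
    1 / lin a t - 1 / lin b t = ((b - a : ℝ) : ℂ) / (lin a t * lin b t) := by
  have h1 := rz_lin_ne_zero ha t
  have h2 := rz_lin_ne_zero hb t
  field_simp
  simp only [lin]; push_cast; ring

theorem rz_norm_lin {m a : ℝ} (hm : 0 < m) (hm1 : m ≤ 1) (hma : m ≤ a) (t : ℝ) :
    m ^ 2 * (1 + t ^ 2) ≤ ‖lin a t‖ ^ 2 := by
  rw [← Complex.normSq_eq_norm_sq, Complex.normSq_apply, rz_lin_re, rz_lin_im]
  have hpi : 1 ≤ 2 * π := by linarith only [Real.pi_gt_three]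
  have h1 : m ^ 2 ≤ a * a := by linarith [mul_nonneg (sub_nonneg.2 hma) (sub_nonneg.2 hma), mul_nonneg (le_of_lt (sub_pos.2 hm)) (sub_nonneg.2 hma)]
  have h2 : m ^ 2 * t ^ 2 ≤ (2 * π * t) * (2 * π * t) := by
    have : m ^ 2 ≤ 1 := by nlinarith only [hm1, hm]
    have h3 : (1 : ℝ) ≤ (2 * π) * (2 * π) := by nlinarith only [hpi]
    linarith only [mul_nonneg (sq_nonneg t) (sub_nonneg.2 h3), mul_nonneg (sq_nonneg t) (sub_nonneg.2 this)]
  linarith only [h2, h1]

theorem rz_lin_continuous (a : ℝ) : Continuous (lin a) := by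
  unfold lin
  fun_prop

theorem rz_integrable {a b : ℝ} (ha : 0 < a) (hb : 0 < b) :
    Integrable (fun t : ℝ => 1 / (lin a t * lin b t)) := by
  set m := min (min a b) 1 with hm
  have hm0 : 0 < m := lt_min (lt_min ha hb) one_pos
  have hm1 : m ≤ 1 := min_le_right _ _
  have hma : m ≤ a := (min_le_left _ _).trans (min_le_left _ _)
  have hmb : m ≤ b := (min_le_left _ _).trans (min_le_right _ _)
  refine Integrable.mono' (g := fun t : ℝ => (m ^ 2)⁻¹ * (1 + t ^ 2)⁻¹)
    (integrable_inv_one_add_sq.const_mul _) ?_ ?_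
  · refine Continuous.aestronglyMeasurable ?_
    refine Continuous.div continuous_const ((rz_lin_continuous a).mul (rz_lin_continuous b)) fun t => ?_
    exact mul_ne_zero (rz_lin_ne_zero ha t) (rz_lin_ne_zero hb t)
  · refine Filter.Eventually.of_forall fun t => ?_
    rw [norm_div, norm_one, norm_mul, one_div, ← mul_inv]
    have h1 := rz_norm_lin hm0 hm1 hma t
    have h2 := rz_norm_lin hm0 hm1 hmb t
    have h3 : 0 < m ^ 2 * (1 + t ^ 2) := by positivity
    refine inv_anti₀ h3 ?_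
    have h4 : (m ^ 2 * (1 + t ^ 2)) ^ 2 ≤ (‖lin a t‖ * ‖lin b t‖) ^ 2 := by
      rw [mul_pow ‖lin a t‖, sq (m ^ 2 * (1 + t ^ 2))]
      exact mul_le_mul h1 h2 h3.le (by positivity)
    exact (sq_le_sq₀ h3.le (by positivity)).mp h4

theorem rz_inversion {a b : ℝ} (ha : 0 < a) (hb : 0 < b) (u : ℝ) :
    ∫ t : ℝ, Complex.exp (↑(2 * π * (u * t)) * Complex.I) *
      (((b - a : ℝ) : ℂ) / (lin a t * lin b t)) = rzK a b u := by
  have h1 : 𝓕 (rzK a b) = fun t => ((b - a : ℝ) : ℂ) / (lin a t * lin b t) := by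
    funext t
    rw [rzK_fourier ha hb, rz_diff ha hb]
  have h2 : Integrable (𝓕 (rzK a b)) := by
    rw [h1]
    have := (rz_integrable ha hb).const_mul ((b - a : ℝ) : ℂ)
    refine this.congr (Filter.Eventually.of_forall fun t => ?_)
    simp only [mul_one_div]
  have h3 := congrFun ((rzK_cont a b).fourierInv_fourier_eq (rzK_integrable ha hb) h2) u
  rw [Real.fourierInv_eq', h1] at h3
  rw [← h3]
  refine integral_congr_ae (Filter.Eventually.of_forall fun t => ?_)
  simp only [smul_eq_mul]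
  rfl

/-- `E u t = exp (2 π i u t)` -/
noncomputable def rzE (u t : ℝ) : ℂ := Complex.exp (↑(2 * π * (u * t)) * Complex.I)

theorem rzE_norm (u t : ℝ) : ‖rzE u t‖ = 1 := Complex.norm_exp_ofReal_mul_I _

theorem rzE_cont (u : ℝ) : Continuous (rzE u) := by
  unfold rzE
  fun_prop

theorem rzE_integrable {f : ℝ → ℂ} (hf : Integrable f) (u : ℝ) :
    Integrable (fun t => rzE u t * f t) := by
  refine hf.mono ((rzE_cont u).aestronglyMeasurable.mul hf.1)
    (Filter.Eventually.of_forall fun t => ?_)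
  rw [norm_mul, rzE_norm, one_mul]

theorem rz_term (a : ℕ → ℂ) (σ t : ℝ) (n : ℕ) :
    LSeries.term a (lin σ t) n =
      LSeries.term a σ n * Complex.exp (↑(2 * π * (-Real.log n * t)) * Complex.I) := by
  rcases Nat.eq_zero_or_pos n with rfl | hn
  · simp
  · have hn0 : (n : ℂ) ≠ 0 := by exact_mod_cast hn.ne'
    rw [LSeries.term_of_ne_zero hn.ne', LSeries.term_of_ne_zero hn.ne']
    have h1 : (n : ℂ) ^ lin σ t = (n : ℂ) ^ (σ : ℂ) *
        Complex.exp (-(↑(2 * π * (-Real.log n * t)) * Complex.I)) := by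
      rw [lin, Complex.cpow_add _ _ hn0]
      congr 1
      rw [Complex.cpow_def_of_ne_zero hn0, ← Complex.natCast_log]
      congr 1
      push_cast
      ring
    rw [h1, Complex.exp_neg, div_mul_eq_div_div, div_inv_eq_mul]

theorem rz_term_norm (a : ℕ → ℂ) (σ t : ℝ) (n : ℕ) :
    ‖LSeries.term a (lin σ t) n‖ = ‖LSeries.term a σ n‖ := by
  rw [rz_term, norm_mul, Complex.norm_exp_ofReal_mul_I, mul_one]

theorem rz_one_div (σ t : ℝ) :
    1 / (lin σ t * (lin σ t + 1)) = ((σ + 1 - σ : ℝ) : ℂ) / (lin σ t * lin (σ + 1) t) := by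
  rw [rz_lin_add_one]
  congr 1
  simp

theorem rz_single (a : ℕ → ℂ) {σ : ℝ} (hσ : 0 < σ) (u : ℝ) (n : ℕ) :
    ∫ t : ℝ, rzE u t * (LSeries.term a (lin σ t) n / (lin σ t * (lin σ t + 1))) =
      LSeries.term a σ n * rzK σ (σ + 1) (u - Real.log n) := by
  rw [← rz_inversion hσ (by linarith : 0 < σ + 1) (u - Real.log n), ← integral_const_mul]
  refine integral_congr_ae (Filter.Eventually.of_forall fun t => ?_)
  simp only
  rw [rz_term, div_eq_mul_one_div _ (lin σ t * (lin σ t + 1)), rz_one_div σ]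
  have h1 : Complex.exp (↑(2 * π * ((u - Real.log n) * t)) * Complex.I) =
      rzE u t * Complex.exp (↑(2 * π * (-Real.log n * t)) * Complex.I) := by
    rw [rzE, ← Complex.exp_add]
    congr 1
    push_cast
    ring
  rw [h1]
  ring

theorem rz_series (a : ℕ → ℂ) {σ : ℝ} (hσ : 0 < σ) (ha : LSeriesSummable a σ) (u : ℝ) :
    ∫ t : ℝ, rzE u t * (LSeries a (lin σ t) / (lin σ t * (lin σ t + 1))) =
      ∑' n, LSeries.term a σ n * rzK σ (σ + 1) (u - Real.log n) := by
  have hint : Integrable (fun t : ℝ => 1 / (lin σ t * (lin σ t + 1))) := by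
    have := rz_integrable hσ (by linarith : 0 < σ + 1)
    simpa only [rz_lin_add_one] using this
  have hcont : Continuous fun t : ℝ => 1 / (lin σ t * (lin σ t + 1)) := by
    refine Continuous.div continuous_const
      ((rz_lin_continuous σ).mul ((rz_lin_continuous σ).add continuous_const)) fun t => ?_
    rw [rz_lin_add_one]
    exact mul_ne_zero (rz_lin_ne_zero hσ t) (rz_lin_ne_zero (by linarith) t)
  have hF : ∀ n : ℕ, Integrable (fun t : ℝ =>
      rzE u t * (LSeries.term a (lin σ t) n / (lin σ t * (lin σ t + 1)))) := by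
    intro n
    apply rzE_integrable
    have h1 : (fun t : ℝ => LSeries.term a (lin σ t) n / (lin σ t * (lin σ t + 1))) =
        fun t : ℝ => LSeries.term a σ n * (rzE (-Real.log n) t *
          (1 / (lin σ t * (lin σ t + 1)))) := by
      funext t
      rw [rz_term, rzE, div_eq_mul_one_div _ (lin σ t * (lin σ t + 1))]
      ring
    rw [h1]
    exact (rzE_integrable hint _).const_mul _
  have hnorm : ∀ n : ℕ, ∫ t : ℝ,
      ‖rzE u t * (LSeries.term a (lin σ t) n / (lin σ t * (lin σ t + 1)))‖ =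
        ‖LSeries.term a σ n‖ * ∫ t : ℝ, ‖1 / (lin σ t * (lin σ t + 1))‖ := by
    intro n
    rw [← integral_const_mul]
    refine integral_congr_ae (Filter.Eventually.of_forall fun t => ?_)
    simp only
    rw [norm_mul, rzE_norm, one_mul, div_eq_mul_one_div _ (lin σ t * (lin σ t + 1)), norm_mul,
      rz_term_norm]
  have hsum : Summable fun n : ℕ => ∫ t : ℝ,
      ‖rzE u t * (LSeries.term a (lin σ t) n / (lin σ t * (lin σ t + 1)))‖ := by
    simp only [hnorm]
    exact ha.norm.mul_right _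
  have h1 := integral_tsum_of_summable_integral_norm hF hsum
  simp only [rz_single a hσ u] at h1
  rw [h1]
  refine integral_congr_ae (Filter.Eventually.of_forall fun t => ?_)
  simp only
  rw [tsum_mul_left, tsum_div_const]
  rfl

theorem rz_finite (a : ℕ → ℂ) {σ : ℝ} (x : ℝ) (hx : 1 ≤ x) :
    ∑' n, LSeries.term a σ n * rzK σ (σ + 1) (Real.log x - Real.log n) =
      ((x ^ (-σ) : ℝ) : ℂ) * ∑ n ∈ Icc 1 ⌊x⌋₊, a n * (1 - (n : ℂ) / x) := by
  have hx0 : 0 < x := by linarith
  rw [tsum_eq_sum (s := Icc 1 ⌊x⌋₊), Finset.mul_sum]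
  · refine Finset.sum_congr rfl fun n hn => ?_
    rw [Finset.mem_Icc] at hn
    have hn1 : 0 < n := hn.1
    have hnx : (n : ℝ) ≤ x := (Nat.le_floor_iff hx0.le).mp hn.2
    have hn0 : (0 : ℝ) < n := by exact_mod_cast hn1
    have hlog : 0 ≤ Real.log x - Real.log n := by
      rw [sub_nonneg]; exact Real.log_le_log hn0 hnx
    have h1 : Real.exp (-(σ * (Real.log x - Real.log n))) = x ^ (-σ) * (n : ℝ) ^ σ := by
      rw [Real.rpow_def_of_pos hx0, Real.rpow_def_of_pos hn0, ← Real.exp_add]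
      congr 1; ring
    have h2 : Real.exp (-((σ + 1) * (Real.log x - Real.log n))) =
        x ^ (-σ) * (n : ℝ) ^ σ * (n / x) := by
      rw [Real.rpow_def_of_pos hx0, Real.rpow_def_of_pos hn0]
      have h3 : (n : ℝ) / x = Real.exp (Real.log n - Real.log x) := by
        rw [Real.exp_sub, Real.exp_log hn0, Real.exp_log hx0]
      rw [h3, ← Real.exp_add, ← Real.exp_add]
      congr 1; ring
    rw [rzK_of_nonneg hlog, h1, h2, LSeries.term_of_ne_zero hn1.ne']
    have h4 : ((n : ℝ) ^ σ : ℝ) = (((n : ℝ) ^ σ : ℝ) : ℝ) := rfl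
    have h5 : (n : ℂ) ^ (σ : ℂ) = (((n : ℝ) ^ σ : ℝ) : ℂ) := by
      rw [Complex.ofReal_cpow hn0.le]; simp
    have h6 : (((n : ℝ) ^ σ : ℝ) : ℂ) ≠ 0 := by
      exact_mod_cast (Real.rpow_pos_of_pos hn0 σ).ne'
    rw [h5]
    push_cast
    field_simp
  · intro n hn
    rcases Nat.eq_zero_or_pos n with rfl | hn1
    · simp
    · have hnx : x < n := by
        by_contra hcon
        exact hn (Finset.mem_Icc.mpr ⟨hn1, (Nat.le_floor_iff hx0.le).mpr (not_lt.mp hcon)⟩)
      rw [rzK_of_nonpos, mul_zero]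
      rw [sub_nonpos]
      exact Real.log_le_log hx0 hnx.le

theorem rz_pole {σ : ℝ} (hσ : 1 < σ) (c : ℂ) (x : ℝ) (hx : 1 ≤ x) :
    Integrable (fun t : ℝ => c / (lin σ t - 1) / (lin σ t * (lin σ t + 1))) ∧
    ∫ t : ℝ, rzE (Real.log x) t * (c / (lin σ t - 1) / (lin σ t * (lin σ t + 1))) =
      ((x ^ (-σ) : ℝ) : ℂ) * (c * (x / 2 - 1 + 1 / (2 * x))) := by
  have hx0 : 0 < x := by linarith
  have hσ0 : 0 < σ := by linarith
  have hσ1 : 0 < σ - 1 := by linarith
  have hσ2 : 0 < σ + 1 := by linarith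
  have heq : ∀ t : ℝ, c / (lin σ t - 1) / (lin σ t * (lin σ t + 1)) =
      c / 2 * (((σ - (σ - 1) : ℝ) : ℂ) / (lin (σ - 1) t * lin σ t)) -
        c / 2 * (((σ + 1 - σ : ℝ) : ℂ) / (lin σ t * lin (σ + 1) t)) := by
    intro t
    have h1 := rz_lin_ne_zero hσ0 t
    have h2 := rz_lin_ne_zero hσ1 t
    have h3 := rz_lin_ne_zero hσ2 t
    rw [rz_lin_add_one, rz_lin_sub_one]
    have e1 : lin (σ + 1) t = lin σ t + 1 := (rz_lin_add_one σ t).symm
    have e2 : lin (σ - 1) t = lin σ t - 1 := (rz_lin_sub_one σ t).symm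
    rw [e1] at h3 ⊢
    rw [e2] at h2 ⊢
    push_cast
    field_simp
    ring
  have hi1 : Integrable (fun t : ℝ =>
      c / 2 * (((σ - (σ - 1) : ℝ) : ℂ) / (lin (σ - 1) t * lin σ t))) := by
    have := ((rz_integrable hσ1 hσ0).const_mul ((σ - (σ - 1) : ℝ) : ℂ)).const_mul (c / 2)
    simpa only [mul_one_div] using this
  have hi2 : Integrable (fun t : ℝ =>
      c / 2 * (((σ + 1 - σ : ℝ) : ℂ) / (lin σ t * lin (σ + 1) t))) := by
    have := ((rz_integrable hσ0 hσ2).const_mul ((σ + 1 - σ : ℝ) : ℂ)).const_mul (c / 2)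
    simpa only [mul_one_div] using this
  have hfun : (fun t : ℝ => c / (lin σ t - 1) / (lin σ t * (lin σ t + 1))) = fun t : ℝ =>
      c / 2 * (((σ - (σ - 1) : ℝ) : ℂ) / (lin (σ - 1) t * lin σ t)) -
        c / 2 * (((σ + 1 - σ : ℝ) : ℂ) / (lin σ t * lin (σ + 1) t)) := funext heq
  refine ⟨by rw [hfun]; exact hi1.sub hi2, ?_⟩
  have h1 : ∫ t : ℝ, rzE (Real.log x) t * (c / (lin σ t - 1) / (lin σ t * (lin σ t + 1))) =
      c / 2 * rzK (σ - 1) σ (Real.log x) - c / 2 * rzK σ (σ + 1) (Real.log x) := by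
    rw [← rz_inversion hσ1 hσ0, ← rz_inversion hσ0 hσ2, ← integral_const_mul,
      ← integral_const_mul, ← integral_sub]
    · refine integral_congr_ae (Filter.Eventually.of_forall fun t => ?_)
      simp only
      rw [heq, rzE]
      ring
    · have := rzE_integrable hi1 (Real.log x)
      refine this.congr (Filter.Eventually.of_forall fun t => ?_)
      simp only [rzE]
      ring
    · have := rzE_integrable hi2 (Real.log x)
      refine this.congr (Filter.Eventually.of_forall fun t => ?_)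
      simp only [rzE]
      ring
  rw [h1, rzK_of_nonneg (Real.log_nonneg hx), rzK_of_nonneg (Real.log_nonneg hx)]
  have e0 : x ^ (-σ) = Real.exp (-(σ * Real.log x)) := by
    rw [Real.rpow_def_of_pos hx0]; congr 1; ring
  have e1 : Real.exp (-((σ - 1) * Real.log x)) = x ^ (-σ) * x := by
    have e3 : x = Real.exp (Real.log x) := (Real.exp_log hx0).symm
    calc Real.exp (-((σ - 1) * Real.log x))
        = Real.exp (-(σ * Real.log x)) * Real.exp (Real.log x) := by
          rw [← Real.exp_add]; congr 1; ring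
      _ = x ^ (-σ) * x := by rw [← e3, e0]
  have e2 : Real.exp (-((σ + 1) * Real.log x)) = x ^ (-σ) / x := by
    rw [e0, eq_div_iff hx0.ne']
    have e3 : x = Real.exp (Real.log x) := (Real.exp_log hx0).symm
    calc Real.exp (-((σ + 1) * Real.log x)) * x
        = Real.exp (-((σ + 1) * Real.log x)) * Real.exp (Real.log x) := by rw [← e3]
      _ = Real.exp (-(σ * Real.log x)) := by rw [← Real.exp_add]; congr 1; ring
  rw [e1, e2, ← e0]
  have hxc : (x : ℂ) ≠ 0 := by exact_mod_cast hx0.ne'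
  push_cast
  field_simp
  ring

end Vale.Agent.P026.TP.Rz
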