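import Mathlib
import Vale.Agent.P026.TP.Rz

/-! Contour shift between two vertical lines and the Riesz mean bound to the left of `1`. -/

open Finset Real MeasureTheory FourierTransform Filter Topology

namespace Vale.Agent.P026.TP.Rz

/-- bound on a vertical line gives integrability -/
theorem vint {H : ℂ → ℂ} {σ M : ℝ} (hc : Continuous (fun y : ℝ => H (σ + y * Complex.I)))
    (hb : ∀ y : ℝ, ‖H (σ + y * Complex.I)‖ ≤ M * (1 + |y|) ^ (-(3 / 2) : ℝ)) :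
    Integrable (fun y : ℝ => H (σ + y * Complex.I)) := by
  have h1 : Integrable (fun y : ℝ => M * (1 + ‖y‖) ^ (-(3 / 2) : ℝ)) :=
    (integrable_one_add_norm (by norm_num : (Module.finrank ℝ ℝ : ℝ) < 3 / 2)).const_mul M
  exact Integrable.mono' h1 hc.aestronglyMeasurable (Eventually.of_forall fun y => by
    simpa [Real.norm_eq_abs] using hb y)

/-- shift of a contour between two vertical lines -/
theorem shift {H : ℂ → ℂ} {σ₁ σ₂ M : ℝ} (h12 : σ₁ ≤ σ₂)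
    (hd : ∀ s : ℂ, σ₁ ≤ s.re → s.re ≤ σ₂ → DifferentiableAt ℂ H s)
    (hb : ∀ s : ℂ, σ₁ ≤ s.re → s.re ≤ σ₂ → ‖H s‖ ≤ M * (1 + |s.im|) ^ (-(3 / 2) : ℝ)) :
    ∫ y : ℝ, H (σ₁ + y * Complex.I) = ∫ y : ℝ, H (σ₂ + y * Complex.I) := by
  have hline : ∀ σ : ℝ, σ₁ ≤ σ → σ ≤ σ₂ →
      Continuous (fun y : ℝ => H (σ + y * Complex.I)) := by
    intro σ h1 h2
    rw [continuous_iff_continuousAt]
    intro y
    have h3 : ContinuousAt H ((σ : ℂ) + y * Complex.I) :=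
      (hd _ (by simpa using h1) (by simpa using h2)).continuousAt
    exact ContinuousAt.comp (f := fun y : ℝ => (σ : ℂ) + y * Complex.I) (by simpa using h3)
      (by fun_prop)
  have hi : ∀ σ : ℝ, σ₁ ≤ σ → σ ≤ σ₂ → Integrable (fun y : ℝ => H (σ + y * Complex.I)) := by
    intro σ h1 h2
    refine vint (M := M) (hline σ h1 h2) fun y => ?_
    simpa using hb ((σ : ℂ) + y * Complex.I) (by simpa using h1) (by simpa using h2)
  have t1 := (intervalIntegral_tendsto_integral (hi σ₁ le_rfl h12) tendsto_neg_atTop_atBot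
    tendsto_id)
  have t2 := (intervalIntegral_tendsto_integral (hi σ₂ h12 le_rfl) tendsto_neg_atTop_atBot
    tendsto_id)
  have t3 := t2.sub t1
  have hrect : ∀ T : ℝ, 0 ≤ T →
      (∫ y in (-T)..T, H (σ₂ + y * Complex.I)) - (∫ y in (-T)..T, H (σ₁ + y * Complex.I)) =
        Complex.I * ((∫ x in σ₁..σ₂, H (x + ((-T : ℝ) : ℂ) * Complex.I)) -
          (∫ x in σ₁..σ₂, H (x + (T : ℂ) * Complex.I))) := by
    intro T hT
    have h := Complex.integral_boundary_rect_eq_zero_of_differentiableOn H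
      ((σ₁ : ℂ) + ((-T : ℝ) : ℂ) * Complex.I) ((σ₂ : ℂ) + (T : ℂ) * Complex.I) ?_
    · simp only [Complex.add_re, Complex.ofReal_re, Complex.mul_re, Complex.I_re, mul_zero,
        Complex.ofReal_im, Complex.I_im, mul_one, sub_self, add_zero, Complex.add_im,
        Complex.mul_im, zero_add, smul_eq_mul] at h
      linear_combination (-Complex.I) * h + ((∫ y in (-T)..T, H (σ₂ + y * Complex.I)) -
        (∫ y in (-T)..T, H (σ₁ + y * Complex.I))) * (Complex.I_sq)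
    · intro s hs
      rw [Complex.mem_reProdIm] at hs
      simp only [Complex.add_re, Complex.ofReal_re, Complex.mul_re, Complex.I_re, mul_zero,
        Complex.ofReal_im, Complex.I_im, mul_one, sub_self, add_zero] at hs
      rw [Set.uIcc_of_le h12] at hs
      exact (hd s hs.1.1 hs.1.2).differentiableWithinAt
  have hz : Tendsto (fun T : ℝ => (∫ y in (-T)..T, H (σ₂ + y * Complex.I)) -
      (∫ y in (-T)..T, H (σ₁ + y * Complex.I))) atTop (𝓝 0) := by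
    rw [tendsto_zero_iff_norm_tendsto_zero]
    have hlim : Tendsto (fun T : ℝ => 2 * (M * (1 + T) ^ (-(3 / 2) : ℝ) * |σ₂ - σ₁|)) atTop
        (𝓝 (2 * (M * 0 * |σ₂ - σ₁|))) := by
      refine Tendsto.const_mul _ (Tendsto.mul_const _ (Tendsto.const_mul _ ?_))
      exact (tendsto_rpow_neg_atTop (by norm_num : (0 : ℝ) < 3 / 2)).comp
        (tendsto_atTop_add_const_left _ 1 tendsto_id)
    simp only [mul_zero, zero_mul] at hlim
    refine squeeze_zero' (Eventually.of_forall fun T => norm_nonneg _) ?_ hlim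
    filter_upwards [eventually_ge_atTop 0] with T hT
    rw [hrect T hT, norm_mul, Complex.norm_I, one_mul]
    refine (norm_sub_le _ _).trans ?_
    have hh : ∀ c : ℝ, |c| = T →
        ‖∫ x in σ₁..σ₂, H (x + (c : ℂ) * Complex.I)‖ ≤
          M * (1 + T) ^ (-(3 / 2) : ℝ) * |σ₂ - σ₁| := by
      intro c hcT
      refine intervalIntegral.norm_integral_le_of_norm_le_const fun x hx => ?_
      rw [Set.uIoc_of_le h12] at hx
      have := hb ((x : ℂ) + (c : ℂ) * Complex.I) (by simpa using hx.1.le) (by simpa using hx.2)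
      simpa [hcT] using this
    have e1 := hh (-T) (by rw [abs_neg, abs_of_nonneg hT])
    have e2 := hh T (abs_of_nonneg hT)
    linarith
  have := tendsto_nhds_unique t3 (by simpa using hz)
  exact (sub_eq_zero.mp this).symm

/-- vertical integrals in the two parametrisations -/
theorem lin_integral (H : ℂ → ℂ) (σ : ℝ) :
    ∫ t : ℝ, H (lin σ t) = (2 * π)⁻¹ * ∫ y : ℝ, H (σ + y * Complex.I) := by
  have h := Measure.integral_comp_mul_left (fun y : ℝ => H (σ + y * Complex.I)) (2 * π)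
  have h2 : (fun t : ℝ => H (lin σ t)) =
      fun t : ℝ => H (σ + ((2 * π * t : ℝ) : ℂ) * Complex.I) := by
    funext t
    simp only [lin]
    push_cast
    ring_nf
  rw [h2, h, abs_of_pos (by positivity : (0 : ℝ) < (2 * π)⁻¹), Complex.real_smul]

/-- the integral of the kernel -/
noncomputable def K0 : ℝ := ∫ y : ℝ, (1 + |y|) ^ (-(3 / 2) : ℝ)

theorem K0_nonneg : 0 ≤ K0 := integral_nonneg fun y => by positivity

theorem K0_int : Integrable (fun y : ℝ => (1 + |y|) ^ (-(3 / 2) : ℝ)) := by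
  simpa [Real.norm_eq_abs] using
    (integrable_one_add_norm (by norm_num : (Module.finrank ℝ ℝ : ℝ) < 3 / 2) :
      Integrable (fun y : ℝ => (1 + ‖y‖) ^ (-(3 / 2) : ℝ)))

theorem den_lower {σ₁ : ℝ} (h0 : 0 < σ₁) (h1 : σ₁ ≤ 1) {s : ℂ} (hs : σ₁ ≤ s.re) :
    σ₁ / 2 * (1 + |s.im|) ^ 2 ≤ ‖s * (s + 1)‖ := by
  have e1 : σ₁ ^ 2 / 2 * (1 + |s.im|) ^ 2 ≤ ‖s‖ ^ 2 := by
    rw [← Complex.normSq_eq_norm_sq, Complex.normSq_apply]
    have h2 : σ₁ ^ 2 ≤ 1 := by nlinarith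
    have h3 : σ₁ ^ 2 ≤ s.re * s.re := by nlinarith
    have h4 : |s.im| ^ 2 = s.im * s.im := by rw [sq_abs, sq]
    nlinarith [sq_nonneg (1 - |s.im|), abs_nonneg s.im, mul_nonneg (sq_nonneg σ₁)
      (sq_nonneg (1 - |s.im|)), mul_nonneg (sub_nonneg.2 h2) (mul_self_nonneg s.im)]
  have e2 : 1 / 2 * (1 + |s.im|) ^ 2 ≤ ‖s + 1‖ ^ 2 := by
    rw [← Complex.normSq_eq_norm_sq, Complex.normSq_apply]
    simp only [Complex.add_re, Complex.one_re, Complex.add_im, Complex.one_im, add_zero]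
    have h3 : 1 ≤ (s.re + 1) * (s.re + 1) := by nlinarith
    have h4 : |s.im| ^ 2 = s.im * s.im := by rw [sq_abs, sq]
    nlinarith [sq_nonneg (1 - |s.im|), abs_nonneg s.im]
  have e3 : (σ₁ / 2 * (1 + |s.im|) ^ 2) ^ 2 ≤ (‖s‖ * ‖s + 1‖) ^ 2 := by
    rw [mul_pow ‖s‖]
    calc (σ₁ / 2 * (1 + |s.im|) ^ 2) ^ 2
        = (σ₁ ^ 2 / 2 * (1 + |s.im|) ^ 2) * (1 / 2 * (1 + |s.im|) ^ 2) := by ring
      _ ≤ ‖s‖ ^ 2 * ‖s + 1‖ ^ 2 := mul_le_mul e1 e2 (by positivity) (by positivity)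
  rw [norm_mul]
  exact (sq_le_sq₀ (by positivity) (by positivity)).mp e3

theorem cpow_lin {x σ : ℝ} (hx0 : 0 < x) (t : ℝ) :
    (x : ℂ) ^ (lin σ t) = ((x ^ σ : ℝ) : ℂ) * rzE (Real.log x) t := by
  have hxc : (x : ℂ) ≠ 0 := by exact_mod_cast hx0.ne'
  rw [lin, Complex.cpow_add _ _ hxc, Complex.ofReal_cpow hx0.le]
  congr 1
  rw [rzE, Complex.cpow_def_of_ne_zero hxc, ← Complex.ofReal_log hx0.le]
  congr 1
  push_cast
  ring

/-- the Riesz mean as an integral over the line `Re s = σ`, `σ > 1` -/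
theorem riesz_line (a : ℕ → ℂ) (c : ℂ) (G : ℝ → ℂ) {σ : ℝ} (hσ : 1 < σ)
    (ha : LSeriesSummable a σ) (hGi : Integrable G)
    (hG : ∀ t : ℝ, LSeries a (lin σ t) / (lin σ t * (lin σ t + 1)) =
      G t + c / (lin σ t - 1) / (lin σ t * (lin σ t + 1)))
    (x : ℝ) (hx : 1 ≤ x) :
    ∫ t : ℝ, (x : ℂ) ^ (lin σ t) * G t =
      ∑ n ∈ Icc 1 ⌊x⌋₊, a n * (1 - (n : ℂ) / x) - c * (x / 2 - 1 + 1 / (2 * x)) := by
  have hx0 : 0 < x := by linarith only [hx]
  have hσ0 : 0 < σ := by linarith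
  obtain ⟨hp1, hp2⟩ := rz_pole hσ c x hx
  have h3 : ∫ t : ℝ, rzE (Real.log x) t * (LSeries a (lin σ t) / (lin σ t * (lin σ t + 1))) =
      (∫ t : ℝ, rzE (Real.log x) t * G t) + ∫ t : ℝ, rzE (Real.log x) t *
        (c / (lin σ t - 1) / (lin σ t * (lin σ t + 1))) := by
    rw [← integral_add (rzE_integrable hGi _) (rzE_integrable hp1 _)]
    refine integral_congr_ae (Filter.Eventually.of_forall fun t => ?_)
    simp only
    rw [hG, mul_add]
  rw [rz_series a hσ0 ha, rz_finite a x hx, hp2] at h3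
  simp_rw [cpow_lin hx0, mul_assoc]
  rw [integral_const_mul]
  have h4 : (∫ t : ℝ, rzE (Real.log x) t * G t) = ((x ^ (-σ) : ℝ) : ℂ) *
      (∑ n ∈ Icc 1 ⌊x⌋₊, a n * (1 - (n : ℂ) / x) - c * (x / 2 - 1 + 1 / (2 * x))) := by
    rw [mul_sub, h3]; ring
  rw [h4, ← mul_assoc, ← Complex.ofReal_mul, ← Real.rpow_add hx0]
  simp

/-- Riesz means of the coefficients of a Dirichlet series with a continuation to the left of
`1`. -/
theorem riesz_shift (a : ℕ → ℂ) (c : ℂ) (F : ℂ → ℂ) {σ₁ σ₂ B : ℝ} (h0 : 0 < σ₁) (h1 : σ₁ < 1)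
    (h2 : 1 < σ₂) (ha : LSeriesSummable a σ₂)
    (hF : ∀ t : ℝ, LSeries a (lin σ₂ t) = F (lin σ₂ t) + c / (lin σ₂ t - 1))
    (hd : ∀ s : ℂ, σ₁ ≤ s.re → s.re ≤ σ₂ → DifferentiableAt ℂ F s)
    (hb : ∀ s : ℂ, σ₁ ≤ s.re → s.re ≤ σ₂ → ‖F s‖ ≤ B * (1 + |s.im|) ^ (1 / 2 : ℝ))
    (x : ℝ) (hx : 1 ≤ x) :
    ‖∑ n ∈ Icc 1 ⌊x⌋₊, a n * (1 - (n : ℂ) / x) - c * (x / 2 - 1 + 1 / (2 * x))‖ ≤
      K0 * (2 / σ₁) * B * x ^ σ₁ := by
  have hx0 : 0 < x := by linarith only [hx]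
  have hxc : (x : ℂ) ≠ 0 := by exact_mod_cast hx0.ne'
  have hB : 0 ≤ B := by
    have := (norm_nonneg _).trans (hb (σ₁ : ℂ) (by simp) (by simp; linarith))
    simpa using this
  set H : ℂ → ℂ := fun s => (x : ℂ) ^ s * (F s / (s * (s + 1))) with hH
  have hne : ∀ s : ℂ, σ₁ ≤ s.re → s * (s + 1) ≠ 0 := by
    intro s hs
    have e0 := den_lower h0 h1.le hs
    intro h
    rw [h, norm_zero] at e0
    have e1 : 0 < σ₁ / 2 * (1 + |s.im|) ^ 2 := by positivity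
    linarith
  have hQd : ∀ s : ℂ, σ₁ ≤ s.re → s.re ≤ σ₂ →
      DifferentiableAt ℂ (fun s => F s / (s * (s + 1))) s := by
    intro s hs1 hs2
    exact DifferentiableAt.fun_div (hd s hs1 hs2)
      (differentiableAt_id.mul (differentiableAt_id.add_const 1)) (hne s hs1)
  have hHd : ∀ s : ℂ, σ₁ ≤ s.re → s.re ≤ σ₂ → DifferentiableAt ℂ H s := by
    intro s hs1 hs2
    exact DifferentiableAt.mul (differentiableAt_id.const_cpow (Or.inl hxc)) (hQd s hs1 hs2)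
  have hQb : ∀ s : ℂ, σ₁ ≤ s.re → s.re ≤ σ₂ →
      ‖F s / (s * (s + 1))‖ ≤ 2 / σ₁ * B * (1 + |s.im|) ^ (-(3 / 2) : ℝ) := by
    intro s hs1 hs2
    have e1 := den_lower h0 h1.le hs1
    have e2 : 0 < σ₁ / 2 * (1 + |s.im|) ^ 2 := by positivity
    rw [norm_div]
    calc ‖F s‖ / ‖s * (s + 1)‖ ≤ (B * (1 + |s.im|) ^ (1 / 2 : ℝ)) / (σ₁ / 2 * (1 + |s.im|) ^ 2) :=
          div_le_div₀ (by positivity) (hb s hs1 hs2) e2 e1
      _ = 2 / σ₁ * B * (1 + |s.im|) ^ (-(3 / 2) : ℝ) := by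
          have e3 : (1 + |s.im|) ^ (-(3 / 2) : ℝ) =
              (1 + |s.im|) ^ (1 / 2 : ℝ) / (1 + |s.im|) ^ 2 := by
            rw [← Real.rpow_natCast, ← Real.rpow_sub (by positivity)]
            norm_num
          rw [e3]
          field_simp
  have hHb : ∀ s : ℂ, σ₁ ≤ s.re → s.re ≤ σ₂ →
      ‖H s‖ ≤ x ^ s.re * (2 / σ₁ * B * (1 + |s.im|) ^ (-(3 / 2) : ℝ)) := by
    intro s hs1 hs2
    rw [hH]
    simp only
    rw [norm_mul, Complex.norm_cpow_eq_rpow_re_of_pos hx0]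
    exact mul_le_mul_of_nonneg_left (hQb s hs1 hs2) (Real.rpow_nonneg hx0.le _)
  have hHb' : ∀ s : ℂ, σ₁ ≤ s.re → s.re ≤ σ₂ →
      ‖H s‖ ≤ x ^ σ₂ * (2 / σ₁ * B) * (1 + |s.im|) ^ (-(3 / 2) : ℝ) := by
    intro s hs1 hs2
    refine (hHb s hs1 hs2).trans ?_
    rw [mul_assoc (x ^ σ₂)]
    exact mul_le_mul_of_nonneg_right (Real.rpow_le_rpow_of_exponent_le hx hs2) (by positivity)
  -- the identity on the line `σ₂`
  have hGi : Integrable (fun t : ℝ => F (lin σ₂ t) / (lin σ₂ t * (lin σ₂ t + 1))) := by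
    have hcont : Continuous (fun t : ℝ => F (lin σ₂ t) / (lin σ₂ t * (lin σ₂ t + 1))) := by
      rw [continuous_iff_continuousAt]
      intro t
      have h3 : ContinuousAt (fun s => F s / (s * (s + 1))) (lin σ₂ t) :=
        (hQd _ (by rw [rz_lin_re]; linarith) (by rw [rz_lin_re])).continuousAt
      exact ContinuousAt.comp (f := fun t : ℝ => lin σ₂ t) h3 (rz_lin_continuous σ₂).continuousAt
    refine Integrable.mono' (g := fun t : ℝ => (2 / σ₁ * B) * (1 + |t|) ^ (-(3 / 2) : ℝ))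
      (K0_int.const_mul _) hcont.aestronglyMeasurable (Eventually.of_forall fun t => ?_)
    refine (hQb (lin σ₂ t) (by rw [rz_lin_re]; linarith) (by rw [rz_lin_re])).trans
      (mul_le_mul_of_nonneg_left ?_ (by positivity))
    rw [rz_lin_im, abs_mul, abs_of_pos (by positivity : (0 : ℝ) < 2 * π)]
    refine Real.rpow_le_rpow_of_nonpos (by positivity) ?_ (by norm_num)
    have : (1 : ℝ) ≤ 2 * π := by linarith [Real.pi_gt_three]
    nlinarith [abs_nonneg t]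
  have hA : ∫ t : ℝ, H (lin σ₂ t) =
      ∑ n ∈ Icc 1 ⌊x⌋₊, a n * (1 - (n : ℂ) / x) - c * (x / 2 - 1 + 1 / (2 * x)) := by
    refine riesz_line a c _ h2 ha hGi (fun t => ?_) x hx
    rw [hF t, add_div]
  rw [← hA, lin_integral, norm_mul, ← shift (H := H) (by linarith : σ₁ ≤ σ₂) hHd hHb']
  have h5 : ‖∫ y : ℝ, H (σ₁ + y * Complex.I)‖ ≤ (x ^ σ₁ * (2 / σ₁ * B)) * K0 := by
    rw [K0, ← integral_const_mul]
    refine norm_integral_le_of_norm_le (K0_int.const_mul _) (Eventually.of_forall fun y => ?_)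
    have := hHb ((σ₁ : ℂ) + y * Complex.I) (by simp) (by simp; linarith)
    simpa [mul_assoc] using this
  have h6 : ‖(((2 * π)⁻¹ : ℝ) : ℂ)‖ ≤ 1 := by
    rw [Complex.norm_real, Real.norm_eq_abs, abs_of_pos (by positivity)]
    exact inv_le_one_of_one_le₀ (by linarith [Real.pi_gt_three])
  calc ‖(((2 * π)⁻¹ : ℝ) : ℂ)‖ * ‖∫ y : ℝ, H (σ₁ + y * Complex.I)‖
      ≤ 1 * ((x ^ σ₁ * (2 / σ₁ * B)) * K0) := mul_le_mul h6 h5 (norm_nonneg _) zero_le_one
    _ = K0 * (2 / σ₁) * B * x ^ σ₁ := by ring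

end Vale.Agent.P026.TP.Rz
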