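import Mathlib

/-! Borel–Carathéodory for the logarithm of a zero free function. -/

open Complex Metric Set

namespace Vale.Agent.P026.TP

theorem bc_bounds {a : ℂ} {R r A m : ℝ} (hr : 0 ≤ r) (hrR : r < R) {g : ℂ → ℂ}
    (hg : DifferentiableOn ℂ g (ball a R)) (hg0 : ∀ s ∈ ball a R, g s ≠ 0)
    (hA : ∀ s ∈ ball a R, ‖g s‖ ≤ A) (hm : 0 < m) (hm' : A ≤ ‖g a‖ * Real.exp m)
    {s : ℂ} (hs : ‖s - a‖ ≤ r) :
    ‖g a‖ * Real.exp (-(2 * m * r / (R - r))) ≤ ‖g s‖ ∧
      ‖deriv g s / g s‖ ≤ 8 * m * R / (R - r) ^ 2 := by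
  have hR : 0 < R := by linarith
  have hsR : s ∈ ball a R := by rw [mem_ball, dist_eq_norm]; linarith
  have ha : a ∈ ball a R := mem_ball_self hR
  have hg' : DifferentiableOn ℂ (fun z => deriv g z / g z) (ball a R) :=
    (hg.deriv isOpen_ball).div hg hg0
  obtain ⟨F, hF0, hF⟩ := hg'.isExactOn_ball.with_val_at a 0
  have hconst : ∀ z ∈ ball a R, g z * exp (-F z) = g a := by
    intro z hz
    have hder : ∀ w ∈ ball a R, HasDerivAt (fun w => g w * exp (-F w)) 0 w := by
      intro w hw
      have h1 : HasDerivAt g (deriv g w) w :=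
        (hg.differentiableAt (isOpen_ball.mem_nhds hw)).hasDerivAt
      have h2 : HasDerivAt (fun x => exp (-F x)) (exp (-F w) * -(deriv g w / g w)) w :=
        (hF w hw).neg.cexp
      have h3 : HasDerivAt (fun x => g x * exp (-F x))
          (deriv g w * exp (-F w) + g w * (exp (-F w) * -(deriv g w / g w))) w := h1.mul h2
      have h4 : g w * (deriv g w / g w) = deriv g w := mul_div_cancel₀ _ (hg0 w hw)
      have h5 : deriv g w * exp (-F w) + g w * (exp (-F w) * -(deriv g w / g w)) = 0 := by
        linear_combination -(exp (-F w)) * h4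
      rw [h5] at h3
      exact h3
    have := (convex_ball a R).is_const_of_fderivWithin_eq_zero (𝕜 := ℂ)
      (f := fun w => g w * exp (-F w)) (fun w hw => (hder w hw).differentiableAt.differentiableWithinAt)
      (fun w hw => by
        have h := (hder w hw).hasFDerivAt.hasFDerivWithinAt (s := ball a R)
        have h2 := h.fderivWithin (isOpen_ball.uniqueDiffWithinAt hw)
        rw [h2]
        ext
        simp) hz ha
    rw [this, hF0]
    simp
  have hgF : ∀ z ∈ ball a R, ‖g z‖ = ‖g a‖ * Real.exp (F z).re := by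
    intro z hz
    have h := hconst z hz
    have : g z = g a * exp (F z) := by
      rw [← h, mul_assoc, ← Complex.exp_add, neg_add_cancel, Complex.exp_zero, mul_one]
    rw [this, norm_mul, norm_exp]
  have hga : 0 < ‖g a‖ := norm_pos_iff.mpr (hg0 a ha)
  have hre : ∀ z ∈ ball a R, (F z).re ≤ m := by
    intro z hz
    have h1 := hA z hz
    rw [hgF z hz] at h1
    have h3 := le_of_mul_le_mul_left (h1.trans hm') hga
    exact Real.exp_le_exp.mp h3
  have hB : ∀ z ∈ ball a R, ‖F z‖ ≤ 2 * m * ‖z - a‖ / (R - ‖z - a‖) := by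
    intro z hz
    have hz' : ‖z - a‖ < R := by rwa [mem_ball, dist_eq_norm] at hz
    have hB := borelCaratheodory_zero (f := fun z => F (z + a)) (M := m) (R := R) (z := z - a) hm
      ?_ ?_ hR ?_ ?_
    · simpa only [sub_add_cancel] using hB
    · intro w hw
      have hw' : w + a ∈ ball a R := by
        rw [mem_ball, dist_eq_norm] at hw ⊢
        simpa using hw
      have h1 : DifferentiableAt ℂ F (w + a) := (hF _ hw').differentiableAt
      exact (h1.comp w (by fun_prop : DifferentiableAt ℂ (fun w => w + a) w)).differentiableWithinAt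
    · intro w hw
      have hw' : w + a ∈ ball a R := by
        rw [mem_ball, dist_eq_norm] at hw ⊢
        simpa using hw
      exact hre _ hw'
    · rw [mem_ball, dist_zero_right]; exact hz'
    · simpa using hF0
  have hd : 0 < R - r := by linarith
  constructor
  · rw [hgF s hsR]
    refine mul_le_mul_of_nonneg_left (Real.exp_le_exp.mpr ?_) hga.le
    have h1 : ‖F s‖ ≤ 2 * m * r / (R - r) := by
      refine (hB s hsR).trans ?_
      gcongr
    have h2 := abs_re_le_norm (F s)
    have h3 := neg_abs_le (F s).re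
    linarith
  · have hρ : 0 < (R - r) / 2 := by linarith
    have hsub : closedBall s ((R - r) / 2) ⊆ ball a R := by
      intro w hw
      rw [mem_closedBall, dist_eq_norm] at hw
      rw [mem_ball, dist_eq_norm]
      calc ‖w - a‖ = ‖(w - s) + (s - a)‖ := by ring_nf
        _ ≤ ‖w - s‖ + ‖s - a‖ := norm_add_le _ _
        _ < R := by linarith
    have hFd : DifferentiableOn ℂ F (closedBall s ((R - r) / 2)) := fun w hw =>
      (hF w (hsub hw)).differentiableAt.differentiableWithinAt
    have h1 : ‖deriv F s‖ ≤ (2 * m * R / ((R - r) / 2)) / ((R - r) / 2) := by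
      refine norm_deriv_le_of_forall_mem_sphere_norm_le hρ ?_ ?_
      · exact (hFd.mono (by rw [closure_ball s hρ.ne'])).diffContOnCl
      · intro w hw
        have hw1 := hsub (sphere_subset_closedBall hw)
        have hw2 : ‖w - a‖ ≤ r + (R - r) / 2 := by
          rw [mem_sphere, dist_eq_norm] at hw
          calc ‖w - a‖ = ‖(w - s) + (s - a)‖ := by ring_nf
            _ ≤ ‖w - s‖ + ‖s - a‖ := norm_add_le _ _
            _ ≤ r + (R - r) / 2 := by linarith
        refine (hB w hw1).trans ?_
        have hw3 : (R - r) / 2 ≤ R - ‖w - a‖ := by linarith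
        have hw4 : ‖w - a‖ ≤ R := by linarith
        gcongr
    rw [(hF s hsR).deriv] at h1
    refine h1.trans (le_of_eq ?_)
    field_simp
    ring

end Vale.Agent.P026.TP
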