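import Mathlib

section

/-!
# Siegel's theorem, part A: integral representation and bounds for `L(s, χ)`
-/

open Finset Filter MeasureTheory Topology Complex Asymptotics

namespace Vale.Agent.P026.TP.Gr

variable {q : ℕ}

lemma sum_range_zmod [NeZero q] (f : ZMod q → ℂ) :
    ∑ k ∈ range q, f (k : ZMod q) = ∑ a, f a :=
  Finset.sum_nbij' (fun k => (k : ZMod q)) (fun a => a.val) (by simp)
    (by simp [ZMod.val_lt])
    (by intro k hk; simp [ZMod.val_natCast, Nat.mod_eq_of_lt (mem_range.mp hk)]) (by simp)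
    (by simp)

lemma sum_period [NeZero q] {χ : DirichletCharacter ℂ q} (hχ : χ ≠ 1) (m : ℕ) :
    ∑ k ∈ range q, χ ((m + k : ℕ) : ZMod q) = 0 := by
  have h := sum_range_zmod (q := q) (fun a => χ ((m : ZMod q) + a))
  simp only [← Nat.cast_add] at h
  rw [h, show (∑ a, χ ((m : ZMod q) + a)) = ∑ a, χ a from
    Equiv.sum_comp (Equiv.addLeft (m : ZMod q)) (fun a => χ a)]
  exact MulChar.sum_eq_zero_of_ne_one hχ

lemma sum_blocks [NeZero q] {χ : DirichletCharacter ℂ q} (hχ : χ ≠ 1) (m j : ℕ) :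
    ∑ k ∈ range (q * j), χ ((m + k : ℕ) : ZMod q) = 0 := by
  induction j with
  | zero => simp
  | succ j ih =>
    rw [Nat.mul_succ, Finset.sum_range_add, ih, zero_add]
    have := sum_period hχ (m + q * j)
    simpa [add_assoc] using this

lemma norm_sum_range_le [NeZero q] {χ : DirichletCharacter ℂ q} (hχ : χ ≠ 1) (m n : ℕ) :
    ‖∑ k ∈ range n, χ ((m + k : ℕ) : ZMod q)‖ ≤ q := by
  conv_lhs => rw [← Nat.div_add_mod n q]
  rw [Finset.sum_range_add, sum_blocks hχ, zero_add]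
  refine (norm_sum_le _ _).trans ?_
  calc ∑ x ∈ range (n % q), ‖χ ((m + (q * (n / q) + x) : ℕ) : ZMod q)‖
      ≤ ∑ x ∈ range (n % q), (1 : ℝ) := Finset.sum_le_sum fun _ _ => DirichletCharacter.norm_le_one χ _
    _ = (n % q : ℕ) := by simp
    _ ≤ q := by exact_mod_cast (Nat.mod_lt _ (Nat.pos_of_ne_zero (NeZero.ne q))).le

/-- the character sum -/
noncomputable def S (χ : DirichletCharacter ℂ q) (t : ℝ) : ℂ := ∑ k ∈ Icc 1 ⌊t⌋₊, χ (k : ZMod q)

lemma S_eq_range (χ : DirichletCharacter ℂ q) (n : ℕ) :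
    ∑ k ∈ Icc 1 n, χ (k : ZMod q) = ∑ k ∈ range n, χ ((1 + k : ℕ) : ZMod q) := by
  rw [Finset.range_eq_Ico, Finset.sum_Ico_add (fun k : ℕ => χ (k : ZMod q)) 0 n 1]
  congr 1

lemma norm_S_le [NeZero q] {χ : DirichletCharacter ℂ q} (hχ : χ ≠ 1) (t : ℝ) :
    ‖S χ t‖ ≤ q := by
  rw [S, S_eq_range]
  exact norm_sum_range_le hχ 1 _

lemma norm_S_le' (χ : DirichletCharacter ℂ q) {t : ℝ} (ht : 0 ≤ t) :
    ‖S χ t‖ ≤ t := by
  refine (norm_sum_le _ _).trans ?_
  calc ∑ k ∈ Icc 1 ⌊t⌋₊, ‖χ (k : ZMod q)‖ ≤ ∑ k ∈ Icc 1 ⌊t⌋₊, (1 : ℝ) :=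
        Finset.sum_le_sum fun _ _ => DirichletCharacter.norm_le_one χ _
    _ = (⌊t⌋₊ : ℕ) := by simp
    _ ≤ t := Nat.floor_le ht

lemma measurable_S (χ : DirichletCharacter ℂ q) : Measurable (S χ) :=
  (measurable_from_nat (f := fun n : ℕ => ∑ k ∈ Icc 1 n, χ (k : ZMod q))).comp Nat.measurable_floor

/-- the function whose Mellin transform is `L(s, χ) / s` -/
noncomputable def fS (χ : DirichletCharacter ℂ q) : ℝ → ℂ := (Set.Ioi (1 : ℝ)).indicator (S χ)

lemma norm_fS_le [NeZero q] {χ : DirichletCharacter ℂ q} (hχ : χ ≠ 1) (t : ℝ) :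
    ‖fS χ t‖ ≤ q := by
  unfold fS
  by_cases h : t ∈ Set.Ioi (1 : ℝ)
  · rw [Set.indicator_of_mem h]; exact norm_S_le hχ t
  · rw [Set.indicator_of_notMem h]; simp

lemma measurable_fS (χ : DirichletCharacter ℂ q) : Measurable (fS χ) :=
  (measurable_S χ).indicator measurableSet_Ioi

lemma mellin_fS (χ : DirichletCharacter ℂ q) (s : ℂ) :
    mellin (fS χ) (-s) = ∫ t in Set.Ioi (1 : ℝ), S χ t * (t : ℂ) ^ (-(s + 1)) := by
  rw [mellin]
  have h1 : ∀ t : ℝ, (t : ℂ) ^ (-s - 1) • fS χ t =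
      (Set.Ioi (1 : ℝ)).indicator (fun t : ℝ => S χ t * (t : ℂ) ^ (-(s + 1))) t := by
    intro t
    unfold fS
    by_cases h : t ∈ Set.Ioi (1 : ℝ)
    · rw [Set.indicator_of_mem h, Set.indicator_of_mem h, smul_eq_mul, mul_comm]
      congr 2
      ring
    · rw [Set.indicator_of_notMem h, Set.indicator_of_notMem h, smul_zero]
  simp_rw [h1]
  rw [setIntegral_indicator measurableSet_Ioi]
  congr 2
  ext t
  simp only [Set.mem_inter_iff, Set.mem_Ioi]
  constructor
  · exact fun h => h.2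
  · exact fun h => ⟨by linarith, h⟩

lemma mellin_fS_differentiableAt [NeZero q] {χ : DirichletCharacter ℂ q} (hχ : χ ≠ 1) {s : ℂ}
    (hs : s.re < 0) : DifferentiableAt ℂ (mellin (fS χ)) s := by
  refine mellin_differentiableAt_of_isBigO_rpow (a := 0) (b := s.re - 1) ?_ ?_ hs ?_ (by linarith)
  · refine (MeasureTheory.locallyIntegrable_const (μ := volume) ((q : ℝ))).mono
      (measurable_fS χ).aestronglyMeasurable ?_ |>.locallyIntegrableOn _
    refine Eventually.of_forall fun t => ?_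
    simpa using norm_fS_le hχ t
  · refine IsBigO.of_bound q ?_
    filter_upwards with t
    simpa using norm_fS_le hχ t
  · refine IsBigO.of_bound 1 ?_
    have : ∀ᶠ t : ℝ in 𝓝[>] 0, t < 1 :=
      eventually_nhdsWithin_of_eventually_nhds (eventually_lt_nhds one_pos)
    filter_upwards [this] with t ht
    have : fS χ t = 0 := Set.indicator_of_notMem (by simpa using ht.le) _
    rw [this, norm_zero]
    positivity

/-- integral representation of `L(s, χ)` for `Re s > 0` -/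
theorem LFunction_eq_integral [NeZero q] {χ : DirichletCharacter ℂ q} (hχ : χ ≠ 1) {s : ℂ}
    (hs : 0 < s.re) :
    DirichletCharacter.LFunction χ s =
      s * ∫ t in Set.Ioi (1 : ℝ), S χ t * (t : ℂ) ^ (-(s + 1)) := by
  rw [← mellin_fS]
  have hopen : IsOpen {s : ℂ | 0 < s.re} := continuous_re.isOpen_preimage _ isOpen_Ioi
  have hA : AnalyticOnNhd ℂ (DirichletCharacter.LFunction χ) {s : ℂ | 0 < s.re} :=
    (DirichletCharacter.differentiable_LFunction hχ).differentiableOn.analyticOnNhd hopen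
  have hB : AnalyticOnNhd ℂ (fun s => s * mellin (fS χ) (-s)) {s : ℂ | 0 < s.re} := by
    refine DifferentiableOn.analyticOnNhd (fun s hs => ?_) hopen
    have h1 : DifferentiableAt ℂ (mellin (fS χ)) (-s) :=
      mellin_fS_differentiableAt hχ (by simpa using hs)
    have h2 : DifferentiableAt ℂ (fun s : ℂ => mellin (fS χ) (-s)) s :=
      h1.comp s (differentiableAt_id.neg)
    exact (differentiableAt_id.mul h2).differentiableWithinAt
  have hpc : IsPreconnected {s : ℂ | 0 < s.re} := (convex_halfSpace_re_gt 0).isPreconnected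
  refine hA.eqOn_of_preconnected_of_eventuallyEq hB hpc (z₀ := 2) (by simp) ?_ hs
  have h2 : {s : ℂ | 1 < s.re} ∈ 𝓝 (2 : ℂ) :=
    (continuous_re.isOpen_preimage _ isOpen_Ioi).mem_nhds (by simp)
  filter_upwards [h2] with z hz
  have hz' : 1 < z.re := hz
  rw [mellin_fS, DirichletCharacter.LFunction_eq_LSeries χ hz']
  refine LSeries_eq_mul_integral (r := 0) _ le_rfl (by linarith)
    (DirichletCharacter.LSeriesSummable_of_one_lt_re χ hz') ?_
  refine IsBigO.of_bound q ?_
  filter_upwards with n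
  have := norm_S_le hχ (n : ℝ)
  simpa [S] using this

lemma norm_integrand (χ : DirichletCharacter ℂ q) (s : ℂ) {t : ℝ} (ht : t ∈ Set.Ioi (1 : ℝ)) :
    ‖S χ t * (t : ℂ) ^ (-(s + 1))‖ = ‖S χ t‖ * t ^ (-(s.re + 1)) := by
  have ht0 : 0 < t := lt_trans one_pos ht
  rw [norm_mul, Complex.norm_cpow_eq_rpow_re_of_pos ht0]
  simp

/-- `|L(s, χ)| ≤ |s| q / Re s` for `Re s > 0` -/
theorem norm_LFunction_le [NeZero q] {χ : DirichletCharacter ℂ q} (hχ : χ ≠ 1) {s : ℂ}
    (hs : 0 < s.re) :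
    ‖DirichletCharacter.LFunction χ s‖ ≤ ‖s‖ * (q / s.re) := by
  rw [LFunction_eq_integral hχ hs, norm_mul]
  refine mul_le_mul_of_nonneg_left ?_ (norm_nonneg _)
  have hint : IntegrableOn (fun t : ℝ => (q : ℝ) * t ^ (-(s.re + 1))) (Set.Ioi 1) :=
    (integrableOn_Ioi_rpow_of_lt (by linarith) one_pos).const_mul _
  calc ‖∫ t in Set.Ioi (1 : ℝ), S χ t * (t : ℂ) ^ (-(s + 1))‖
      ≤ ∫ t in Set.Ioi (1 : ℝ), (q : ℝ) * t ^ (-(s.re + 1)) := by
        refine norm_integral_le_of_norm_le hint ?_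
        filter_upwards [ae_restrict_mem measurableSet_Ioi] with t ht
        rw [norm_integrand χ s ht]
        exact mul_le_mul_of_nonneg_right (norm_S_le hχ t)
          (Real.rpow_nonneg (lt_trans one_pos ht).le _)
    _ = q / s.re := by
        rw [integral_const_mul, integral_Ioi_rpow_of_lt (by linarith) one_pos]
        simp
        field_simp

end Vale.Agent.P026.TP.Gr

end

section

/-!
# Approximation of `ζ(s)` by its partial sums for `Re s > 0`
-/

open Finset Filter MeasureTheory Topology Complex Asymptotics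

namespace Vale.Agent.P026.TP.ZApp

/-- the function whose Mellin transform is the remainder -/
noncomputable def fZ (N : ℕ) : ℝ → ℂ :=
  (Set.Ioi (N : ℝ)).indicator (fun t => ((Int.fract t : ℝ) : ℂ))

lemma norm_fZ_le (N : ℕ) (t : ℝ) : ‖fZ N t‖ ≤ 1 := by
  unfold fZ
  by_cases h : t ∈ Set.Ioi (N : ℝ)
  · rw [Set.indicator_of_mem h, Complex.norm_real, Real.norm_eq_abs,
      abs_of_nonneg (Int.fract_nonneg t)]
    exact (Int.fract_lt_one t).le
  · rw [Set.indicator_of_notMem h]; simp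

lemma measurable_fZ (N : ℕ) : Measurable (fZ N) :=
  (Complex.measurable_ofReal.comp measurable_fract).indicator measurableSet_Ioi

lemma mellin_fZ (N : ℕ) (s : ℂ) :
    mellin (fZ N) (-s) =
      ∫ t in Set.Ioi (N : ℝ), ((Int.fract t : ℝ) : ℂ) * (t : ℂ) ^ (-(s + 1)) := by
  rw [mellin]
  have h1 : ∀ t : ℝ, (t : ℂ) ^ (-s - 1) • fZ N t =
      (Set.Ioi (N : ℝ)).indicator
        (fun t : ℝ => ((Int.fract t : ℝ) : ℂ) * (t : ℂ) ^ (-(s + 1))) t := by
    intro t
    unfold fZ
    by_cases h : t ∈ Set.Ioi (N : ℝ)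
    · rw [Set.indicator_of_mem h, Set.indicator_of_mem h, smul_eq_mul, mul_comm]
      congr 2
      ring
    · rw [Set.indicator_of_notMem h, Set.indicator_of_notMem h, smul_zero]
  simp_rw [h1]
  rw [setIntegral_indicator measurableSet_Ioi]
  congr 2
  ext t
  simp only [Set.mem_inter_iff, Set.mem_Ioi]
  constructor
  · exact fun h => h.2
  · exact fun h => ⟨lt_of_le_of_lt (Nat.cast_nonneg N) h, h⟩

lemma mellin_fZ_differentiableAt {N : ℕ} (hN : 1 ≤ N) {s : ℂ} (hs : s.re < 0) :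
    DifferentiableAt ℂ (mellin (fZ N)) s := by
  refine mellin_differentiableAt_of_isBigO_rpow (a := 0) (b := s.re - 1) ?_ ?_ hs ?_ (by linarith)
  · refine (MeasureTheory.locallyIntegrable_const (μ := volume) ((1 : ℝ))).mono
      (measurable_fZ N).aestronglyMeasurable ?_ |>.locallyIntegrableOn _
    refine Eventually.of_forall fun t => ?_
    simpa using norm_fZ_le N t
  · refine IsBigO.of_bound 1 ?_
    filter_upwards with t
    simpa using norm_fZ_le N t
  · refine IsBigO.of_bound 1 ?_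
    have : ∀ᶠ t : ℝ in 𝓝[>] 0, t < 1 :=
      eventually_nhdsWithin_of_eventually_nhds (eventually_lt_nhds one_pos)
    filter_upwards [this] with t ht
    have hN' : (1 : ℝ) ≤ N := by exact_mod_cast hN
    have : fZ N t = 0 := Set.indicator_of_notMem (by
      simp only [Set.mem_Ioi, not_lt]; linarith) _
    rw [this, norm_zero]
    positivity

/-- the coefficients of the tail -/
noncomputable def cZ (N : ℕ) (n : ℕ) : ℂ := if n ≤ N then 0 else 1

lemma sum_cZ (N n : ℕ) : ∑ k ∈ Icc 1 n, cZ N k = ((n - N : ℕ) : ℂ) := by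
  have h : (Icc 1 n).filter (fun k => ¬ k ≤ N) = Icc (N + 1) n := by
    ext k
    simp only [Finset.mem_filter, Finset.mem_Icc]
    omega
  simp only [cZ]
  rw [Finset.sum_ite, Finset.sum_const_zero, zero_add, Finset.sum_const, h, Nat.card_Icc]
  simp

lemma zeta_split {N : ℕ} {s : ℂ} (hs : 1 < s.re) :
    riemannZeta s = ∑ n ∈ Icc 1 N, (n : ℂ) ^ (-s) + LSeries (cZ N) s := by
  have hs0 : s ≠ 0 := by
    intro h
    rw [h] at hs
    simp at hs
    linarith
  have hg : LSeriesSummable (fun n => if n ≤ N then (1 : ℂ) else 0) s := by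
    refine summable_of_ne_finset_zero (s := Finset.range (N + 1)) fun n hn => ?_
    rw [LSeries.term_def]
    have : ¬ n ≤ N := by
      intro h
      exact hn (Finset.mem_range.mpr (by omega))
    simp [this]
  have h1 : LSeriesSummable 1 s := LSeriesSummable_one_iff.mpr hs
  have hc : LSeriesSummable (cZ N) s := by
    have := h1.sub hg
    refine (LSeriesSummable_congr s fun {n} hn => ?_).mp this
    simp only [Pi.sub_apply, Pi.one_apply, cZ]
    split_ifs <;> simp
  have h2 : LSeries 1 s = LSeries (fun n => if n ≤ N then (1 : ℂ) else 0) s + LSeries (cZ N) s := by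
    rw [← LSeries_add hg hc]
    refine LSeries_congr (fun {n} hn => ?_) s
    simp only [Pi.add_apply, Pi.one_apply, cZ]
    split_ifs <;> simp
  rw [← LSeries_one_eq_riemannZeta hs, h2]
  congr 1
  rw [LSeries, tsum_eq_sum (s := Icc 1 N)]
  · refine Finset.sum_congr rfl fun n hn => ?_
    have hn' := Finset.mem_Icc.mp hn
    rw [LSeries.term_of_ne_zero (by omega), if_pos hn'.2, Complex.cpow_neg, one_div]
  · intro n hn
    rw [LSeries.term_def]
    split_ifs with h0 h1
    · rfl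
    · exact absurd (Finset.mem_Icc.mpr ⟨by omega, h1⟩) hn
    · simp

lemma integral_part {N : ℕ} (hN : 1 ≤ N) {s : ℂ} (hs : 1 < s.re) :
    s * ∫ t in Set.Ioi (1 : ℝ), (∑ k ∈ Icc 1 ⌊t⌋₊, cZ N k) * (t : ℂ) ^ (-(s + 1)) =
      (N : ℂ) ^ (1 - s) / (s - 1) - s * mellin (fZ N) (-s) := by
  have hN' : (1 : ℝ) ≤ N := by exact_mod_cast hN
  have hN0 : (0 : ℝ) < N := by linarith
  have hNc : (N : ℂ) ≠ 0 := by exact_mod_cast (by omega : N ≠ 0)
  have hs0 : s ≠ 0 := by
    intro h
    rw [h] at hs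
    simp at hs
    linarith
  have hs1 : s - 1 ≠ 0 := by
    intro h
    have : s = 1 := by linear_combination h
    rw [this] at hs
    simp at hs
  have e1 : ∫ t in Set.Ioi (1 : ℝ), (∑ k ∈ Icc 1 ⌊t⌋₊, cZ N k) * (t : ℂ) ^ (-(s + 1)) =
      ∫ t in Set.Ioi (N : ℝ), ((t : ℂ) ^ (-s) - (N : ℂ) * (t : ℂ) ^ (-(s + 1)) -
        ((Int.fract t : ℝ) : ℂ) * (t : ℂ) ^ (-(s + 1))) := by
    have : ∀ t ∈ Set.Ioi (1 : ℝ), (∑ k ∈ Icc 1 ⌊t⌋₊, cZ N k) * (t : ℂ) ^ (-(s + 1)) =
        (Set.Ioi (N : ℝ)).indicator (fun t : ℝ => ((t : ℂ) ^ (-s) -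
          (N : ℂ) * (t : ℂ) ^ (-(s + 1)) -
          ((Int.fract t : ℝ) : ℂ) * (t : ℂ) ^ (-(s + 1)))) t := by
      intro t ht
      have ht1 : (1 : ℝ) < t := ht
      have ht0 : (0 : ℝ) < t := by linarith
      have htc : (t : ℂ) ≠ 0 := by exact_mod_cast ht0.ne'
      rw [sum_cZ]
      by_cases h : t ∈ Set.Ioi (N : ℝ)
      · have htN : (N : ℝ) < t := h
        rw [Set.indicator_of_mem h]
        have hle : N ≤ ⌊t⌋₊ := Nat.le_floor htN.le
        rw [Nat.cast_sub hle]
        have hfl : ((⌊t⌋₊ : ℕ) : ℂ) = (t : ℂ) - ((Int.fract t : ℝ) : ℂ) := by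
          have h3 : ((⌊t⌋₊ : ℕ) : ℝ) = t - Int.fract t := by
            rw [Int.self_sub_fract]
            exact natCast_floor_eq_intCast_floor ht0.le
          rw [← Complex.ofReal_sub, ← h3]
          simp
        rw [hfl]
        have hp : (t : ℂ) ^ (-s) = (t : ℂ) * (t : ℂ) ^ (-(s + 1)) := by
          rw [show -s = 1 + (-(s + 1)) by ring, Complex.cpow_add _ _ htc, Complex.cpow_one]
        rw [hp]
        ring
      · rw [Set.indicator_of_notMem h]
        have htN : t ≤ (N : ℝ) := by simpa using h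
        have hle : ⌊t⌋₊ ≤ N := by
          have := Nat.floor_le_floor htN
          simpa using this
        rw [Nat.sub_eq_zero_of_le hle]
        simp
    rw [setIntegral_congr_fun measurableSet_Ioi this, setIntegral_indicator measurableSet_Ioi]
    congr 2
    ext t
    simp only [Set.mem_inter_iff, Set.mem_Ioi]
    constructor
    · exact fun h => h.2
    · exact fun h => ⟨lt_of_le_of_lt hN' h, h⟩
  have i1 : IntegrableOn (fun t : ℝ => (t : ℂ) ^ (-s)) (Set.Ioi (N : ℝ)) :=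
    integrableOn_Ioi_cpow_of_lt (by simpa using hs) hN0
  have i2 : IntegrableOn (fun t : ℝ => (t : ℂ) ^ (-(s + 1))) (Set.Ioi (N : ℝ)) :=
    integrableOn_Ioi_cpow_of_lt (by simp; linarith) hN0
  have i3 : IntegrableOn (fun t : ℝ => ((Int.fract t : ℝ) : ℂ) * (t : ℂ) ^ (-(s + 1)))
      (Set.Ioi (N : ℝ)) := by
    refine Integrable.bdd_mul (c := 1) i2 ?_ ?_
    · exact (Complex.measurable_ofReal.comp measurable_fract).aestronglyMeasurable
    · refine Eventually.of_forall fun t => ?_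
      rw [Complex.norm_real, Real.norm_eq_abs, abs_of_nonneg (Int.fract_nonneg t)]
      exact (Int.fract_lt_one t).le
  have i12 : IntegrableOn (fun t : ℝ => (t : ℂ) ^ (-s) - (N : ℂ) * (t : ℂ) ^ (-(s + 1)))
      (Set.Ioi (N : ℝ)) := i1.sub (i2.const_mul _)
  rw [e1, integral_sub i12 i3, integral_sub i1 (i2.const_mul _),
    integral_const_mul, integral_Ioi_cpow_of_lt (by simpa using hs) hN0,
    integral_Ioi_cpow_of_lt (by simp; linarith) hN0, mellin_fZ]
  have hp : (((N : ℝ) : ℂ)) ^ (-s + 1) = (N : ℂ) ^ (1 - s) := by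
    rw [show -s + 1 = 1 - s by ring]
    simp
  have hp2 : (((N : ℝ) : ℂ)) ^ (-(s + 1) + 1) = (N : ℂ) ^ (1 - s) / N := by
    rw [show -(s + 1) + 1 = (1 - s) - 1 by ring]
    simp only [Complex.ofReal_natCast]
    rw [Complex.cpow_sub _ _ hNc, Complex.cpow_one]
  rw [hp, hp2]
  have hs1' : -s + 1 ≠ 0 := by
    intro h
    exact hs1 (by linear_combination -h)
  have hs0' : -(s + 1) + 1 ≠ 0 := by
    intro h
    exact hs0 (by linear_combination -h)
  field_simp
  ring

/-- the identity for `ζ(s)`, `Re s > 0`, in terms of the entire function `riemannZeta₁` -/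
theorem zeta1_eq {N : ℕ} (hN : 1 ≤ N) {s : ℂ} (hs : 0 < s.re) :
    riemannZeta₁ s = (s - 1) * ∑ n ∈ Icc 1 N, (n : ℂ) ^ (-s) + (N : ℂ) ^ (1 - s) -
      (s - 1) * (s * mellin (fZ N) (-s)) := by
  have hopen : IsOpen {s : ℂ | 0 < s.re} := continuous_re.isOpen_preimage _ isOpen_Ioi
  have hNc : (N : ℂ) ≠ 0 := by exact_mod_cast (by omega : N ≠ 0)
  have hA : AnalyticOnNhd ℂ riemannZeta₁ {s : ℂ | 0 < s.re} :=
    differentiable_riemannZeta₁.differentiableOn.analyticOnNhd hopen
  have hB : AnalyticOnNhd ℂ (fun s => (s - 1) * ∑ n ∈ Icc 1 N, (n : ℂ) ^ (-s) +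
      (N : ℂ) ^ (1 - s) - (s - 1) * (s * mellin (fZ N) (-s))) {s : ℂ | 0 < s.re} := by
    refine DifferentiableOn.analyticOnNhd (fun s hs => ?_) hopen
    have h1 : DifferentiableAt ℂ (mellin (fZ N)) (-s) :=
      mellin_fZ_differentiableAt hN (by simpa using hs)
    have h2 : DifferentiableAt ℂ (fun s : ℂ => mellin (fZ N) (-s)) s :=
      h1.comp s (differentiableAt_id.neg)
    have h3 : DifferentiableAt ℂ (fun s : ℂ => ∑ n ∈ Icc 1 N, (n : ℂ) ^ (-s)) s := by
      refine DifferentiableAt.fun_sum fun n hn => ?_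
      have hn' := Finset.mem_Icc.mp hn
      have hn0 : (n : ℂ) ≠ 0 := by exact_mod_cast (by omega : n ≠ 0)
      exact (differentiableAt_id.neg).const_cpow (Or.inl hn0)
    have h4 : DifferentiableAt ℂ (fun s : ℂ => (N : ℂ) ^ (1 - s)) s :=
      ((differentiableAt_const _).sub differentiableAt_id).const_cpow (Or.inl hNc)
    have h5 : DifferentiableAt ℂ (fun s : ℂ => s - 1) s :=
      differentiableAt_id.sub (differentiableAt_const _)
    exact (((h5.mul h3).add h4).sub (h5.mul (differentiableAt_id.mul h2))).differentiableWithinAt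
  have hpc : IsPreconnected {s : ℂ | 0 < s.re} := (convex_halfSpace_re_gt 0).isPreconnected
  refine hA.eqOn_of_preconnected_of_eventuallyEq hB hpc (z₀ := 2) (by simp) ?_ hs
  have h2 : {s : ℂ | 1 < s.re} ∈ 𝓝 (2 : ℂ) :=
    (continuous_re.isOpen_preimage _ isOpen_Ioi).mem_nhds (by simp)
  filter_upwards [h2] with z hz
  have hz' : 1 < z.re := hz
  have hz1 : z ≠ 1 := by
    intro h
    rw [h] at hz'
    simp at hz'
  have hz1' : z - 1 ≠ 0 := sub_ne_zero.mpr hz1
  have hsum : LSeriesSummable (cZ N) z := by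
    refine LSeriesSummable_of_bounded_of_one_lt_re (m := 1) (fun n _ => ?_) hz'
    unfold cZ
    split_ifs <;> simp
  have hL : LSeries (cZ N) z = z * ∫ t in Set.Ioi (1 : ℝ),
      (∑ k ∈ Icc 1 ⌊t⌋₊, cZ N k) * (t : ℂ) ^ (-(z + 1)) := by
    refine LSeries_eq_mul_integral (r := 1) _ zero_le_one hz' hsum ?_
    refine IsBigO.of_bound 1 ?_
    filter_upwards with n
    rw [sum_cZ]
    simp only [Complex.norm_natCast, Real.rpow_one, one_mul, Real.norm_natCast]
    exact_mod_cast Nat.sub_le n N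
  have hz := zeta_split (N := N) hz'
  rw [hL, integral_part hN hz'] at hz
  have hz3 : riemannZeta z = (z - 1)⁻¹ * riemannZeta₁ z := by
    grind [riemannZeta₁, riemannZeta₀]
  have : riemannZeta₁ z = (z - 1) * riemannZeta z := by
    rw [hz3]
    field_simp
  rw [this, hz]
  field_simp
  ring

theorem norm_rem_le {N : ℕ} (hN : 1 ≤ N) {s : ℂ} (hs : 0 < s.re) :
    ‖s * mellin (fZ N) (-s)‖ ≤ ‖s‖ / s.re * (N : ℝ) ^ (-s.re) := by
  have hN' : (1 : ℝ) ≤ N := by exact_mod_cast hN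
  have hN0 : (0 : ℝ) < N := by linarith
  rw [norm_mul, mellin_fZ, div_mul_eq_mul_div, mul_div_assoc]
  refine mul_le_mul_of_nonneg_left ?_ (norm_nonneg _)
  have hint : IntegrableOn (fun t : ℝ => t ^ (-(s.re + 1))) (Set.Ioi (N : ℝ)) :=
    integrableOn_Ioi_rpow_of_lt (by linarith) hN0
  calc ‖∫ t in Set.Ioi (N : ℝ), ((Int.fract t : ℝ) : ℂ) * (t : ℂ) ^ (-(s + 1))‖
      ≤ ∫ t in Set.Ioi (N : ℝ), t ^ (-(s.re + 1)) := by
        refine norm_integral_le_of_norm_le hint ?_
        filter_upwards [ae_restrict_mem measurableSet_Ioi] with t ht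
        have ht0 : 0 < t := lt_trans hN0 ht
        rw [norm_mul, Complex.norm_cpow_eq_rpow_re_of_pos ht0, Complex.norm_real,
          Real.norm_eq_abs, abs_of_nonneg (Int.fract_nonneg t)]
        have h1 : (-(s + 1)).re = -(s.re + 1) := by simp
        rw [h1]
        exact mul_le_of_le_one_left (Real.rpow_nonneg ht0.le _) (Int.fract_lt_one t).le
    _ = (N : ℝ) ^ (-s.re) / s.re := by
        rw [integral_Ioi_rpow_of_lt (by linarith) hN0]
        rw [show -(s.re + 1) + 1 = -s.re by ring]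
        rw [neg_div_neg_eq]

end Vale.Agent.P026.TP.ZApp

end
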