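import Mathlib
import Vale.Agent.P026.TP.Growth0

/-! Growth of `L`-functions to the left of `1` and lower bounds to the right of `1`. -/

open Finset Real

namespace Vale.Agent.P026.TP.Gr

theorem zapprox : ∀ s : ℂ, 0 < s.re → s ≠ 1 → ∀ N : ℕ, 1 ≤ N →
    ‖riemannZeta s - ∑ n ∈ Icc 1 N, (n : ℂ) ^ (-s) - (N : ℂ) ^ (1 - s) / (s - 1)‖ ≤
      ‖s‖ / s.re * (N : ℝ) ^ (-s.re) := by
  intro s hs hs1 N hN
  have h := ZApp.zeta1_eq hN hs
  have hz1' : s - 1 ≠ 0 := sub_ne_zero.mpr hs1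
  have hz3 : riemannZeta s = (s - 1)⁻¹ * riemannZeta₁ s := by
    grind [riemannZeta₁, riemannZeta₀]
  have h2 : riemannZeta s - ∑ n ∈ Icc 1 N, (n : ℂ) ^ (-s) - (N : ℂ) ^ (1 - s) / (s - 1) =
      -(s * mellin (ZApp.fZ N) (-s)) := by
    rw [hz3, h]
    field_simp
    ring
  rw [h2, norm_neg]
  exact ZApp.norm_rem_le hN hs

theorem ll_zeta_near (σ : ℝ) (h1 : 1 < σ) (h2 : σ ≤ 2) :
    ‖riemannZeta (σ : ℂ)‖ ≤ 3 / (σ - 1) := by
  have hne : (σ : ℂ) ≠ 1 := by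
    intro h
    have : σ = 1 := by exact_mod_cast h
    linarith
  have h := zapprox (σ : ℂ) (by simpa using by linarith) hne 1 le_rfl
  have hσ : 0 < σ := by linarith only [h1]
  have hs1 : 0 < σ - 1 := by linarith only [h1]
  have e1 : ‖(σ : ℂ)‖ / (σ : ℂ).re * ((1 : ℕ) : ℝ) ^ (-(σ : ℂ).re) = 1 := by
    simp [abs_of_pos hσ, hσ.ne']
  rw [e1] at h
  have e2 : ∑ n ∈ Icc 1 1, ((n : ℕ) : ℂ) ^ (-(σ : ℂ)) = 1 := by simp
  rw [e2] at h
  have e3 : (((1 : ℕ) : ℂ) ^ (1 - (σ : ℂ)) / ((σ : ℂ) - 1)) = ((1 / (σ - 1) : ℝ) : ℂ) := by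
    push_cast
    rw [Complex.one_cpow]
  rw [e3] at h
  have h4 : ‖riemannZeta (σ : ℂ)‖ ≤ ‖riemannZeta (σ : ℂ) - 1 - ((1 / (σ - 1) : ℝ) : ℂ)‖ +
      ‖(1 : ℂ) + ((1 / (σ - 1) : ℝ) : ℂ)‖ := by
    have := norm_add_le (riemannZeta (σ : ℂ) - 1 - ((1 / (σ - 1) : ℝ) : ℂ))
      ((1 : ℂ) + ((1 / (σ - 1) : ℝ) : ℂ))
    have e : riemannZeta (σ : ℂ) - 1 - ((1 / (σ - 1) : ℝ) : ℂ) +
        ((1 : ℂ) + ((1 / (σ - 1) : ℝ) : ℂ)) = riemannZeta (σ : ℂ) := by ring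
    rwa [e] at this
  have h5 : ‖(1 : ℂ) + ((1 / (σ - 1) : ℝ) : ℂ)‖ ≤ 1 + 1 / (σ - 1) := by
    refine (norm_add_le _ _).trans ?_
    rw [Complex.norm_real, Real.norm_of_nonneg (by positivity)]
    simp
  have h6 : 1 ≤ 1 / (σ - 1) := by
    rw [le_div_iff₀ hs1]
    linarith only [h2]
  have h7 : 3 / (σ - 1) = 3 * (1 / (σ - 1)) := by ring
  rw [h7]
  linarith only [h6, h5, h4, h]

theorem ll_inv (q : ℕ) [NeZero q] (χ : DirichletCharacter ℂ q) (s : ℂ)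
    (h1 : 1 < s.re) (h2 : s.re ≤ 2) : (s.re - 1) / 3 ≤ ‖DirichletCharacter.LFunction χ s‖ := by
  rw [DirichletCharacter.LFunction_eq_LSeries χ h1]
  have hmul := DirichletCharacter.LSeries.mul_mu_eq_one χ h1
  set g : ℕ → ℂ := (fun n : ℕ => χ (n : ZMod q)) * (fun n : ℕ => ((ArithmeticFunction.moebius n : ℤ) : ℂ)) with hg
  have hsum1 : LSeriesSummable (1 : ℕ → ℂ) (s.re : ℂ) := by
    rw [LSeriesSummable_one_iff]
    simpa using h1
  have hterm : ∀ n, ‖LSeries.term g s n‖ ≤ ‖LSeries.term (1 : ℕ → ℂ) (s.re : ℂ) n‖ := by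
    intro n
    rw [LSeries.norm_term_eq, LSeries.norm_term_eq]
    split_ifs with hn
    · rfl
    · simp only [Complex.ofReal_re, Pi.one_apply, norm_one]
      gcongr
      rw [hg, Pi.mul_apply, norm_mul]
      have a1 := χ.norm_le_one (n : ZMod q)
      have a2 : ‖((ArithmeticFunction.moebius n : ℤ) : ℂ)‖ ≤ 1 := by
        rw [Complex.norm_intCast]
        exact_mod_cast ArithmeticFunction.abs_moebius_le_one
      calc _ ≤ (1 : ℝ) * 1 := mul_le_mul a1 a2 (norm_nonneg _) zero_le_one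
        _ = 1 := one_mul 1
  have hbound : ‖LSeries g s‖ ≤ ‖riemannZeta (s.re : ℂ)‖ := by
    have hz : riemannZeta (s.re : ℂ) = ((∑' n, ‖LSeries.term (1 : ℕ → ℂ) (s.re : ℂ) n‖ : ℝ) : ℂ) := by
      rw [← LSeries_one_eq_riemannZeta (by simpa using h1), LSeries, Complex.ofReal_tsum]
      congr 1
      ext n
      rw [LSeries.norm_term_eq, LSeries.term_def]
      split_ifs with hn
      · simp
      · simp only [Pi.one_apply, norm_one, Complex.ofReal_re]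
        rw [Complex.ofReal_div, Complex.ofReal_cpow (Nat.cast_nonneg n)]
        simp
    rw [hz, Complex.norm_real, Real.norm_of_nonneg (tsum_nonneg fun _ => norm_nonneg _), LSeries]
    have hs2 : Summable fun n => ‖LSeries.term (1 : ℕ → ℂ) (s.re : ℂ) n‖ := hsum1.norm
    have hs3 : Summable fun n => ‖LSeries.term g s n‖ :=
      Summable.of_nonneg_of_le (fun _ => norm_nonneg _) hterm hs2
    exact (norm_tsum_le_tsum_norm hs3).trans (hs3.tsum_le_tsum hterm hs2)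
  have hz2 := ll_zeta_near s.re h1 h2
  have hLpos : 0 ≤ ‖LSeries (fun n : ℕ => χ (n : ZMod q)) s‖ := norm_nonneg _
  have h3 : ‖LSeries (fun n : ℕ => χ (n : ZMod q)) s‖ * ‖LSeries g s‖ = 1 := by
    rw [← norm_mul, hmul, norm_one]
  have h4 : 0 < s.re - 1 := by linarith
  have h5 : 1 ≤ ‖LSeries (fun n : ℕ => χ (n : ZMod q)) s‖ * (3 / (s.re - 1)) := by
    calc (1 : ℝ) = ‖LSeries (fun n : ℕ => χ (n : ZMod q)) s‖ * ‖LSeries g s‖ := h3.symm
      _ ≤ _ := mul_le_mul_of_nonneg_left (hbound.trans hz2) hLpos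
  have h6 : (s.re - 1) / 3 = 1 * ((s.re - 1) / 3) := by ring
  calc (s.re - 1) / 3 = 1 * ((s.re - 1) / 3) := by ring
    _ ≤ ‖LSeries (fun n : ℕ => χ (n : ZMod q)) s‖ * (3 / (s.re - 1)) * ((s.re - 1) / 3) := by
      gcongr
    _ = ‖LSeries (fun n : ℕ => χ (n : ZMod q)) s‖ := by
      field_simp

/-- `|(s - 1) ζ(s)| ≤ |s| + |s - 1| |s| / Re s` -/
theorem norm_zeta1_le {s : ℂ} (hs : 0 < s.re) :
    ‖riemannZeta₁ s‖ ≤ ‖s‖ + ‖s - 1‖ * (‖s‖ / s.re) := by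
  rw [ZApp.zeta1_eq (N := 1) le_rfl hs]
  have h1 := ZApp.norm_rem_le (N := 1) le_rfl hs
  have e1 : (s - 1) * ∑ n ∈ Icc 1 1, ((n : ℕ) : ℂ) ^ (-s) + ((1 : ℕ) : ℂ) ^ (1 - s) = s := by
    simp
  rw [e1]
  refine (norm_sub_le _ _).trans (add_le_add le_rfl ?_)
  rw [norm_mul]
  refine mul_le_mul_of_nonneg_left (h1.trans (le_of_eq ?_)) (norm_nonneg _)
  simp

theorem norm_euler_le (q : ℕ) (hq : 1 ≤ q) {s : ℂ} (hs : 0 ≤ s.re) :
    ‖∏ p ∈ q.primeFactors, (1 - (p : ℂ) ^ (-s))‖ ≤ q := by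
  rw [norm_prod]
  calc ∏ p ∈ q.primeFactors, ‖1 - (p : ℂ) ^ (-s)‖ ≤ ∏ p ∈ q.primeFactors, (p : ℝ) := by
        refine Finset.prod_le_prod (fun _ _ => norm_nonneg _) fun p hp => ?_
        have hpp := Nat.prime_of_mem_primeFactors hp
        have hp2 : (2 : ℝ) ≤ p := by exact_mod_cast hpp.two_le
        refine (norm_sub_le _ _).trans ?_
        rw [norm_one]
        have h1 : ‖(p : ℂ) ^ (-s)‖ ≤ 1 := by
          have h2 := Complex.norm_cpow_eq_rpow_re_of_pos (by linarith : (0 : ℝ) < p) (-s)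
          simp only [Complex.ofReal_natCast, Complex.neg_re] at h2
          rw [h2]
          exact Real.rpow_le_one_of_one_le_of_nonpos (by linarith) (by linarith)
        linarith
    _ = ((∏ p ∈ q.primeFactors, p : ℕ) : ℝ) := by push_cast; rfl
    _ ≤ q := by
        exact_mod_cast Nat.le_of_dvd (by omega) (Nat.prod_primeFactors_dvd q)

/-- growth of `(s - 1) L(s, χ₀)` -/
theorem norm_triv_le (q : ℕ) [NeZero q] {s : ℂ} (hs : 0 < s.re) :
    ‖DirichletCharacter.LFunctionTrivChar₁ q s‖ ≤ q * (‖s‖ + ‖s - 1‖ * (‖s‖ / s.re)) := by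
  have hq : 1 ≤ q := Nat.one_le_iff_ne_zero.mpr (NeZero.ne q)
  by_cases h1 : s = 1
  · subst h1
    rw [DirichletCharacter.LFunctionTrivChar₁, Function.update_self]
    have h2 := norm_euler_le q hq (s := 1) (by simp)
    simp only [Complex.cpow_neg_one] at h2
    simpa using h2
  · rw [DirichletCharacter.LFunctionTrivChar₁, Function.update_of_ne h1,
      DirichletCharacter.LFunctionTrivChar_eq_mul_riemannZeta h1]
    have hz1' : s - 1 ≠ 0 := sub_ne_zero.mpr h1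
    have hz3 : (s - 1) * riemannZeta s = riemannZeta₁ s := by
      have : riemannZeta s = (s - 1)⁻¹ * riemannZeta₁ s := by
        grind [riemannZeta₁, riemannZeta₀]
      rw [this]
      field_simp
    rw [show (s - 1) * ((∏ p ∈ q.primeFactors, (1 - (p : ℂ) ^ (-s))) * riemannZeta s) =
      (∏ p ∈ q.primeFactors, (1 - (p : ℂ) ^ (-s))) * ((s - 1) * riemannZeta s) by ring, hz3,
      norm_mul]
    exact mul_le_mul (norm_euler_le q hq hs.le) (norm_zeta1_le hs) (norm_nonneg _) (by positivity)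

end Vale.Agent.P026.TP.Gr
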