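import Mathlib
import Vale.Agent.P026.TP.BC
import Vale.Agent.P026.TP.Growth

/-! Bounds for `1 / L` and `L' / L` near the line `Re s = 1` from a zero free half plane. -/

open Finset Real Metric DirichletCharacter

namespace Vale.Agent.P026.TP

/-- the constant -/
noncomputable def Cd (d : ℝ) : ℝ :=
  21 * (4800 / d ^ 2) ^ 2 + 9 / d * (21 * (4800 / d ^ 2) + 4)

theorem Cd_pos {d : ℝ} (hd : 0 < d) : 0 < Cd d := by unfold Cd; positivity

theorem zf_core {a : ℂ} {d Y : ℝ} (hd : 0 < d) (hd2 : d ≤ 1 / 2) (hY : 1 ≤ Y) {g : ℂ → ℂ}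
    (hg : DifferentiableOn ℂ g (ball a d)) (hg0 : ∀ s ∈ ball a d, g s ≠ 0)
    (hA : ∀ s ∈ ball a d, ‖g s‖ ≤ 21 * Y ^ 2) (hlow : d ^ 2 / 4800 ≤ ‖g a‖) {s : ℂ}
    (hs : ‖s - a‖ ≤ d / 20) :
    ‖g s‖⁻¹ ≤ Cd d * Y ^ (1 / 2 : ℝ) ∧ ‖deriv g s / g s‖ ≤ Cd d * Y ^ (1 / 2 : ℝ) := by
  have hY0 : 0 < Y := by linarith
  set c₀ : ℝ := d ^ 2 / 4800 with hc₀
  have hc0 : 0 < c₀ := by positivity
  have hc1 : c₀ ≤ 1 := by rw [hc₀]; nlinarith
  have hinv : 4800 / d ^ 2 = 1 / c₀ := by rw [hc₀]; field_simp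
  have hcinv : 1 ≤ 1 / c₀ := by rw [le_div_iff₀ hc0]; linarith
  set A : ℝ := 21 * Y ^ 2 with hAdef
  have hA1 : 21 ≤ A := by rw [hAdef]; nlinarith
  set m : ℝ := Real.log (A / c₀) with hm
  have hAc : 1 < A / c₀ := by rw [lt_div_iff₀ hc0]; linarith
  have hm0 : 0 < m := Real.log_pos hAc
  have hem : Real.exp m = A / c₀ := Real.exp_log (by linarith)
  have hm' : A ≤ ‖g a‖ * Real.exp m := by
    rw [hem]
    calc A = c₀ * (A / c₀) := by field_simp
      _ ≤ ‖g a‖ * (A / c₀) := mul_le_mul_of_nonneg_right hlow (by linarith)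
  obtain ⟨h1, h2⟩ := bc_bounds (by positivity : (0 : ℝ) ≤ d / 20) (by linarith : d / 20 < d) hg hg0
    hA hm0 hm' hs
  have hmle : m ≤ 21 * (1 / c₀) + 4 * Y ^ (1 / 2 : ℝ) := by
    have e1 : m = Real.log (21 * (1 / c₀)) + 2 * Real.log Y := by
      rw [hm, show A / c₀ = (21 * (1 / c₀)) * Y ^ 2 by rw [hAdef]; ring,
        Real.log_mul (by positivity) (by positivity), Real.log_pow]
      push_cast
      ring
    have e2 : Real.log (21 * (1 / c₀)) ≤ 21 * (1 / c₀) :=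
      (Real.log_le_sub_one_of_pos (by positivity)).trans (by linarith)
    have e3 : Real.log Y ≤ Y ^ (1 / 2 : ℝ) / (1 / 2) :=
      Real.log_le_rpow_div hY0.le (by norm_num)
    rw [e1]
    linarith
  have hYr : 1 ≤ Y ^ (1 / 2 : ℝ) := Real.one_le_rpow hY (by norm_num)
  constructor
  · -- lower bound
    have hexp : 2 * m * (d / 20) / (d - d / 20) = m * (2 / 19) := by
      field_simp
      ring
    rw [hexp] at h1
    have e1 : Real.exp (-(m * (2 / 19))) = (A / c₀) ^ (-(2 / 19) : ℝ) := by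
      rw [Real.rpow_def_of_pos (by linarith), ← hm]
      congr 1
      ring
    rw [e1] at h1
    have hgpos : 0 < c₀ * (A / c₀) ^ (-(2 / 19) : ℝ) :=
      mul_pos hc0 (Real.rpow_pos_of_pos (by linarith) _)
    have h3 : c₀ * (A / c₀) ^ (-(2 / 19) : ℝ) ≤ ‖g s‖ :=
      (mul_le_mul_of_nonneg_right hlow (Real.rpow_nonneg (by linarith) _)).trans h1
    have h4 : ‖g s‖⁻¹ ≤ (c₀ * (A / c₀) ^ (-(2 / 19) : ℝ))⁻¹ := inv_anti₀ hgpos h3
    have h5 : (c₀ * (A / c₀) ^ (-(2 / 19) : ℝ))⁻¹ = 1 / c₀ * (A / c₀) ^ (2 / 19 : ℝ) := by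
      rw [mul_inv, ← Real.rpow_neg (by linarith), neg_neg, one_div]
    have h6 : (A / c₀) ^ (2 / 19 : ℝ) ≤ 21 * (1 / c₀) * Y ^ (1 / 2 : ℝ) := by
      rw [show A / c₀ = (21 * (1 / c₀)) * Y ^ 2 by rw [hAdef]; ring,
        Real.mul_rpow (by positivity) (by positivity)]
      refine mul_le_mul ?_ ?_ (by positivity) (by positivity)
      · calc (21 * (1 / c₀)) ^ (2 / 19 : ℝ) ≤ (21 * (1 / c₀)) ^ (1 : ℝ) :=
              Real.rpow_le_rpow_of_exponent_le (by linarith) (by norm_num)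
          _ = 21 * (1 / c₀) := Real.rpow_one _
      · rw [← Real.rpow_natCast, ← Real.rpow_mul hY0.le]
        exact Real.rpow_le_rpow_of_exponent_le hY (by norm_num)
    calc ‖g s‖⁻¹ ≤ 1 / c₀ * (A / c₀) ^ (2 / 19 : ℝ) := h4.trans_eq h5
      _ ≤ 1 / c₀ * (21 * (1 / c₀) * Y ^ (1 / 2 : ℝ)) :=
          mul_le_mul_of_nonneg_left h6 (by positivity)
      _ = 21 * (1 / c₀) ^ 2 * Y ^ (1 / 2 : ℝ) := by ring
      _ ≤ Cd d * Y ^ (1 / 2 : ℝ) := by
          refine mul_le_mul_of_nonneg_right ?_ (by positivity)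
          unfold Cd
          rw [hinv]
          have : 0 ≤ 9 / d * (21 * (1 / c₀) + 4) := by positivity
          linarith
  · calc ‖deriv g s / g s‖ ≤ 8 * m * d / (d - d / 20) ^ 2 := h2
      _ = 3200 / 361 * (m / d) := by field_simp; ring
      _ ≤ 9 * (m / d) := mul_le_mul_of_nonneg_right (by norm_num) (by positivity)
      _ = 9 / d * m := by ring
      _ ≤ 9 / d * (21 * (1 / c₀) + 4 * Y ^ (1 / 2 : ℝ)) :=
          mul_le_mul_of_nonneg_left hmle (by positivity)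
      _ ≤ 9 / d * ((21 * (1 / c₀) + 4) * Y ^ (1 / 2 : ℝ)) := by
          refine mul_le_mul_of_nonneg_left ?_ (by positivity)
          have : 21 * (1 / c₀) ≤ 21 * (1 / c₀) * Y ^ (1 / 2 : ℝ) :=
            le_mul_of_one_le_right (by positivity) hYr
          linarith
      _ = 9 / d * (21 * (1 / c₀) + 4) * Y ^ (1 / 2 : ℝ) := by ring
      _ ≤ Cd d * Y ^ (1 / 2 : ℝ) := by
          refine mul_le_mul_of_nonneg_right ?_ (by positivity)
          unfold Cd
          rw [hinv]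
          have : 0 ≤ 21 * (1 / c₀) ^ 2 := by positivity
          linarith

/-- the geometry of the discs -/
theorem ball_facts {d : ℝ} (hd : 0 < d) (hd2 : d ≤ 1 / 2) {s z : ℂ}
    (hz : z ∈ ball (((1 + d / 40 : ℝ) : ℂ) + (s.im : ℂ) * Complex.I) d) :
    1 - d < z.re ∧ 1 / 2 ≤ z.re ∧ ‖z‖ ≤ 3 * (1 + |s.im|) ∧ ‖z - 1‖ ≤ 3 * (1 + |s.im|) := by
  rw [mem_ball, dist_eq_norm] at hz
  have h1 : |(z - (((1 + d / 40 : ℝ) : ℂ) + (s.im : ℂ) * Complex.I)).re| < d :=
    (Complex.abs_re_le_norm _).trans_lt hz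
  have h2 : |(z - (((1 + d / 40 : ℝ) : ℂ) + (s.im : ℂ) * Complex.I)).im| < d :=
    (Complex.abs_im_le_norm _).trans_lt hz
  simp only [Complex.sub_re, Complex.add_re, Complex.ofReal_re, Complex.mul_re, Complex.I_re,
    mul_zero, Complex.ofReal_im, Complex.I_im, mul_one, sub_self, add_zero, Complex.sub_im,
    Complex.add_im, Complex.mul_im, zero_add] at h1 h2
  rw [abs_lt] at h1 h2
  have h3 : |z.im| ≤ |s.im| + 1 / 2 := by
    have e1 : z.im = s.im + (z.im - s.im) := by ring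
    have e2 : |z.im - s.im| ≤ d := abs_le.mpr ⟨by linarith, by linarith⟩
    calc |z.im| = |s.im + (z.im - s.im)| := by rw [← e1]
      _ ≤ |s.im| + |z.im - s.im| := abs_add_le _ _
      _ ≤ |s.im| + 1 / 2 := by linarith
  have hz0 : 1 / 2 ≤ z.re := by linarith
  refine ⟨by linarith, hz0, ?_, ?_⟩
  · have := Complex.norm_le_abs_re_add_abs_im z
    rw [abs_of_nonneg (by linarith : 0 ≤ z.re)] at this
    have := abs_nonneg s.im
    linarith
  · have h4 := Complex.norm_le_abs_re_add_abs_im (z - 1)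
    simp only [Complex.sub_re, Complex.one_re, Complex.sub_im, Complex.one_im, sub_zero] at h4
    have h5 : |z.re - 1| ≤ 1 := abs_le.mpr ⟨by linarith, by linarith⟩
    have := abs_nonneg s.im
    linarith

theorem near_centre {d : ℝ} (hd : 0 < d) {s : ℂ} (h1 : 1 - d / 40 ≤ s.re)
    (h2 : s.re ≤ 1 + d / 40) :
    ‖s - (((1 + d / 40 : ℝ) : ℂ) + (s.im : ℂ) * Complex.I)‖ ≤ d / 20 := by
  have e1 : s - (((1 + d / 40 : ℝ) : ℂ) + (s.im : ℂ) * Complex.I) =
      ((s.re - (1 + d / 40) : ℝ) : ℂ) := by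
    apply Complex.ext <;> simp
  rw [e1, Complex.norm_real, Real.norm_eq_abs, abs_le]
  constructor <;> linarith

/-- nonprincipal characters -/
theorem zf_nontriv {d : ℝ} (hd : 0 < d) (hd2 : d ≤ 1 / 2) {q : ℕ} [NeZero q]
    {χ : DirichletCharacter ℂ q} (hχ : χ ≠ 1)
    (hz : ∀ s : ℂ, 1 - d < s.re → s.re < 1 → LFunction χ s ≠ 0) {s : ℂ}
    (h1 : 1 - d / 40 ≤ s.re) (h2 : s.re ≤ 1 + d / 40) :
    LFunction χ s ≠ 0 ∧ ‖LFunction χ s‖⁻¹ ≤ Cd d * ((q : ℝ) * (1 + |s.im|)) ^ (1 / 2 : ℝ) ∧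
      ‖deriv (LFunction χ) s / LFunction χ s‖ ≤ Cd d * ((q : ℝ) * (1 + |s.im|)) ^ (1 / 2 : ℝ) := by
  have hq : (1 : ℝ) ≤ q := by exact_mod_cast Nat.one_le_iff_ne_zero.mpr (NeZero.ne q)
  have ht := abs_nonneg s.im
  set a : ℂ := (((1 + d / 40 : ℝ) : ℂ) + (s.im : ℂ) * Complex.I) with ha
  have hare : a.re = 1 + d / 40 := by simp [ha]
  set Y : ℝ := (q : ℝ) * (1 + |s.im|) with hY
  have hY1 : 1 ≤ Y := by rw [hY]; nlinarith
  have hne : ∀ z : ℂ, 1 - d < z.re → LFunction χ z ≠ 0 := by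
    intro z hz1
    by_cases h : z.re < 1
    · exact hz z hz1 h
    · exact LFunction_ne_zero_of_one_le_re χ (Or.inl hχ) (not_lt.mp h)
  refine ⟨hne s (by linarith), ?_⟩
  refine zf_core (a := a) hd hd2 hY1 (differentiable_LFunction hχ).differentiableOn ?_ ?_ ?_
    (near_centre hd h1 h2)
  · intro z hz1
    exact hne z (ball_facts hd hd2 hz1).1
  · intro z hz1
    obtain ⟨_, f2, f3, _⟩ := ball_facts hd hd2 hz1
    refine (Gr.norm_LFunction_le hχ (by linarith)).trans ?_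
    have e1 : (q : ℝ) / z.re ≤ 2 * q := by
      rw [div_le_iff₀ (by linarith)]
      nlinarith
    calc ‖z‖ * (q / z.re) ≤ (3 * (1 + |s.im|)) * (2 * q) :=
          mul_le_mul f3 e1 (by positivity) (by positivity)
      _ = 6 * Y := by rw [hY]; ring
      _ ≤ 21 * Y ^ 2 := by nlinarith
  · have := Gr.ll_inv q χ a (by rw [hare]; linarith) (by rw [hare]; linarith)
    rw [hare] at this
    nlinarith

/-- the principal character -/
theorem zf_triv {d : ℝ} (hd : 0 < d) (hd2 : d ≤ 1 / 2) {q : ℕ} [NeZero q]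
    (hz : ∀ s : ℂ, 1 - d < s.re → s.re < 1 →
      LFunction (1 : DirichletCharacter ℂ q) s ≠ 0) {s : ℂ}
    (h1 : 1 - d / 40 ≤ s.re) (h2 : s.re ≤ 1 + d / 40) :
    LFunctionTrivChar₁ q s ≠ 0 ∧
      ‖LFunctionTrivChar₁ q s‖⁻¹ ≤ Cd d * ((q : ℝ) * (1 + |s.im|)) ^ (1 / 2 : ℝ) ∧
      ‖deriv (LFunctionTrivChar₁ q) s / LFunctionTrivChar₁ q s‖ ≤
        Cd d * ((q : ℝ) * (1 + |s.im|)) ^ (1 / 2 : ℝ) := by
  have hq : (1 : ℝ) ≤ q := by exact_mod_cast Nat.one_le_iff_ne_zero.mpr (NeZero.ne q)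
  have ht := abs_nonneg s.im
  set a : ℂ := (((1 + d / 40 : ℝ) : ℂ) + (s.im : ℂ) * Complex.I) with ha
  have hare : a.re = 1 + d / 40 := by simp [ha]
  set Y : ℝ := (q : ℝ) * (1 + |s.im|) with hY
  have hY1 : 1 ≤ Y := by rw [hY]; nlinarith
  have hne : ∀ z : ℂ, 1 - d < z.re → LFunctionTrivChar₁ q z ≠ 0 := by
    intro z hz1
    by_cases h : z = 1
    · subst h
      exact LFunctionTrivChar₁_apply_one_ne_zero q
    · rw [LFunctionTrivChar₁, Function.update_of_ne h]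
      refine mul_ne_zero (sub_ne_zero.mpr h) ?_
      by_cases h' : z.re < 1
      · exact hz z hz1 h'
      · exact LFunction_ne_zero_of_one_le_re _ (Or.inr h) (not_lt.mp h')
  refine ⟨hne s (by linarith), ?_⟩
  refine zf_core (a := a) hd hd2 hY1 (differentiable_LFunctionTrivChar₁ q).differentiableOn
    ?_ ?_ ?_ (near_centre hd h1 h2)
  · intro z hz1
    exact hne z (ball_facts hd hd2 hz1).1
  · intro z hz1
    obtain ⟨_, f2, f3, f4⟩ := ball_facts hd hd2 hz1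
    refine (Gr.norm_triv_le q (by linarith)).trans ?_
    have e1 : ‖z‖ / z.re ≤ 2 * (3 * (1 + |s.im|)) := by
      rw [div_le_iff₀ (by linarith)]
      nlinarith
    calc (q : ℝ) * (‖z‖ + ‖z - 1‖ * (‖z‖ / z.re))
        ≤ q * (3 * (1 + |s.im|) + (3 * (1 + |s.im|)) * (2 * (3 * (1 + |s.im|)))) := by
          gcongr
      _ ≤ q * (21 * (1 + |s.im|) ^ 2) := by
          refine mul_le_mul_of_nonneg_left ?_ (by linarith)
          nlinarith
      _ ≤ 21 * Y ^ 2 := by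
          rw [hY, mul_pow]
          have : (q : ℝ) ≤ q ^ 2 := by nlinarith
          nlinarith [sq_nonneg (1 + |s.im|)]
  · have hane : a ≠ 1 := by
      intro h
      rw [h] at hare
      simp at hare
      linarith
    rw [LFunctionTrivChar₁, Function.update_of_ne hane, norm_mul]
    have e1 := Gr.ll_inv q (1 : DirichletCharacter ℂ q) a (by rw [hare]; linarith)
      (by rw [hare]; linarith)
    rw [hare] at e1
    have e2 : d / 40 ≤ ‖a - 1‖ := by
      have := Complex.abs_re_le_norm (a - 1)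
      simp only [Complex.sub_re, hare, Complex.one_re] at this
      rw [abs_of_nonneg (by linarith)] at this
      linarith
    calc d ^ 2 / 4800 = (d / 40) * ((1 + d / 40 - 1) / 3) := by ring
      _ ≤ ‖a - 1‖ * ‖LFunction (1 : DirichletCharacter ℂ q) a‖ :=
          mul_le_mul e2 e1 (by linarith) (norm_nonneg _)

end Vale.Agent.P026.TP
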