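import Mathlib
import Vale.Agent.P026.TP.Defs
import Vale.Agent.P026.TP.ZF
import Vale.Agent.P026.TP.Shift
import Vale.Agent.P026.TP.Desmooth

/-! [M1] primes in progressions with a power saving. -/

open Finset Real DirichletCharacter ArithmeticFunction

namespace Vale.Agent.P026.TP

open Rz

/-- the constant in the power saving bounds -/
noncomputable def KK (d : ℝ) : ℝ := 5 * (K0 * (2 / (1 - d / 40)) * Cd d) + 5 + 320 / d

theorem KK_pos {d : ℝ} (hd : 0 < d) (hd2 : d ≤ 1 / 2) : 0 < KK d := by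
  have h1 := K0_nonneg
  have h2 := Cd_pos hd
  have h3 : 0 < 1 - d / 40 := by linarith
  unfold KK
  positivity

/-- combination of the contour shift and de-smoothing -/
theorem power_saving (a : ℕ → ℂ) (c : ℂ) (F : ℂ → ℂ) {d Q : ℝ} (hd : 0 < d) (hd2 : d ≤ 1 / 2)
    (hQ : 1 ≤ Q) (hc : ‖c‖ ≤ 1) (ha : ∀ n : ℕ, 1 ≤ n → ‖a n‖ ≤ 1 + Real.log n)
    (has : LSeriesSummable a ((1 + d / 40 : ℝ) : ℂ))
    (hF : ∀ s : ℂ, 1 < s.re → LSeries a s = F s + c / (s - 1))
    (hFd : ∀ s : ℂ, 1 - d / 40 ≤ s.re → s.re ≤ 1 + d / 40 → DifferentiableAt ℂ F s)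
    (hFb : ∀ s : ℂ, 1 - d / 40 ≤ s.re → s.re ≤ 1 + d / 40 →
      ‖F s‖ ≤ Cd d * (Q * (1 + |s.im|)) ^ (1 / 2 : ℝ)) (x : ℝ) (hx : 1 ≤ x) :
    ‖∑ n ∈ Icc 1 ⌊x⌋₊, a n - c * x‖ ≤ KK d * Q ^ (1 / 2 : ℝ) * x ^ (1 - d / 160) := by
  have hQ0 : 0 < Q := by linarith
  have hCd := Cd_pos hd
  have hσ1 : 0 < 1 - d / 40 := by linarith
  have h1 := fun x hx => riesz_shift (σ₁ := 1 - d / 40) (σ₂ := 1 + d / 40)
    (B := Cd d * Q ^ (1 / 2 : ℝ)) a c F hσ1
    (by linarith) (by linarith) has (fun t => hF _ (by rw [rz_lin_re]; linarith)) hFd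
    (fun s hs1 hs2 => by
      refine (hFb s hs1 hs2).trans (le_of_eq ?_)
      rw [Real.mul_rpow hQ0.le (by positivity), mul_assoc]) x hx
  have hK0 := K0_nonneg
  have h2 := desmooth a c (K := K0 * (2 / (1 - d / 40)) * (Cd d * Q ^ (1 / 2 : ℝ)))
    (θ := 1 - d / 40) hσ1.le (by linarith) (by positivity) hc ha h1 x hx
  have e1 : (3 + (1 - d / 40)) / 4 = 1 - d / 160 := by ring
  rw [e1] at h2
  refine h2.trans (mul_le_mul_of_nonneg_right ?_ (by positivity))
  have hQr : 1 ≤ Q ^ (1 / 2 : ℝ) := Real.one_le_rpow hQ (by norm_num)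
  have e2 : 8 / (1 - (1 - d / 40)) = 320 / d := by
    rw [show 1 - (1 - d / 40) = d / 40 by ring]
    field_simp
    norm_num
  rw [e2]
  unfold KK
  have h3 : 5 + 320 / d ≤ (5 + 320 / d) * Q ^ (1 / 2 : ℝ) :=
    le_mul_of_one_le_right (by positivity) hQr
  calc 5 * (K0 * (2 / (1 - d / 40)) * (Cd d * Q ^ (1 / 2 : ℝ))) + 5 + 320 / d
      ≤ 5 * (K0 * (2 / (1 - d / 40)) * (Cd d * Q ^ (1 / 2 : ℝ))) +
        (5 + 320 / d) * Q ^ (1 / 2 : ℝ) := by linarith
    _ = _ := by ring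

open ArithmeticFunction.vonMangoldt in
theorem aux_eq {q : ℕ} [NeZero q] (a : ZMod q) :
    ∃ S : Finset (DirichletCharacter ℂ q), (∀ χ, χ ∈ S ↔ χ ≠ 1) ∧
      LFunctionResidueClassAux a = fun s => (q.totient : ℂ)⁻¹ *
        (-deriv (LFunctionTrivChar₁ q) s / LFunctionTrivChar₁ q s -
          ∑ χ ∈ S, χ a⁻¹ * deriv (LFunction χ) s / LFunction χ s) := by
  refine ⟨_, fun χ => ?_, rfl⟩
  simp

open ArithmeticFunction.vonMangoldt in
theorem psiAP_bound {d : ℝ} (hd : 0 < d) (hd2 : d ≤ 1 / 2) {q : ℕ} [NeZero q]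
    (hz : ∀ χ : DirichletCharacter ℂ q, ∀ s : ℂ, 1 - d < s.re → s.re < 1 → LFunction χ s ≠ 0)
    {a : ZMod q} (ha : IsUnit a) (x : ℝ) (hx : 1 ≤ x) :
    ‖∑ n ∈ Icc 1 ⌊x⌋₊, (residueClass a n : ℂ) - ((Nat.totient q : ℂ))⁻¹ * x‖ ≤
      KK d * (q : ℝ) ^ (1 / 2 : ℝ) * x ^ (1 - d / 160) := by
  classical
  have hq : (1 : ℝ) ≤ q := by exact_mod_cast Nat.one_le_iff_ne_zero.mpr (NeZero.ne q)
  have hφ : 0 < Nat.totient q := Nat.totient_pos.mpr q.pos_of_neZero
  have hφ1 : (1 : ℝ) ≤ Nat.totient q := by exact_mod_cast hφ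
  obtain ⟨S, hS, hAux⟩ := aux_eq a
  refine power_saving (fun n => (residueClass a n : ℂ)) _ (LFunctionResidueClassAux a) hd hd2 hq
    ?_ ?_ ?_ ?_ ?_ ?_ x hx
  · rw [norm_inv, Complex.norm_natCast]
    exact inv_le_one_of_one_le₀ hφ1
  · intro n hn
    rw [Complex.norm_real, Real.norm_of_nonneg (residueClass_nonneg a n)]
    have := (residueClass_le a n).trans vonMangoldt_le_log
    linarith
  · refine LSeriesSummable_of_abscissaOfAbsConv_lt_re ?_
    refine (abscissaOfAbsConv_residueClass_le_one a).trans_lt ?_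
    rw [Complex.ofReal_re]
    exact_mod_cast (by linarith : (1 : ℝ) < 1 + d / 40)
  · intro s hs
    have := eqOn_LFunctionResidueClassAux ha hs
    simp only at this
    rw [this]
    ring
  · intro s hs1 hs2
    have hT := zf_triv hd hd2 (hz 1) hs1 hs2
    have hL : ∀ χ : DirichletCharacter ℂ q, χ ≠ 1 → _ := fun χ hχ =>
      zf_nontriv hd hd2 hχ (hz χ) hs1 hs2
    have d1 : DifferentiableAt ℂ (fun s => -deriv (LFunctionTrivChar₁ q) s /
        LFunctionTrivChar₁ q s) s := by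
      refine DifferentiableAt.fun_div ?_ (differentiable_LFunctionTrivChar₁ q s) hT.1
      exact ((differentiable_LFunctionTrivChar₁ q).contDiff.differentiable_deriv_two s).neg
    have d2 : DifferentiableAt ℂ (fun s => ∑ χ ∈ S,
        χ a⁻¹ * deriv (LFunction χ) s / LFunction χ s) s := by
      refine DifferentiableAt.fun_sum fun χ hχ => ?_
      have hχ' : χ ≠ 1 := (hS χ).mp hχ
      refine DifferentiableAt.fun_div ?_ (differentiable_LFunction hχ' s) (hL χ hχ').1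
      exact ((differentiable_LFunction hχ').contDiff.differentiable_deriv_two s).const_mul _
    rw [hAux]
    exact (d1.sub d2).const_mul _
  · intro s hs1 hs2
    have hT := zf_triv hd hd2 (hz 1) hs1 hs2
    set W : ℝ := Cd d * ((q : ℝ) * (1 + |s.im|)) ^ (1 / 2 : ℝ) with hW
    have hW0 : 0 ≤ W := (norm_nonneg _).trans hT.2.2
    have hcard : ((S.card : ℕ) : ℝ) + 1 = Nat.totient q := by
      have e1 := Finset.card_compl ({1} : Finset (DirichletCharacter ℂ q))
      have e0 : S = ({1}ᶜ : Finset (DirichletCharacter ℂ q)) := by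
        ext χ
        rw [hS]
        simp
      have e2 : Fintype.card (DirichletCharacter ℂ q) = Nat.totient q := by
        rw [← Nat.card_eq_fintype_card]
        exact DirichletCharacter.card_eq_totient_of_hasEnoughRootsOfUnity ℂ q
      rw [e2, Finset.card_singleton, ← e0] at e1
      have e3 : S.card + 1 = Nat.totient q := by omega
      exact_mod_cast e3
    rw [hAux]
    simp only
    rw [norm_mul, norm_inv, Complex.norm_natCast]
    have e1 : ‖-deriv (LFunctionTrivChar₁ q) s / LFunctionTrivChar₁ q s -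
        ∑ χ ∈ S,
          χ a⁻¹ * deriv (LFunction χ) s / LFunction χ s‖ ≤ Nat.totient q * W := by
      refine (norm_sub_le _ _).trans ?_
      have e2 : ‖-deriv (LFunctionTrivChar₁ q) s / LFunctionTrivChar₁ q s‖ ≤ W := by
        rw [neg_div, norm_neg]
        exact hT.2.2
      have e3 : ‖∑ χ ∈ S,
          χ a⁻¹ * deriv (LFunction χ) s / LFunction χ s‖ ≤
          ∑ χ ∈ S, W := by
        refine norm_sum_le_of_le _ fun χ hχ => ?_
        have hχ' : χ ≠ 1 := (hS χ).mp hχ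
        have e4 := (zf_nontriv hd hd2 hχ' (hz χ) hs1 hs2).2.2
        rw [mul_div_assoc, norm_mul]
        calc ‖χ a⁻¹‖ * ‖deriv (LFunction χ) s / LFunction χ s‖ ≤ 1 * W :=
              mul_le_mul (χ.norm_le_one _) e4 (norm_nonneg _) zero_le_one
          _ = W := one_mul W
      rw [Finset.sum_const, nsmul_eq_mul] at e3
      calc _ ≤ W + (S.card : ℝ) * W := add_le_add e2 e3
        _ = ((S.card : ℝ) + 1) * W := by ring
        _ = Nat.totient q * W := by rw [hcard]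
    calc ((Nat.totient q : ℝ))⁻¹ * _ ≤ ((Nat.totient q : ℝ))⁻¹ * (Nat.totient q * W) :=
          mul_le_mul_of_nonneg_left e1 (by positivity)
      _ = W := by field_simp

theorem psiAPStmt : PsiAPStmt := by
  intro σ₀ hσ hZ
  set d : ℝ := min (1 / 2) (1 - σ₀) with hd
  have hd0 : 0 < d := lt_min (by norm_num) (by linarith)
  have hd2 : d ≤ 1 / 2 := min_le_left _ _
  have hd1 : d ≤ 1 - σ₀ := min_le_right _ _
  refine ⟨d / 160, 1 / 2, KK d, by positivity, by linarith, by norm_num, KK_pos hd0 hd2, ?_⟩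
  intro q a x hq haq hx
  have : NeZero q := ⟨by omega⟩
  have hz : ∀ χ : DirichletCharacter ℂ q, ∀ s : ℂ, 1 - d < s.re → s.re < 1 →
      LFunction χ s ≠ 0 := by
    intro χ s h1 h2 h0
    have := hZ q χ s (by linarith) h2 h0
    linarith
  have ha : IsUnit (a : ZMod q) := (ZMod.isUnit_iff_coprime a q).mpr haq
  have h := psiAP_bound hd0 hd2 hz ha x hx
  have e1 : ∑ n ∈ Icc 1 ⌊x⌋₊, (vonMangoldt.residueClass (a : ZMod q) n : ℂ) =
      ((psiAP x q a : ℝ) : ℂ) := by
    rw [psiAP, Finset.sum_filter]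
    push_cast
    refine Finset.sum_congr rfl fun n _ => ?_
    rw [vonMangoldt.residueClass, Set.indicator_apply]
    have : n ∈ {n : ℕ | (n : ZMod q) = (a : ZMod q)} ↔ n ≡ a [MOD q] := by
      rw [Set.mem_ofPred_eq]
      exact ZMod.natCast_eq_natCast_iff n a q
    simp only [this]
  have e2 : ∑ n ∈ Icc 1 ⌊x⌋₊, (vonMangoldt.residueClass (a : ZMod q) n : ℂ) -
      ((Nat.totient q : ℂ))⁻¹ * x = ((psiAP x q a - x / (Nat.totient q : ℝ) : ℝ) : ℂ) := by
    rw [e1]
    push_cast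
    ring
  rw [e2, Complex.norm_real, Real.norm_eq_abs] at h
  exact h

end Vale.Agent.P026.TP
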