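import Mathlib

/-! Square roots of functions on a short interval `(0, u₀]`. -/

open Set Filter Topology

namespace Vale.Agent.P026.TP

/-- A continuous function whose square is `(c / u)² + O(u ^ (-2 + δ))`. -/
theorem square_root {G : ℝ → ℂ} {u₀ c' δ : ℝ} {c : ℂ} (hu₀ : 0 < u₀)
    (hδ : 0 < δ) (hc : c ≠ 0) (hG : ContinuousOn G (Ioc 0 u₀))
    (h : ∀ u ∈ Ioc 0 u₀, ‖G u ^ 2 - c ^ 2 / (u : ℂ) ^ 2‖ ≤ c' * u ^ (-2 + δ)) :
    ∃ (k : ℂ) (C u₁ : ℝ), 0 < u₁ ∧ u₁ ≤ u₀ ∧ ∀ u ∈ Ioc 0 u₁,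
      ‖G u - k / (u : ℂ)‖ ≤ C * u ^ (-1 + δ) := by
  have hcn : 0 < ‖c‖ := norm_pos_iff.mpr hc
  set K : ℝ := |c'| / ‖c‖ ^ 2 + 1 with hK
  have hK0 : 0 < K := by positivity
  -- choose `u₁` with `K u₁ ^ δ ≤ 1 / 2`
  have hlim : Tendsto (fun u : ℝ => K * u ^ δ) (𝓝[>] 0) (𝓝 0) := by
    have h1 : Tendsto (fun u : ℝ => u ^ δ) (𝓝[>] 0) (𝓝 0) := by
      have := (Real.continuousAt_rpow_const 0 δ (Or.inr hδ.le)).tendsto
      rw [Real.zero_rpow hδ.ne'] at this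
      exact this.mono_left nhdsWithin_le_nhds
    simpa using h1.const_mul K
  have hev : ∀ᶠ u : ℝ in 𝓝[>] 0, K * u ^ δ < 1 / 2 := hlim.eventually (gt_mem_nhds (by norm_num))
  obtain ⟨u₂, hu₂, hu₂'⟩ := (mem_nhdsGT_iff_exists_Ioc_subset).mp hev
  set u₁ : ℝ := min u₂ u₀ with hu₁
  have hu₁0 : 0 < u₁ := lt_min hu₂ hu₀
  have hu₁1 : u₁ ≤ u₀ := min_le_right _ _
  -- the normalised function
  set W : ℝ → ℂ := fun u => (u : ℂ) * G u / c with hW
  have hVb : ∀ u ∈ Ioc 0 u₁, ‖W u ^ 2 - 1‖ ≤ K * u ^ δ := by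
    intro u hu
    have hu0 : 0 < u := hu.1
    have huc : (u : ℂ) ≠ 0 := by exact_mod_cast hu0.ne'
    have h1 := h u ⟨hu.1, hu.2.trans hu₁1⟩
    have e1 : W u ^ 2 - 1 = (u : ℂ) ^ 2 / c ^ 2 * (G u ^ 2 - c ^ 2 / (u : ℂ) ^ 2) := by
      rw [hW]
      field_simp
    rw [e1, norm_mul, norm_div, norm_pow, norm_pow, Complex.norm_real, Real.norm_of_nonneg hu0.le]
    calc u ^ 2 / ‖c‖ ^ 2 * ‖G u ^ 2 - c ^ 2 / (u : ℂ) ^ 2‖
        ≤ u ^ 2 / ‖c‖ ^ 2 * (|c'| * u ^ (-2 + δ)) := by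
          refine mul_le_mul_of_nonneg_left (h1.trans ?_) (by positivity)
          exact mul_le_mul_of_nonneg_right (le_abs_self _) (by positivity)
      _ = |c'| / ‖c‖ ^ 2 * (u ^ (2 : ℝ) * u ^ (-2 + δ)) := by
          rw [show u ^ (2 : ℝ) = u ^ 2 by norm_cast]
          ring
      _ = |c'| / ‖c‖ ^ 2 * u ^ δ := by
          rw [← Real.rpow_add hu0]
          ring_nf
      _ ≤ K * u ^ δ := mul_le_mul_of_nonneg_right (by rw [hK]; linarith) (by positivity)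
  have hVhalf : ∀ u ∈ Ioc 0 u₁, ‖W u ^ 2 - 1‖ < 1 / 2 := by
    intro u hu
    have := hu₂' ⟨hu.1, hu.2.trans (min_le_left _ _)⟩
    exact (hVb u hu).trans_lt this
  have hWc : ContinuousOn W (Ioc 0 u₁) :=
    ((Complex.continuous_ofReal.continuousOn).mul
      (hG.mono (Ioc_subset_Ioc_right hu₁1))).div_const c
  -- the real part of `W` does not vanish
  have hre : ∀ u ∈ Ioc 0 u₁, (W u).re ≠ 0 := by
    intro u hu h0
    have h1 := hVhalf u hu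
    have h2 := Complex.abs_re_le_norm (W u ^ 2 - 1)
    have h3 : (W u ^ 2 - 1).re = -((W u).im ^ 2) - 1 := by
      rw [Complex.sub_re, sq, Complex.mul_re, h0, Complex.one_re]
      ring
    rw [h3, abs_of_nonpos (by nlinarith [sq_nonneg (W u).im])] at h2
    nlinarith [sq_nonneg (W u).im]
  have hrec : ContinuousOn (fun u => (W u).re) (Ioc 0 u₁) :=
    Complex.continuous_re.comp_continuousOn hWc
  -- the sign is constant
  obtain ⟨ω, hω1, hωn, hpos⟩ : ∃ ω : ℂ, ω ^ 2 = 1 ∧ ‖ω‖ = 1 ∧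
      ∀ u ∈ Ioc 0 u₁, 0 ≤ (W u / ω).re := by
    by_cases hs : ∀ u ∈ Ioc 0 u₁, 0 < (W u).re
    · exact ⟨1, by norm_num, by norm_num, fun u hu => by rw [div_one]; exact (hs u hu).le⟩
    · refine ⟨-1, by norm_num, by norm_num, fun u hu => ?_⟩
      have hneg : (W u).re < 0 := by
        by_contra hcon
        push Not at hcon hs
        obtain ⟨v, hv, hv'⟩ := hs
        have hiv := (isPreconnected_Ioc.image _ hrec).ordConnected.out
          (Set.mem_image_of_mem _ hv) (Set.mem_image_of_mem _ hu)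
        obtain ⟨w, hw, hw'⟩ := hiv ⟨hv', hcon⟩
        exact hre w hw hw'
      rw [div_neg, div_one, Complex.neg_re]
      linarith
  have hω0 : ω ≠ 0 := by
    intro h0
    rw [h0] at hω1
    norm_num at hω1
  have hclose : ∀ u ∈ Ioc 0 u₁, ‖W u / ω - 1‖ ≤ K * u ^ δ := by
    intro u hu
    refine le_trans ?_ (hVb u hu)
    have h1 : W u ^ 2 - 1 = (W u / ω - 1) * (W u / ω + 1) := by
      have : (W u / ω - 1) * (W u / ω + 1) = W u ^ 2 / ω ^ 2 - 1 := by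
        field_simp
        ring
      rw [this, hω1, div_one]
    rw [h1, norm_mul]
    refine le_mul_of_one_le_right (norm_nonneg _) ?_
    have h2 := Complex.re_le_norm (W u / ω + 1)
    rw [Complex.add_re, Complex.one_re] at h2
    have := hpos u hu
    linarith
  refine ⟨ω * c, ‖c‖ * K, u₁, hu₁0, hu₁1, fun u hu => ?_⟩
  have hu0 : 0 < u := hu.1
  have huc : (u : ℂ) ≠ 0 := by exact_mod_cast hu0.ne'
  have h3 : G u - ω * c / u = ω * c / u * (W u / ω - 1) := by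
    rw [hW]
    field_simp
  rw [h3, norm_mul, norm_div, norm_mul, hωn, one_mul, Complex.norm_real,
    Real.norm_of_nonneg hu0.le]
  calc ‖c‖ / u * ‖W u / ω - 1‖ ≤ ‖c‖ / u * (K * u ^ δ) :=
        mul_le_mul_of_nonneg_left (hclose u hu) (by positivity)
    _ = ‖c‖ * K * (u ^ (-1 : ℝ) * u ^ δ) := by
        rw [Real.rpow_neg_one]
        ring
    _ = ‖c‖ * K * u ^ (-1 + δ) := by rw [← Real.rpow_add hu0]

/-- A function whose square is `O(u ^ (-2 + δ))`. -/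
theorem square_zero {G : ℝ → ℂ} {u₀ c' δ : ℝ}
    (h : ∀ u ∈ Ioc 0 u₀, ‖G u ^ 2‖ ≤ c' * u ^ (-2 + δ)) :
    ∃ C : ℝ, ∀ u ∈ Ioc 0 u₀, ‖G u‖ ≤ C * u ^ (-1 + δ / 2) := by
  refine ⟨|c'| ^ (1 / 2 : ℝ), fun u hu => ?_⟩
  have hu0 : 0 < u := hu.1
  have h1 : ‖G u‖ ^ 2 ≤ |c'| * u ^ (-2 + δ) := by
    rw [← norm_pow]
    exact (h u hu).trans (mul_le_mul_of_nonneg_right (le_abs_self _) (by positivity))
  have h2 : (|c'| ^ (1 / 2 : ℝ) * u ^ (-1 + δ / 2)) ^ 2 = |c'| * u ^ (-2 + δ) := by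
    rw [mul_pow, ← Real.rpow_natCast, ← Real.rpow_natCast, ← Real.rpow_mul (abs_nonneg _),
      ← Real.rpow_mul hu0.le, show (1 / 2 : ℝ) * ((2 : ℕ) : ℝ) = 1 by norm_num,
      show (-1 + δ / 2) * ((2 : ℕ) : ℝ) = -2 + δ by push_cast; ring, Real.rpow_one]
  rw [← h2] at h1
  exact (pow_le_pow_iff_left₀ (norm_nonneg _) (by positivity) (by norm_num)).mp h1

end Vale.Agent.P026.TP
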