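import Vale.Agent.P026.TP.SqGen
import Vale.Agent.P026.TP.Root2
import Vale.Agent.P026.TP.M8

/-!
# P026 TP: a power saving in the mean square of the binary Goldbach problem excludes zeros
-/

open Finset ArithmeticFunction Filter Topology

namespace Vale.Agent.P026.TP

/-- the rays to `e(a/q)` from the square, for squarefree `q` -/
theorem raySave_of_square {q a : ℕ} (hq : 1 ≤ q) {δ : ℝ} (hδ : 0 < δ)
    (hmu : moebius q ≠ 0)
    (h : ∃ C u₀ : ℝ, 0 < u₀ ∧ ∀ u : ℝ, 0 < u → u ≤ u₀ →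
      ‖FL ((Real.exp (-u) : ℂ) * e ((a : ℝ) / q)) ^ 2 -
        (((moebius q : ℤ) : ℂ) / (Nat.totient q : ℂ)) ^ 2 / (u : ℂ) ^ 2‖ ≤
        C * u ^ (-2 + δ / 2)) :
    RaySave ((a : ℝ) / q) (δ / 2) := by
  obtain ⟨C, u₀, hu₀, hC⟩ := h
  have hc : ((moebius q : ℤ) : ℂ) / (Nat.totient q : ℂ) ≠ 0 := by
    refine div_ne_zero (by exact_mod_cast hmu) ?_
    exact_mod_cast (Nat.totient_pos.mpr hq).ne'
  obtain ⟨k, C', u₁, hu₁, _, hk⟩ := square_root (G := fun u : ℝ =>
    FL ((Real.exp (-u) : ℂ) * e ((a : ℝ) / q))) hu₀ (by positivity : 0 < δ / 2) hc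
    ((continuousOn_ray _).mono fun u hu => hu.1) (fun u hu => hC u hu.1 hu.2)
  exact ⟨k, C', u₁, hu₁, fun u hu0 hu => hk u ⟨hu0, hu⟩⟩

/-- the rays to `e(a/q)` from the square, for `q` which is not squarefree -/
theorem raySave_of_square_zero {q a : ℕ} {δ : ℝ}
    (hmu : moebius q = 0)
    (h : ∃ C u₀ : ℝ, 0 < u₀ ∧ ∀ u : ℝ, 0 < u → u ≤ u₀ →
      ‖FL ((Real.exp (-u) : ℂ) * e ((a : ℝ) / q)) ^ 2 -
        (((moebius q : ℤ) : ℂ) / (Nat.totient q : ℂ)) ^ 2 / (u : ℂ) ^ 2‖ ≤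
        C * u ^ (-2 + δ / 2)) :
    RaySave ((a : ℝ) / q) (δ / 4) := by
  obtain ⟨C, u₀, hu₀, hC⟩ := h
  rw [hmu] at hC
  obtain ⟨C', hC'⟩ := square_zero (G := fun u : ℝ =>
    FL ((Real.exp (-u) : ℂ) * e ((a : ℝ) / q))) (u₀ := u₀) (c' := C) (δ := δ / 2) (fun u hu => by
      have := hC u hu.1 hu.2
      simpa using this)
  refine ⟨0, C', u₀, hu₀, fun u hu0 hu => ?_⟩
  have := hC' u ⟨hu0, hu⟩
  have e1 : δ / 2 / 2 = δ / 4 := by ring
  rw [e1] at this
  simpa using this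

theorem converse2Stmt (hS : Singular2Stmt) : Converse2Stmt := by
  intro δ hδ0 hδ hT q _ χ s hs0 hs1 hL
  have hq : 1 ≤ q := NeZero.one_le
  have hs1' : s ≠ 1 := by
    intro h
    rw [h] at hs1
    simp at hs1
  constructor
  · by_contra hcon
    push Not at hcon
    refine zeros_of_rays (η := δ / 4) (by positivity) (by linarith) ?_ χ hs1' hcon hL
    intro b
    obtain ⟨a, q', hq', _, hco, hab⟩ := reduce_frac b hq
    rw [hab]
    have hray := square_gen hS hδ0 hδ hT hq' hco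
    by_cases hmu : moebius q' = 0
    · exact raySave_of_square_zero hmu hray
    · exact (raySave_of_square hq' hδ0 hmu hray).mono (by linarith)
  · intro hsq
    by_contra hcon
    push Not at hcon
    refine zeros_of_rays (η := δ / 2) (by positivity) (by linarith) ?_ χ hs1' hcon hL
    intro b
    obtain ⟨a, q', hq', hdvd, hco, hab⟩ := reduce_frac b hq
    rw [hab]
    have hray := square_gen hS hδ0 hδ hT hq' hco
    have hmu : moebius q' ≠ 0 := moebius_ne_zero_iff_squarefree.mpr (hsq.squarefree_of_dvd hdvd)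
    exact raySave_of_square hq' hδ0 hmu hray

end Vale.Agent.P026.TP
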