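import Vale.Agent.P026.TP.Defs

/-!
# P026: binary Goldbach in mean square

A third statement equivalent to the uniform quasi-Riemann hypothesis: the asymptotic formula for
the binary Goldbach problem with a power saving in mean square.
-/

open Finset ArithmeticFunction

namespace Vale.Agent.P026.TP

/-- The weighted number of representations of `n` as a sum of two primes. -/
noncomputable def r2 (n : ℕ) : ℝ :=
  ∑ a ∈ range (n + 1), ∑ b ∈ range (n + 1),
    if a + b = n then vonMangoldt a * vonMangoldt b else 0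

/-- The singular series of the binary Goldbach problem,
`∏_{p ∣ n} (1 + 1 / (p - 1)) ∏_{p ∤ n} (1 - 1 / (p - 1)²)` (it is `0` for odd `n`). -/
noncomputable def singular2 (n : ℕ) : ℝ :=
  ∏' p : Nat.Primes,
    if (p : ℕ) ∣ n then 1 + 1 / ((p : ℝ) - 1) else 1 - 1 / ((p : ℝ) - 1) ^ 2

/-- The binary Goldbach asymptotic formula in mean square with a saving of `N ^ δ`. -/
def BinaryMean (δ : ℝ) : Prop :=
  ∃ C : ℝ, ∀ N : ℕ, 1 ≤ N →
    ∑ n ∈ Icc 1 N, (r2 n - singular2 n * n) ^ 2 ≤ C * (N : ℝ) ^ (3 - δ)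

/-- [BG-S] the binary singular series as a series, with a bound for the tail. -/
def Singular2Stmt : Prop := (∀ n : ℕ, 1 ≤ n → HasSum
    (fun q : ℕ => ((moebius q : ℤ) : ℂ) ^ 2 / (Nat.totient q : ℂ) ^ 2 * ram q n)
      (singular2 n : ℂ)) ∧
  ∃ C : ℝ, ∀ n Q : ℕ, 1 ≤ n → 1 ≤ Q →
    ‖(singular2 n : ℂ) - ∑ q ∈ Icc 1 Q,
      ((moebius q : ℤ) : ℂ) ^ 2 / (Nat.totient q : ℂ) ^ 2 * ram q n‖ ≤
      C * (n.divisors.card : ℝ) / Real.sqrt Q

/-- [BG-FWD] the forward direction. -/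
def Forward2Stmt : Prop := UniformQuasiRH → ∃ δ : ℝ, 0 < δ ∧ BinaryMean δ

/-- [BG-CONV] the converse direction, with explicit exponents. -/
def Converse2Stmt : Prop := ∀ δ : ℝ, 0 < δ → δ ≤ 1 / 2 → BinaryMean δ →
  ∀ (q : ℕ) [NeZero q] (χ : DirichletCharacter ℂ q) (s : ℂ),
    0 < s.re → s.re < 1 → χ.LFunction s = 0 →
      s.re ≤ 1 - δ / 4 ∧ (Squarefree q → s.re ≤ 1 - δ / 2)

end Vale.Agent.P026.TP
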