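import Vale.Agent.P026.TP.Base

/-! [M2] the exponential sum over primes at a rational point, from primes in progressions. -/

open Finset Real ArithmeticFunction

namespace Vale.Agent.P026.TP

/-- periodicity -/
theorem e_mod {q : ℕ} (hq : 1 ≤ q) (n : ℕ) (a : ℤ) :
    e ((n : ℝ) * a / q) = e (((n % q : ℕ) : ℝ) * a / q) := by
  have hq0 : (q : ℝ) ≠ 0 := by positivity
  obtain ⟨m, hm⟩ : ∃ m : ℕ, n = n % q + q * m := ⟨n / q, (Nat.mod_add_div n q).symm⟩
  have h : ((n : ℝ) * a / q) = (((n % q : ℕ) : ℝ) * a / q) + (((m : ℤ) * a : ℤ) : ℝ) := by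
    have h1 : (n : ℝ) = ((n % q : ℕ) : ℝ) + (q : ℝ) * (m : ℝ) := by exact_mod_cast hm
    rw [h1]
    push_cast
    field_simp
  rw [h, e_add_int]

/-- the complete sum -/
theorem sum_e_complete {q : ℕ} (hq : 1 ≤ q) {a : ℤ} (ha : ¬ ((q : ℤ) ∣ a)) :
    ∑ r ∈ range q, e ((r : ℝ) * a / q) = 0 := by
  have hq0 : (q : ℝ) ≠ 0 := by positivity
  set z : ℂ := e ((a : ℝ) / q) with hz
  have h1 : ∀ r : ℕ, e ((r : ℝ) * a / q) = z ^ r := by
    intro r
    induction r with
    | zero => simp [e_zero]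
    | succ r ih =>
      rw [pow_succ, ← ih, hz, ← e_add]
      congr 1
      push_cast
      ring
  have h2 : z ^ q = 1 := by
    rw [← h1 q, mul_comm, mul_div_assoc, div_self hq0, mul_one, e_int]
  have h3 : z ≠ 1 := by
    intro h
    rw [hz] at h
    unfold e at h
    rw [Complex.exp_eq_one_iff] at h
    obtain ⟨k, hk⟩ := h
    apply ha
    refine ⟨k, ?_⟩
    have hpi : (2 * (Real.pi : ℂ) * Complex.I) ≠ 0 := by
      simp [Complex.I_ne_zero, Real.pi_ne_zero]
    have h4 : (((a : ℝ) / q : ℝ) : ℂ) = (k : ℂ) := by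
      apply mul_right_cancel₀ hpi
      rw [← hk]
      ring
    have h5 : ((a : ℝ) / q : ℝ) = (k : ℝ) := by exact_mod_cast h4
    have h6 : (a : ℝ) = q * k := by
      field_simp at h5
      linarith
    exact_mod_cast h6
  simp_rw [h1]
  rw [geom_sum_eq h3, h2, sub_self, zero_div]

/-- sum over residues coprime to `q`, grouped by gcd -/
theorem sum_divisors_ram {q : ℕ} (hq : 1 ≤ q) (a : ℤ) :
    ∑ d ∈ q.divisors, ∑ r ∈ (range d).filter (fun r => Nat.Coprime r d), e ((r : ℝ) * a / d) =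
      ∑ r ∈ range q, e ((r : ℝ) * a / q) := by
  have hq0 : q ≠ 0 := by omega
  rw [← Finset.sum_fiberwise_of_maps_to (s := range q) (t := q.divisors)
    (g := fun r => q / Nat.gcd r q)]
  · refine Finset.sum_congr rfl fun d hd => ?_
    obtain ⟨hd1, -⟩ := Nat.mem_divisors.1 hd
    have hd0 : 0 < d := Nat.pos_of_dvd_of_pos hd1 (by omega)
    obtain ⟨k, hk⟩ := hd1
    have hk0 : 0 < k := by
      rcases Nat.eq_zero_or_pos k with h | h
      · subst h; omega
      · exact h
    symm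
    refine Finset.sum_bij' (fun r _ => r / k) (fun r _ => r * k) ?_ ?_ ?_ ?_ ?_
    · intro r hr
      rw [mem_filter, mem_range] at hr ⊢
      obtain ⟨hr1, hr2⟩ := hr
      have hg : Nat.gcd r q = k := by
        have h1 : Nat.gcd r q ∣ q := Nat.gcd_dvd_right _ _
        have h2 : q = Nat.gcd r q * d := by
          rw [← hr2]; exact (Nat.mul_div_cancel' h1).symm
        have h3 : Nat.gcd r q * d = k * d := by rw [← h2, hk]; ring
        exact Nat.eq_of_mul_eq_mul_right hd0 h3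
      have hkr : k ∣ r := hg ▸ Nat.gcd_dvd_left r q
      obtain ⟨m, hm⟩ := hkr
      rw [hm, Nat.mul_div_cancel_left m hk0]
      constructor
      · rw [hm, hk] at hr1
        have : k * m < k * d := by linarith [mul_comm k d]
        exact lt_of_mul_lt_mul_left this (Nat.zero_le _)
      · rw [hm, hk, mul_comm d k, Nat.gcd_mul_left] at hg
        have : k * Nat.gcd m d = k * 1 := by rw [hg, mul_one]
        exact Nat.eq_of_mul_eq_mul_left hk0 this
    · intro r hr
      rw [mem_filter, mem_range] at hr ⊢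
      obtain ⟨hr1, hr2⟩ := hr
      refine ⟨?_, ?_⟩
      · rw [hk]; exact Nat.mul_lt_mul_of_pos_right hr1 hk0
      · rw [hk, Nat.gcd_mul_right, hr2, one_mul, Nat.mul_div_cancel _ hk0]
    · intro r hr
      rw [mem_filter, mem_range] at hr
      obtain ⟨hr1, hr2⟩ := hr
      have hg : Nat.gcd r q = k := by
        have h1 : Nat.gcd r q ∣ q := Nat.gcd_dvd_right _ _
        have h2 : q = Nat.gcd r q * d := by
          rw [← hr2]; exact (Nat.mul_div_cancel' h1).symm
        have h3 : Nat.gcd r q * d = k * d := by rw [← h2, hk]; ring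
        exact Nat.eq_of_mul_eq_mul_right hd0 h3
      have hkr : k ∣ r := hg ▸ Nat.gcd_dvd_left r q
      exact Nat.div_mul_cancel hkr
    · intro r hr
      exact Nat.mul_div_cancel _ hk0
    · intro r hr
      rw [mem_filter, mem_range] at hr
      obtain ⟨hr1, hr2⟩ := hr
      have hg : Nat.gcd r q = k := by
        have h1 : Nat.gcd r q ∣ q := Nat.gcd_dvd_right _ _
        have h2 : q = Nat.gcd r q * d := by
          rw [← hr2]; exact (Nat.mul_div_cancel' h1).symm
        have h3 : Nat.gcd r q * d = k * d := by rw [← h2, hk]; ring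
        exact Nat.eq_of_mul_eq_mul_right hd0 h3
      have hkr : k ∣ r := hg ▸ Nat.gcd_dvd_left r q
      obtain ⟨m, hm⟩ := hkr
      rw [hm, Nat.mul_div_cancel_left m hk0, hk]
      congr 1
      have hk0' : (k : ℝ) ≠ 0 := by positivity
      have hd0' : (d : ℝ) ≠ 0 := by positivity
      push_cast
      field_simp
  · intro r _
    exact Nat.mem_divisors.2 ⟨Nat.div_dvd_of_dvd (Nat.gcd_dvd_right _ _), hq0⟩

/-- Ramanujan's sum at a coprime argument is the Möbius function. -/
theorem ram_coprime : ∀ (q : ℕ), 1 ≤ q → ∀ (a : ℤ), IsCoprime a (q : ℤ) →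
    ∑ r ∈ (range q).filter (fun r => Nat.Coprime r q), e ((r : ℝ) * a / q) =
      ((moebius q : ℤ) : ℂ) := by
  intro q
  induction q using Nat.strong_induction_on with
  | _ q ih =>
    intro hq a ha
    rcases Nat.eq_or_lt_of_le hq with h1 | h1
    · subst h1
      simp [e_zero]
    have hq0 : q ≠ 0 := by omega
    have h2 := sum_divisors_ram hq a
    have h3 : ¬ ((q : ℤ) ∣ a) := by
      intro h
      have h4 : IsUnit (q : ℤ) := ha.isUnit_of_dvd' h (dvd_refl _)
      rw [Int.isUnit_iff] at h4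
      omega
    rw [sum_e_complete hq h3, ← Nat.insert_self_properDivisors hq0,
      sum_insert Nat.self_notMem_properDivisors] at h2
    have h5 : ∑ d ∈ q.properDivisors,
        ∑ r ∈ (range d).filter (fun r => Nat.Coprime r d), e ((r : ℝ) * a / d) =
        ∑ d ∈ q.properDivisors, ((moebius d : ℤ) : ℂ) := by
      refine sum_congr rfl fun d hd => ?_
      obtain ⟨hd1, hd2⟩ := Nat.mem_properDivisors.1 hd
      exact ih d hd2 (Nat.pos_of_dvd_of_pos hd1 (by omega)) a
        (ha.of_isCoprime_of_dvd_right (by exact_mod_cast hd1))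
    have h6 : ∑ d ∈ q.divisors, ((moebius d : ℤ) : ℂ) = 0 := by
      have h7 : ∑ d ∈ q.divisors, (moebius d : ℤ) = 0 := by
        have h8 := coe_mul_zeta_apply (f := moebius) (x := q)
        rw [moebius_mul_coe_zeta, one_apply_ne (by omega)] at h8
        exact h8.symm
      exact_mod_cast congrArg (Int.cast : ℤ → ℂ) h7
    rw [← Nat.insert_self_properDivisors hq0, sum_insert Nat.self_notMem_properDivisors] at h6
    rw [h5] at h2
    linear_combination h2 - h6

/-- splitting into residue classes -/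
theorem sum_split {q : ℕ} (hq : 1 ≤ q) (a : ℤ) (x : ℝ) :
    ∑ n ∈ Icc 1 ⌊x⌋₊, (vonMangoldt n : ℂ) * e ((n : ℝ) * a / q) =
      ∑ r ∈ range q, e ((r : ℝ) * a / q) * (psiAP x q r : ℂ) := by
  rw [← Finset.sum_fiberwise_of_maps_to (s := Icc 1 ⌊x⌋₊) (t := range q) (g := fun n => n % q)
    (fun n _ => mem_range.2 (Nat.mod_lt _ hq))]
  refine sum_congr rfl fun r hr => ?_
  have hr' := mem_range.1 hr
  unfold psiAP
  push_cast
  rw [mul_sum]
  have h1 : (Icc 1 ⌊x⌋₊).filter (fun n => n % q = r) =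
      (Icc 1 ⌊x⌋₊).filter (fun n => n ≡ r [MOD q]) := by
    refine filter_congr fun n _ => ?_
    unfold Nat.ModEq
    rw [Nat.mod_eq_of_lt hr']
  rw [h1]
  refine sum_congr rfl fun n hn => ?_
  have h2 : n % q = r := by
    have := (mem_filter.1 hn).2
    unfold Nat.ModEq at this
    rwa [Nat.mod_eq_of_lt hr'] at this
  rw [e_mod hq n a, h2, mul_comm]

theorem psiAP_nonneg (x : ℝ) (q r : ℕ) : 0 ≤ psiAP x q r :=
  sum_nonneg fun _ _ => vonMangoldt_nonneg

theorem sum_psiAP {q : ℕ} (hq : 1 ≤ q) (x : ℝ) :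
    ∑ r ∈ range q, psiAP x q r = psiAP x 1 0 := by
  unfold psiAP
  have h0 : (Icc 1 ⌊x⌋₊).filter (fun n => n ≡ 0 [MOD 1]) = Icc 1 ⌊x⌋₊ :=
    filter_true_of_mem fun n _ => Nat.modEq_one
  rw [h0, ← Finset.sum_fiberwise_of_maps_to (s := Icc 1 ⌊x⌋₊) (t := range q)
    (g := fun n => n % q) (fun n _ => mem_range.2 (Nat.mod_lt _ hq))]
  refine sum_congr rfl fun r hr => ?_
  have hr' := mem_range.1 hr
  refine sum_congr (filter_congr fun n _ => ?_) fun _ _ => rfl
  unfold Nat.ModEq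
  rw [Nat.mod_eq_of_lt hr']

theorem card_cop (q : ℕ) : ((range q).filter (fun r => Nat.Coprime r q)).card = Nat.totient q := by
  rw [Nat.totient_eq_card_coprime]
  congr 1
  exact filter_congr fun n _ => Nat.coprime_comm

theorem ratStmt_of (hP : PsiAPStmt) : RatStmt := by
  intro σ₀ hσ hz
  obtain ⟨η, A, C, hη, hη1, hA, hC, h⟩ := hP σ₀ hσ hz
  refine ⟨η, A + 1, 3 * C, hη, hη1, by linarith, by linarith, ?_⟩
  intro q a x hq ha hx
  have hx0 : 0 < x := by linarith
  have hqr : (1 : ℝ) ≤ q := by exact_mod_cast hq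
  have hφ : 0 < Nat.totient q := Nat.totient_pos.2 hq
  have hφr : (0 : ℝ) < Nat.totient q := by exact_mod_cast hφ
  set cop := (range q).filter (fun r => Nat.Coprime r q) with hcop
  set ncop := (range q).filter (fun r => ¬ Nat.Coprime r q) with hncop
  set E : ℝ := C * (q : ℝ) ^ A * x ^ (1 - η) with hE
  have hEr : ∀ r ∈ cop, |psiAP x q r - x / (Nat.totient q : ℝ)| ≤ E := fun r hr =>
    h q r x hq (mem_filter.1 hr).2 hx
  have hφq : (Nat.totient q : ℝ) ≤ q := by exact_mod_cast Nat.totient_le q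
  have hsum : ∑ r ∈ cop, |psiAP x q r - x / (Nat.totient q : ℝ)| ≤ Nat.totient q * E := by
    refine (sum_le_card_nsmul _ _ _ hEr).trans ?_
    rw [hcop, card_cop, nsmul_eq_mul]
  have h1 : |psiAP x 1 0 - x| ≤ C * x ^ (1 - η) := by
    have := h 1 0 x le_rfl (by norm_num) hx
    simpa using this
  have hsplit : ∑ r ∈ cop, psiAP x q r + ∑ r ∈ ncop, psiAP x q r = psiAP x 1 0 := by
    rw [← sum_psiAP hq x]
    exact sum_filter_add_sum_filter_not _ _ _
  have hmain : ∑ r ∈ cop, x / (Nat.totient q : ℝ) = x := by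
    rw [sum_const, hcop, card_cop, nsmul_eq_mul]
    field_simp
  have hn : ∑ r ∈ ncop, psiAP x q r ≤ C * x ^ (1 - η) + Nat.totient q * E := by
    have h2 : ∑ r ∈ ncop, psiAP x q r =
        (psiAP x 1 0 - x) - ∑ r ∈ cop, (psiAP x q r - x / (Nat.totient q : ℝ)) := by
      rw [sum_sub_distrib, hmain]
      linarith
    rw [h2]
    have h3 := (abs_le.1 h1).2
    have h4 : -∑ r ∈ cop, (psiAP x q r - x / (Nat.totient q : ℝ)) ≤
        ∑ r ∈ cop, |psiAP x q r - x / (Nat.totient q : ℝ)| := by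
      rw [← sum_neg_distrib]
      exact sum_le_sum fun r _ => neg_le_abs _
    linarith
  have hdec : ∑ n ∈ Icc 1 ⌊x⌋₊, (vonMangoldt n : ℂ) * e ((n : ℝ) * a / q) -
      ((moebius q : ℤ) : ℂ) / (Nat.totient q : ℂ) * x =
      ∑ r ∈ cop, e ((r : ℝ) * a / q) * ((psiAP x q r - x / (Nat.totient q : ℝ) : ℝ) : ℂ) +
      ∑ r ∈ ncop, e ((r : ℝ) * a / q) * (psiAP x q r : ℂ) := by
    rw [sum_split hq a x, ← sum_filter_add_sum_filter_not (range q) (fun r => Nat.Coprime r q),
      ← ram_coprime q hq a ha]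
    have h5 : ∀ r : ℕ, e ((r : ℝ) * a / q) * ((psiAP x q r - x / (Nat.totient q : ℝ) : ℝ) : ℂ) =
        e ((r : ℝ) * a / q) * (psiAP x q r : ℂ) - e ((r : ℝ) * a / q) *
          (x / (Nat.totient q : ℂ)) := by
      intro r; push_cast; ring
    simp_rw [h5]
    rw [sum_sub_distrib, ← sum_mul]
    ring
  rw [hdec]
  have hbd1 : ‖∑ r ∈ cop, e ((r : ℝ) * a / q) * ((psiAP x q r - x / (Nat.totient q : ℝ) : ℝ) : ℂ)‖
      ≤ Nat.totient q * E := by
    refine (norm_sum_le _ _).trans (le_trans (sum_le_sum fun r _ => ?_) hsum)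
    rw [norm_mul, norm_e, one_mul, Complex.norm_real, Real.norm_eq_abs]
  have hbd2 : ‖∑ r ∈ ncop, e ((r : ℝ) * a / q) * (psiAP x q r : ℂ)‖ ≤
      C * x ^ (1 - η) + Nat.totient q * E := by
    refine (norm_sum_le _ _).trans (le_trans (sum_le_sum fun r _ => ?_) hn)
    rw [norm_mul, norm_e, one_mul, Complex.norm_real, Real.norm_eq_abs,
      abs_of_nonneg (psiAP_nonneg _ _ _)]
  refine (norm_add_le _ _).trans (le_trans (add_le_add hbd1 hbd2) ?_)
  have hq1 : (1 : ℝ) ≤ (q : ℝ) ^ (A + 1) := Real.one_le_rpow hqr (by linarith)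
  have hqA : (q : ℝ) ^ (A + 1) = (q : ℝ) ^ A * q := by
    rw [Real.rpow_add (by linarith), Real.rpow_one]
  have hxp : 0 < x ^ (1 - η) := Real.rpow_pos_of_pos hx0 _
  have h6 : Nat.totient q * E ≤ C * (q : ℝ) ^ (A + 1) * x ^ (1 - η) := by
    rw [hE, hqA]
    have : (0 : ℝ) ≤ C * (q : ℝ) ^ A * x ^ (1 - η) := by positivity
    nlinarith
  have h7 : C * x ^ (1 - η) ≤ C * (q : ℝ) ^ (A + 1) * x ^ (1 - η) := by
    have : C * x ^ (1 - η) * 1 ≤ C * x ^ (1 - η) * (q : ℝ) ^ (A + 1) :=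
      mul_le_mul_of_nonneg_left hq1 (by positivity)
    linarith
  linarith

end Vale.Agent.P026.TP
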