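import Mathlib
import Vale.Agent.P026.TP.Defs
import Vale.Agent.P026.TP.M2

/-! [M4] uniform Fourier approximation of `Λ` by its truncated Ramanujan expansion. -/

open Finset Real ArithmeticFunction

namespace Vale.Agent.P026.TP

theorem norm_e_sub_one_pi (x : ℝ) : ‖e x - 1‖ = 2 * |Real.sin (π * x)| := by
  unfold e
  rw [show (2 * (Real.pi : ℂ) * (x : ℂ) * Complex.I) = Complex.I * ((2 * Real.pi * x : ℝ) : ℂ) by
    push_cast; ring, Complex.norm_exp_I_mul_ofReal_sub_one, norm_mul, Real.norm_eq_abs,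
    Real.norm_eq_abs, abs_of_pos (by norm_num : (0 : ℝ) < 2)]
  congr 3
  ring

theorem norm_e_sub_one_pi_le (x : ℝ) : ‖e x - 1‖ ≤ 2 * π * |x| := by
  unfold e
  rw [show (2 * (Real.pi : ℂ) * (x : ℂ) * Complex.I) = Complex.I * ((2 * Real.pi * x : ℝ) : ℂ) by
    push_cast; ring]
  refine norm_exp_I_mul_ofReal_sub_one_le.trans ?_
  rw [Real.norm_eq_abs, abs_mul, abs_of_pos (by positivity : (0 : ℝ) < 2 * π)]

theorem four_mul_le_norm {x : ℝ} (hx : |x| ≤ 1 / 2) : 4 * |x| ≤ ‖e x - 1‖ := by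
  rw [norm_e_sub_one_pi]
  have h1 : |Real.sin (π * x)| = Real.sin (π * |x|) := by
    rcases le_total 0 x with h | h
    · rw [abs_of_nonneg h, abs_of_nonneg]
      rw [abs_of_nonneg h] at hx
      exact Real.sin_nonneg_of_nonneg_of_le_pi (by positivity) (by nlinarith [Real.pi_pos])
    · rw [abs_of_nonpos h]
      rw [abs_of_nonpos h] at hx
      have h2 : Real.sin (π * x) ≤ 0 := by
        have := Real.sin_nonneg_of_nonneg_of_le_pi (x := π * (-x)) (by nlinarith [Real.pi_pos])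
          (by nlinarith [Real.pi_pos])
        rw [mul_neg, Real.sin_neg] at this
        linarith
      rw [abs_of_nonpos h2, mul_neg, Real.sin_neg]
  rw [h1]
  have h2 := Real.mul_le_sin (x := π * |x|) (by positivity) (by nlinarith [Real.pi_pos])
  have h3 : 2 / π * (π * |x|) = 2 * |x| := by
    have := Real.pi_ne_zero
    field_simp
  linarith

/-- The exponential sum over an interval. -/
noncomputable def DD (N : ℕ) (θ : ℝ) : ℂ := ∑ n ∈ Icc 1 N, e ((n : ℝ) * θ)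

theorem DD_add_int (N : ℕ) (θ : ℝ) (k : ℤ) : DD N (θ + k) = DD N θ := by
  unfold DD
  refine sum_congr rfl fun n _ => ?_
  rw [mul_add, show (n : ℝ) * (k : ℝ) = (((n : ℤ) * k : ℤ) : ℝ) by push_cast; ring, e_add_int]

theorem DD_bound (N : ℕ) {θ d : ℝ} (hd : 0 < d) (h : ∀ k : ℤ, d ≤ |θ - k|) :
    ‖DD N θ‖ ≤ 1 / (2 * d) := by
  set t : ℝ := θ - round θ with ht
  have h1 : DD N θ = DD N t := by
    rw [← DD_add_int N t (round θ)]
    congr 1
    rw [ht]; ring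
  have h2 : |t| ≤ 1 / 2 := abs_sub_round θ
  have h3 : d ≤ |t| := h _
  have h4 : 4 * d ≤ ‖e t - 1‖ := by linarith [four_mul_le_norm h2]
  have h5 : e t ≠ 1 := by
    intro h6
    rw [h6, sub_self, norm_zero] at h4
    linarith
  have h6 : DD N t = e t * ((e t ^ N - 1) / (e t - 1)) := by
    rw [← geom_sum_eq h5 N]
    have h7 : ∀ M : ℕ, DD M t = e t * ∑ i ∈ range M, e t ^ i := by
      intro M
      induction M with
      | zero => simp [DD]
      | succ M ih =>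
        rw [sum_range_succ, mul_add, ← ih]
        unfold DD
        rw [Finset.sum_Icc_succ_top (by omega), e_nat_mul, pow_succ]
        ring
    exact h7 N
  rw [h1, h6, norm_mul, norm_e, one_mul, norm_div]
  have h7 : ‖e t ^ N - 1‖ ≤ 2 := by
    refine (norm_sub_le _ _).trans ?_
    rw [norm_pow, norm_e, one_pow, norm_one]
    norm_num
  calc ‖e t ^ N - 1‖ / ‖e t - 1‖ ≤ 2 / (4 * d) :=
        div_le_div₀ (by norm_num) h7 (by positivity) h4
    _ = 1 / (2 * d) := by field_simp; norm_num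

theorem DD_le (N : ℕ) (θ : ℝ) : ‖DD N θ‖ ≤ N := by
  unfold DD
  refine (norm_sum_le _ _).trans ?_
  simp [norm_e]

/-- separation of distinct rationals -/
theorem far_of {α X : ℝ} {a a' : ℤ} {q q' : ℕ} (hq : 1 ≤ q) (hq' : 1 ≤ q')
    (hα : |α - a / q| ≤ 1 / (X * q)) (hqX : 2 * (q' : ℝ) ≤ X)
    (hne : ∀ k : ℤ, a * (q' : ℤ) + a' * (q : ℤ) - k * (q * q') ≠ 0) (k : ℤ) :
    1 / (2 * ((q : ℝ) * q')) ≤ |α + a' / q' - k| := by
  have hqr : (0 : ℝ) < q := by exact_mod_cast hq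
  have hqr' : (0 : ℝ) < q' := by exact_mod_cast hq'
  have h1 : 1 / ((q : ℝ) * q') ≤ |(a : ℝ) / q + a' / q' - k| := by
    have h2 : (a : ℝ) / q + a' / q' - k =
        ((a * (q' : ℤ) + a' * (q : ℤ) - k * (q * q') : ℤ) : ℝ) / ((q : ℝ) * q') := by
      push_cast
      field_simp
    rw [h2, abs_div, abs_of_pos (by positivity : (0 : ℝ) < (q : ℝ) * q')]
    apply div_le_div_of_nonneg_right _ (by positivity)
    have h3 := Int.one_le_abs (hne k)
    exact_mod_cast h3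
  have h4 : 1 / (X * q) ≤ 1 / (2 * ((q : ℝ) * q')) := by
    apply one_div_le_one_div_of_le (by positivity)
    nlinarith
  have h5 : (α + a' / q' - k) = (a / q + a' / q' - k) + (α - a / q) := by ring
  have h6 : |(a : ℝ) / q + a' / q' - k| ≤ |α + a' / q' - k| + |α - a / q| := by
    have h7 : (a : ℝ) / q + a' / q' - k = (α + a' / q' - k) - (α - a / q) := by ring
    rw [h7]
    exact abs_sub _ _
  have h8 : 1 / ((q : ℝ) * q') = 1 / (2 * ((q : ℝ) * q')) + 1 / (2 * ((q : ℝ) * q')) := by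
    field_simp
    norm_num
  linarith

theorem DD_far {N : ℕ} {α X : ℝ} {a a' : ℤ} {q q' : ℕ} (hq : 1 ≤ q) (hq' : 1 ≤ q')
    (hα : |α - a / q| ≤ 1 / (X * q)) (hqX : 2 * (q' : ℝ) ≤ X)
    (hne : ∀ k : ℤ, a * (q' : ℤ) + a' * (q : ℤ) - k * (q * q') ≠ 0) :
    ‖DD N (α + a' / q')‖ ≤ (q : ℝ) * q' := by
  have hqr : (0 : ℝ) < q := by exact_mod_cast hq
  have hqr' : (0 : ℝ) < q' := by exact_mod_cast hq'
  refine (DD_bound N (d := 1 / (2 * ((q : ℝ) * q'))) (by positivity)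
    (far_of hq hq' hα hqX hne)).trans (le_of_eq ?_)
  field_simp

theorem ne_of_ne {a a' : ℤ} {q q' : ℕ} (ha : IsCoprime a (q : ℤ)) (ha' : IsCoprime a' (q' : ℤ))
    (hne : q ≠ q') (k : ℤ) : a * (q' : ℤ) + a' * (q : ℤ) - k * (q * q') ≠ 0 := by
  intro h
  apply hne
  have h1 : (q : ℤ) ∣ a * (q' : ℤ) := ⟨k * q' - a', by linarith⟩
  have h2 : (q' : ℤ) ∣ a' * (q : ℤ) := ⟨k * q - a, by linarith⟩
  have h3 : (q : ℤ) ∣ (q' : ℤ) := ha.symm.dvd_of_dvd_mul_left h1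
  have h4 : (q' : ℤ) ∣ (q : ℤ) := ha'.symm.dvd_of_dvd_mul_left h2
  exact Nat.dvd_antisymm (by exact_mod_cast h3) (by exact_mod_cast h4)

/-- the exponential sum of the model -/
theorem model_expand (N Q : ℕ) (α : ℝ) :
    ∑ n ∈ Icc 1 N, lamQ Q n * e ((n : ℝ) * α) =
      ∑ q ∈ Icc 1 Q, ((moebius q : ℤ) : ℂ) / (Nat.totient q : ℂ) *
        ∑ r ∈ (range q).filter (fun r => Nat.Coprime r q), DD N (α + ((r : ℤ) : ℝ) / q) := by
  unfold lamQ ram DD
  simp_rw [sum_mul]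
  rw [sum_comm]
  refine sum_congr rfl fun q _ => ?_
  simp_rw [mul_sum, sum_mul]
  rw [sum_comm]
  refine sum_congr rfl fun r _ => ?_
  refine sum_congr rfl fun n _ => ?_
  rw [mul_assoc, ← e_add]
  congr 2
  push_cast
  ring

theorem moebius_le (q : ℕ) : ‖((moebius q : ℤ) : ℂ)‖ ≤ 1 := by
  rw [Complex.norm_intCast]
  exact_mod_cast abs_moebius_le_one

theorem cop_int {r q : ℕ} (h : Nat.Coprime r q) : IsCoprime (r : ℤ) (q : ℤ) :=
  Nat.isCoprime_iff_coprime.2 h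

/-- the terms of the model with a denominator different from that of `α` -/
theorem term_far {N : ℕ} {α X : ℝ} {a : ℤ} {q q' : ℕ} (hq : 1 ≤ q) (hq' : 1 ≤ q')
    (ha : IsCoprime a (q : ℤ))
    (hα : |α - a / q| ≤ 1 / (X * q)) (hqX : 2 * (q' : ℝ) ≤ X) (hne : q ≠ q') :
    ‖((moebius q' : ℤ) : ℂ) / (Nat.totient q' : ℂ) *
      ∑ r ∈ (range q').filter (fun r => Nat.Coprime r q'), DD N (α + ((r : ℤ) : ℝ) / q')‖ ≤
      (q : ℝ) * q' := by
  have hφ : (0 : ℝ) < Nat.totient q' := by exact_mod_cast Nat.totient_pos.2 hq'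
  rw [norm_mul, norm_div, Complex.norm_natCast]
  have h1 : ‖∑ r ∈ (range q').filter (fun r => Nat.Coprime r q'),
      DD N (α + ((r : ℤ) : ℝ) / q')‖ ≤ Nat.totient q' * ((q : ℝ) * q') := by
    refine (norm_sum_le _ _).trans ((sum_le_card_nsmul _ _ ((q : ℝ) * q') fun r hr => ?_).trans ?_)
    · exact DD_far hq hq' hα hqX (ne_of_ne ha (cop_int (mem_filter.1 hr).2) hne)
    · rw [card_cop, nsmul_eq_mul]
  calc ‖((moebius q' : ℤ) : ℂ)‖ / (Nat.totient q' : ℝ) * _ ≤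
      1 / (Nat.totient q' : ℝ) * (Nat.totient q' * ((q : ℝ) * q')) := by
        apply mul_le_mul _ h1 (norm_nonneg _) (by positivity)
        exact div_le_div_of_nonneg_right (moebius_le _) hφ.le
    _ = (q : ℝ) * q' := by field_simp

/-- the term of the model with the denominator of `α` -/
theorem term_near {N : ℕ} {α X : ℝ} {a : ℤ} {q : ℕ} (hq : 1 ≤ q)
    (ha : IsCoprime a (q : ℤ))
    (hα : |α - a / q| ≤ 1 / (X * q)) (hqX : 2 * (q : ℝ) ≤ X) :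
    ‖((moebius q : ℤ) : ℂ) / (Nat.totient q : ℂ) *
      ∑ r ∈ (range q).filter (fun r => Nat.Coprime r q), DD N (α + ((r : ℤ) : ℝ) / q) -
      ((moebius q : ℤ) : ℂ) / (Nat.totient q : ℂ) * DD N (α - a / q)‖ ≤ (q : ℝ) * q := by
  have hφ : (0 : ℝ) < Nat.totient q := by exact_mod_cast Nat.totient_pos.2 hq
  have hq0 : (q : ℤ) ≠ 0 := by omega
  have hqr : (0 : ℝ) < q := by exact_mod_cast hq
  set r0 : ℕ := ((-a) % (q : ℤ)).toNat with hr0
  have hr0' : (r0 : ℤ) = (-a) % (q : ℤ) := Int.toNat_of_nonneg (Int.emod_nonneg _ hq0)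
  have hr0lt : r0 < q := by
    have := Int.emod_lt_of_pos (-a) (by omega : (0 : ℤ) < q)
    omega
  obtain ⟨k0, hk0⟩ : ∃ k : ℤ, (r0 : ℤ) = -a + k * q := by
    refine ⟨-((-a) / (q : ℤ)), ?_⟩
    rw [hr0']
    have := Int.emod_add_mul_ediv (-a) (q : ℤ)
    linarith
  have hr0c : Nat.Coprime r0 q := by
    rw [← Nat.isCoprime_iff_coprime, hk0]
    exact (IsCoprime.add_mul_right_left_iff (z := k0)).2 ha.neg_left
  have hmem : r0 ∈ (range q).filter (fun r => Nat.Coprime r q) :=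
    mem_filter.2 ⟨mem_range.2 hr0lt, hr0c⟩
  rw [← mul_sub, ← add_sum_erase _ _ hmem]
  have h0 : DD N (α + ((r0 : ℤ) : ℝ) / q) = DD N (α - a / q) := by
    rw [← DD_add_int N (α - a / q) k0]
    congr 1
    rw [hk0]
    push_cast
    field_simp
    ring
  rw [h0, add_sub_cancel_left, norm_mul, norm_div, Complex.norm_natCast]
  have h1 : ‖∑ r ∈ ((range q).filter (fun r => Nat.Coprime r q)).erase r0,
      DD N (α + ((r : ℤ) : ℝ) / q)‖ ≤ Nat.totient q * ((q : ℝ) * q) := by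
    refine (norm_sum_le _ _).trans ((sum_le_card_nsmul _ _ ((q : ℝ) * q) fun r hr => ?_).trans ?_)
    · obtain ⟨hr1, hr2⟩ := mem_erase.1 hr
      refine DD_far hq hq hα hqX fun k h => hr1 ?_
      have h2 : a + r - k * q = 0 := by
        have : (a + r - k * q) * (q : ℤ) = 0 := by linarith
        exact (mul_eq_zero.1 this).resolve_right hq0
      have h3 : (r : ℤ) - r0 = (k - k0) * q := by rw [hk0]; linarith
      have h4 := mem_range.1 (mem_filter.1 hr2).1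
      have h5 : (q : ℤ) ∣ (r : ℤ) - r0 := ⟨k - k0, by rw [h3]; ring⟩
      have h6 := Int.eq_zero_of_abs_lt_dvd h5 (by rw [abs_lt]; constructor <;> omega)
      omega
    · rw [nsmul_eq_mul]
      apply mul_le_mul_of_nonneg_right _ (by positivity)
      have := card_erase_le (s := (range q).filter (fun r => Nat.Coprime r q)) (a := r0)
      rw [card_cop] at this
      exact_mod_cast this
  calc ‖((moebius q : ℤ) : ℂ)‖ / (Nat.totient q : ℝ) * _ ≤
      1 / (Nat.totient q : ℝ) * (Nat.totient q * ((q : ℝ) * q)) := by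
        apply mul_le_mul _ h1 (norm_nonneg _) (by positivity)
        exact div_le_div_of_nonneg_right (moebius_le _) hφ.le
    _ = (q : ℝ) * q := by field_simp

/-- the model on the minor arcs -/
theorem model_minor {N Q : ℕ} {α X : ℝ} {a : ℤ} {q : ℕ} (hq : 1 ≤ q)
    (ha : IsCoprime a (q : ℤ))
    (hα : |α - a / q| ≤ 1 / (X * q)) (hqX : 2 * (Q : ℝ) ≤ X) (hQq : Q < q) :
    ‖∑ n ∈ Icc 1 N, lamQ Q n * e ((n : ℝ) * α)‖ ≤ (q : ℝ) * Q ^ 2 := by
  rw [model_expand]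
  refine (norm_sum_le _ _).trans ((sum_le_card_nsmul _ _ ((q : ℝ) * Q) fun q' hq' => ?_).trans ?_)
  · obtain ⟨h1, h2⟩ := mem_Icc.1 hq'
    have h2r : (q' : ℝ) ≤ Q := by exact_mod_cast h2
    refine (term_far hq h1 ha hα (by linarith) (by omega)).trans ?_
    exact mul_le_mul_of_nonneg_left h2r (by positivity)
  · rw [Nat.card_Icc, nsmul_eq_mul, Nat.add_sub_cancel]
    apply le_of_eq
    ring

/-- the model on the major arcs -/
theorem model_major {N Q : ℕ} {α X : ℝ} {a : ℤ} {q : ℕ} (hq : 1 ≤ q)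
    (ha : IsCoprime a (q : ℤ))
    (hα : |α - a / q| ≤ 1 / (X * q)) (hqX : 2 * (Q : ℝ) ≤ X) (hQq : q ≤ Q) :
    ‖∑ n ∈ Icc 1 N, lamQ Q n * e ((n : ℝ) * α) -
      ((moebius q : ℤ) : ℂ) / (Nat.totient q : ℂ) * DD N (α - a / q)‖ ≤ (q : ℝ) * Q ^ 2 := by
  rw [model_expand]
  have hmem : q ∈ Icc 1 Q := mem_Icc.2 ⟨hq, hQq⟩
  have hQr : (q : ℝ) ≤ Q := by exact_mod_cast hQq
  rw [← add_sum_erase _ _ hmem, add_sub_right_comm]
  refine (norm_add_le _ _).trans ?_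
  have h1 := term_near (N := N) hq ha hα (by linarith)
  have h2 : ‖∑ q' ∈ (Icc 1 Q).erase q, ((moebius q' : ℤ) : ℂ) / (Nat.totient q' : ℂ) *
        ∑ r ∈ (range q').filter (fun r => Nat.Coprime r q'), DD N (α + ((r : ℤ) : ℝ) / q')‖ ≤
      ((Q : ℝ) - 1) * ((q : ℝ) * Q) := by
    refine (norm_sum_le _ _).trans
      ((sum_le_card_nsmul _ _ ((q : ℝ) * Q) fun q' hq' => ?_).trans ?_)
    · obtain ⟨h3, h4⟩ := mem_erase.1 hq'
      obtain ⟨h5, h6⟩ := mem_Icc.1 h4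
      have h2r : (q' : ℝ) ≤ Q := by exact_mod_cast h6
      refine (term_far hq h5 ha hα (by linarith) (fun h => h3 h.symm)).trans ?_
      exact mul_le_mul_of_nonneg_left h2r (by positivity)
    · rw [card_erase_of_mem hmem, Nat.card_Icc, nsmul_eq_mul, Nat.add_sub_cancel,
        Nat.cast_sub (by omega)]
      simp
  have h3 : (q : ℝ) * q ≤ (q : ℝ) * Q := mul_le_mul_of_nonneg_left hQr (by positivity)
  nlinarith

/-- summation by parts -/
theorem by_parts (g : ℕ → ℂ) (β : ℝ) (N : ℕ) :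
    ‖∑ n ∈ Icc 1 N, g n * e ((n : ℝ) * β) - (∑ n ∈ Icc 1 N, g n) * e ((N : ℝ) * β)‖ ≤
      (∑ m ∈ range N, ‖∑ n ∈ Icc 1 m, g n‖) * ‖e β - 1‖ := by
  induction N with
  | zero => simp
  | succ N ih =>
    rw [sum_Icc_succ_top (by omega), sum_Icc_succ_top (by omega), sum_range_succ]
    set S := ∑ n ∈ Icc 1 N, g n * e ((n : ℝ) * β)
    set R := ∑ n ∈ Icc 1 N, g n
    have h1 : e (((N + 1 : ℕ) : ℝ) * β) = e ((N : ℝ) * β) * e β := by
      rw [← e_add]; congr 1; push_cast; ring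
    have h2 : S + g (N + 1) * e (((N + 1 : ℕ) : ℝ) * β) -
        (R + g (N + 1)) * e (((N + 1 : ℕ) : ℝ) * β) =
        (S - R * e ((N : ℝ) * β)) + -(R * e ((N : ℝ) * β) * (e β - 1)) := by
      rw [h1]; ring
    rw [h2, add_mul _ _ ‖e β - 1‖]
    refine (norm_add_le _ _).trans (add_le_add ih ?_)
    rw [norm_neg, norm_mul, norm_mul, norm_e, mul_one]

/-- the primes on the major arcs -/
theorem prime_major {N : ℕ} (hN : 1 ≤ N) {α E : ℝ} {a : ℤ} {q : ℕ} (hE : 0 ≤ E)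
    (h : ∀ m : ℕ, 1 ≤ m → m ≤ N → ‖∑ n ∈ Icc 1 m, (vonMangoldt n : ℂ) * e ((n : ℝ) * a / q) -
      ((moebius q : ℤ) : ℂ) / (Nat.totient q : ℂ) * (m : ℝ)‖ ≤ E) :
    ‖∑ n ∈ Icc 1 N, (vonMangoldt n : ℂ) * e ((n : ℝ) * α) -
      ((moebius q : ℤ) : ℂ) / (Nat.totient q : ℂ) * DD N (α - a / q)‖ ≤
      E * (1 + 2 * π * (N * |α - a / q|)) := by
  set M : ℂ := ((moebius q : ℤ) : ℂ) / (Nat.totient q : ℂ) with hM
  set β := α - a / q with hβ
  set g : ℕ → ℂ := fun n => (vonMangoldt n : ℂ) * e ((n : ℝ) * a / q) - M with hg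
  have h1 : ∀ m : ℕ, ∑ n ∈ Icc 1 m, g n =
      ∑ n ∈ Icc 1 m, (vonMangoldt n : ℂ) * e ((n : ℝ) * a / q) - M * (m : ℝ) := by
    intro m
    rw [hg, sum_sub_distrib, sum_const, Nat.card_Icc, nsmul_eq_mul, Nat.add_sub_cancel]
    push_cast
    ring
  have h2 : ∀ m : ℕ, m ≤ N → ‖∑ n ∈ Icc 1 m, g n‖ ≤ E := by
    intro m hm
    rcases Nat.eq_zero_or_pos m with h0 | h0
    · subst h0; simpa using hE
    · rw [h1]; exact h m h0 hm
  have h3 : ∑ n ∈ Icc 1 N, (vonMangoldt n : ℂ) * e ((n : ℝ) * α) - M * DD N β =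
      ∑ n ∈ Icc 1 N, g n * e ((n : ℝ) * β) := by
    unfold DD
    rw [mul_sum, ← sum_sub_distrib]
    refine sum_congr rfl fun n _ => ?_
    rw [hg]
    have : e ((n : ℝ) * α) = e ((n : ℝ) * a / q) * e ((n : ℝ) * β) := by
      rw [← e_add]; congr 1; rw [hβ]; ring
    rw [this]
    ring
  rw [h3]
  have h4 := by_parts g β N
  have h5 : (∑ m ∈ range N, ‖∑ n ∈ Icc 1 m, g n‖) ≤ N * E := by
    refine (sum_le_card_nsmul _ _ E fun m hm => h2 m (mem_range.1 hm).le).trans ?_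
    rw [card_range, nsmul_eq_mul]
  have h6 : (∑ m ∈ range N, ‖∑ n ∈ Icc 1 m, g n‖) * ‖e β - 1‖ ≤ (N * E) * (2 * π * |β|) :=
    mul_le_mul h5 (norm_e_sub_one_pi_le β) (norm_nonneg _) (by positivity)
  have h7 : ‖(∑ n ∈ Icc 1 N, g n) * e ((N : ℝ) * β)‖ ≤ E := by
    rw [norm_mul, norm_e, mul_one]
    exact h2 N le_rfl
  have h8 := norm_sub_norm_le (∑ n ∈ Icc 1 N, g n * e ((n : ℝ) * β))
    ((∑ n ∈ Icc 1 N, g n) * e ((N : ℝ) * β))
  have h9 : E * (1 + 2 * π * (N * |β|)) = E + (N * E) * (2 * π * |β|) := by ring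
  rw [h9]
  linarith

/-- the size of the error on the major arcs -/
theorem major_error {N q Q : ℕ} {A C η c δ α : ℝ} {a : ℤ} (hq : 1 ≤ q) (hNr : (1 : ℝ) ≤ N)
    (hA : 0 < A) (hC : 0 < C) (hc0 : 0 < c) (hcA : c * (A + 4) ≤ η / 2) (hδ2 : δ ≤ η / 2)
    (hQle : (Q : ℝ) ≤ (N : ℝ) ^ c) (hQq : q ≤ Q)
    (hα : |α - a / q| ≤ 1 / ((N : ℝ) ^ (1 - 4 * c) * q)) :
    C * (q : ℝ) ^ A * (N : ℝ) ^ (1 - η) * (1 + 2 * π * (N * |α - a / q|)) ≤
      8 * C * (N : ℝ) ^ (1 - δ) := by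
  have hN0 : (0 : ℝ) < N := by linarith
  have hqr : (1 : ℝ) ≤ q := by exact_mod_cast hq
  set X : ℝ := (N : ℝ) ^ (1 - 4 * c) with hX
  have hX0 : 0 < X := Real.rpow_pos_of_pos hN0 _
  have h3 : N * |α - a / q| ≤ (N : ℝ) ^ (4 * c) := by
    have h4 : |α - a / q| ≤ 1 / X := by
      refine hα.trans (one_div_le_one_div_of_le hX0 ?_)
      nlinarith
    have h5 : (N : ℝ) * (1 / X) = (N : ℝ) ^ (4 * c) := by
      rw [hX, one_div, ← Real.rpow_neg hN0.le]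
      nth_rewrite 1 [← Real.rpow_one (N : ℝ)]
      rw [← Real.rpow_add hN0]
      congr 1
      ring
    rw [← h5]
    exact mul_le_mul_of_nonneg_left h4 hN0.le
  have h4 : 1 ≤ (N : ℝ) ^ (4 * c) := Real.one_le_rpow hNr (by linarith)
  have h5 : 1 + 2 * π * (N * |α - a / q|) ≤ 8 * (N : ℝ) ^ (4 * c) := by
    have h6 : 2 * π * (N * |α - a / q|) ≤ 2 * π * (N : ℝ) ^ (4 * c) :=
      mul_le_mul_of_nonneg_left h3 (by positivity)
    have h7 : 2 * π ≤ 7 := by linarith [Real.pi_lt_d2]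
    have h8 : 2 * π * (N : ℝ) ^ (4 * c) ≤ 7 * (N : ℝ) ^ (4 * c) :=
      mul_le_mul_of_nonneg_right h7 (by linarith)
    linarith
  have hE0 : 0 ≤ C * (q : ℝ) ^ A * (N : ℝ) ^ (1 - η) := by positivity
  have h7 := mul_le_mul_of_nonneg_left h5 hE0
  have h8 : (q : ℝ) ^ A ≤ (N : ℝ) ^ (c * A) := by
    have h9 : (q : ℝ) ≤ (N : ℝ) ^ c := (Nat.cast_le.2 hQq).trans hQle
    have := Real.rpow_le_rpow (by positivity) h9 hA.le
    rwa [← Real.rpow_mul hN0.le] at this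
  have h9 : C * (q : ℝ) ^ A * (N : ℝ) ^ (1 - η) * (8 * (N : ℝ) ^ (4 * c)) ≤
      8 * C * ((N : ℝ) ^ (c * A) * (N : ℝ) ^ (1 - η) * (N : ℝ) ^ (4 * c)) := by
    have h10 : (q : ℝ) ^ A * (N : ℝ) ^ (1 - η) * (N : ℝ) ^ (4 * c) ≤
        (N : ℝ) ^ (c * A) * (N : ℝ) ^ (1 - η) * (N : ℝ) ^ (4 * c) :=
      mul_le_mul_of_nonneg_right (mul_le_mul_of_nonneg_right h8 (by positivity))
        (by positivity)
    have h11 := mul_le_mul_of_nonneg_left h10 (by positivity : 0 ≤ 8 * C)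
    linarith
  rw [← Real.rpow_add hN0, ← Real.rpow_add hN0] at h9
  have h10 : (N : ℝ) ^ (c * A + (1 - η) + 4 * c) ≤ (N : ℝ) ^ (1 - δ) :=
    Real.rpow_le_rpow_of_exponent_le hNr (by nlinarith)
  have h11 := mul_le_mul_of_nonneg_left h10 (by positivity : 0 ≤ 8 * C)
  linarith

theorem supStmt_of (hR : RatStmt) (hM : MinorStmt) : SupStmt := by
  intro σ₀ hσ hz
  obtain ⟨η, A, C, hη, hη1, hA, hC, hrat⟩ := hR σ₀ hσ hz
  set c : ℝ := min (1 / 20) (η / (2 * (A + 4))) with hc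
  have hc0 : 0 < c := lt_min (by norm_num) (by positivity)
  have hc20 : c ≤ 1 / 20 := min_le_left _ _
  have hcA : c * (A + 4) ≤ η / 2 := by
    have h1 : c ≤ η / (2 * (A + 4)) := min_le_right _ _
    have h2 : c * (A + 4) ≤ η / (2 * (A + 4)) * (A + 4) :=
      mul_le_mul_of_nonneg_right h1 (by linarith)
    have h3 : η / (2 * (A + 4)) * (A + 4) = η / 2 := by
      have : A + 4 ≠ 0 := by linarith
      field_simp
    linarith
  obtain ⟨δm, Cm, hδm, hCm, hmin⟩ := hM c hc0 (by linarith)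
  set δ : ℝ := min (min δm (η / 2)) (2 * c) with hδ
  have hδ0 : 0 < δ := lt_min (lt_min hδm (by linarith)) (by linarith)
  have hδ1 : δ ≤ δm := (min_le_left _ _).trans (min_le_left _ _)
  have hδ2 : δ ≤ η / 2 := (min_le_left _ _).trans (min_le_right _ _)
  have hδ3 : δ ≤ 2 * c := min_le_right _ _
  set C0 : ℝ := ∑ N ∈ range 4, ∑ n ∈ Icc 1 N, ‖(vonMangoldt n : ℂ) - lamQ ⌊(N : ℝ) ^ c⌋₊ n‖
    with hC0
  have hC00 : 0 ≤ C0 := sum_nonneg fun _ _ => sum_nonneg fun _ _ => norm_nonneg _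
  refine ⟨c, δ, C0 + Cm + 8 * C + 2, hc0, by linarith, hδ0, by linarith, ?_⟩
  intro N α hN
  have hNr : (1 : ℝ) ≤ N := by exact_mod_cast hN
  have hN0 : (0 : ℝ) < N := by linarith
  have hNd : 1 ≤ (N : ℝ) ^ (1 - δ) := Real.one_le_rpow hNr (by linarith)
  rcases Nat.lt_or_ge N 4 with h4 | h4
  · -- small N
    have h1 : ‖∑ n ∈ Icc 1 N, ((vonMangoldt n : ℂ) - lamQ ⌊(N : ℝ) ^ c⌋₊ n) * e ((n : ℝ) * α)‖ ≤
        C0 := by
      refine (norm_sum_le _ _).trans ?_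
      have h2 : ∑ n ∈ Icc 1 N, ‖((vonMangoldt n : ℂ) - lamQ ⌊(N : ℝ) ^ c⌋₊ n) *
          e ((n : ℝ) * α)‖ = ∑ n ∈ Icc 1 N, ‖(vonMangoldt n : ℂ) - lamQ ⌊(N : ℝ) ^ c⌋₊ n‖ :=
        sum_congr rfl fun n _ => by rw [norm_mul, norm_e, mul_one]
      rw [h2]
      exact single_le_sum (f := fun N : ℕ => ∑ n ∈ Icc 1 N,
        ‖(vonMangoldt n : ℂ) - lamQ ⌊(N : ℝ) ^ c⌋₊ n‖)
        (fun _ _ => sum_nonneg fun _ _ => norm_nonneg _) (mem_range.2 h4)
    refine h1.trans ?_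
    have h2 : C0 * 1 ≤ C0 * (N : ℝ) ^ (1 - δ) := mul_le_mul_of_nonneg_left hNd hC00
    have h3 : 0 ≤ (Cm + 8 * C + 2) * (N : ℝ) ^ (1 - δ) := by positivity
    linarith
  -- large N
  have h4r : (4 : ℝ) ≤ N := by exact_mod_cast h4
  set X : ℝ := (N : ℝ) ^ (1 - 4 * c) with hX
  have hX1 : 1 ≤ X := Real.one_le_rpow hNr (by linarith)
  have hX0 : 0 < X := by linarith
  set Q : ℕ := ⌊(N : ℝ) ^ c⌋₊ with hQ
  have hQle : (Q : ℝ) ≤ (N : ℝ) ^ c := Nat.floor_le (by positivity)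
  have hQX : 2 * (Q : ℝ) ≤ X := by
    have h1 : (2 : ℝ) ≤ (N : ℝ) ^ (1 - 5 * c) := by
      have h2 : (4 : ℝ) ^ (1 / 2 : ℝ) = 2 := by
        rw [show (4 : ℝ) = 2 ^ (2 : ℝ) by norm_num, ← Real.rpow_mul (by norm_num)]
        norm_num
      rw [← h2]
      exact (Real.rpow_le_rpow (by norm_num) h4r (by norm_num)).trans
        (Real.rpow_le_rpow_of_exponent_le hNr (by linarith))
    have h2 : X = (N : ℝ) ^ (1 - 5 * c) * (N : ℝ) ^ c := by
      rw [hX, ← Real.rpow_add hN0]; congr 1; ring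
    rw [h2]
    exact mul_le_mul h1 hQle (by positivity) (by positivity)
  -- Dirichlet approximation
  have hfX : 0 < ⌊X⌋₊ := Nat.floor_pos.2 hX1
  obtain ⟨r, hr1, hr2⟩ := Real.exists_rat_abs_sub_le_and_den_le α hfX
  set q : ℕ := r.den with hqd
  set a : ℤ := r.num with had
  have hq : 1 ≤ q := r.den_pos
  have hqr : (1 : ℝ) ≤ q := by exact_mod_cast hq
  have hcop : IsCoprime a (q : ℤ) := by
    rw [Int.isCoprime_iff_gcd_eq_one]
    exact r.reduced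
  have hrq : (r : ℝ) = (a : ℝ) / q := by
    rw [had, hqd]; exact_mod_cast (Rat.num_div_den r).symm
  have hqX : (q : ℝ) ≤ X := (Nat.cast_le.2 hr2).trans (Nat.floor_le hX0.le)
  have hfl : X < (⌊X⌋₊ : ℝ) + 1 := Nat.lt_floor_add_one X
  have hα : |α - a / q| ≤ 1 / (X * q) := by
    rw [← hrq]
    refine hr1.trans ?_
    apply one_div_le_one_div_of_le (by positivity)
    exact mul_le_mul_of_nonneg_right hfl.le (by linarith)
  have hα2 : |α - a / q| ≤ 1 / (q : ℝ) ^ 2 := by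
    refine hα.trans (one_div_le_one_div_of_le (by positivity) ?_)
    rw [sq]
    exact mul_le_mul_of_nonneg_right hqX (by linarith)
  have hsplit : ∑ n ∈ Icc 1 N, ((vonMangoldt n : ℂ) - lamQ Q n) * e ((n : ℝ) * α) =
      ∑ n ∈ Icc 1 N, (vonMangoldt n : ℂ) * e ((n : ℝ) * α) -
      ∑ n ∈ Icc 1 N, lamQ Q n * e ((n : ℝ) * α) := by
    rw [← sum_sub_distrib]
    exact sum_congr rfl fun n _ => by ring
  rw [hsplit]
  have hmono : ∀ t : ℝ, δ ≤ t → (N : ℝ) ^ (1 - t) ≤ (N : ℝ) ^ (1 - δ) := fun t ht =>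
    Real.rpow_le_rpow_of_exponent_le hNr (by linarith)
  have hQ2 : (Q : ℝ) ^ 2 ≤ (N : ℝ) ^ (2 * c) := by
    have : (Q : ℝ) ^ 2 ≤ ((N : ℝ) ^ c) ^ 2 := pow_le_pow_left₀ (by positivity) hQle 2
    rwa [← Real.rpow_natCast ((N : ℝ) ^ c) 2, ← Real.rpow_mul hN0.le,
      show c * ((2 : ℕ) : ℝ) = 2 * c by push_cast; ring] at this
  have hmod : (q : ℝ) * Q ^ 2 ≤ (N : ℝ) ^ (1 - δ) := by
    have h1 : (q : ℝ) * Q ^ 2 ≤ (N : ℝ) ^ (1 - 4 * c) * (N : ℝ) ^ (2 * c) :=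
      mul_le_mul hqX hQ2 (by positivity) (by positivity)
    rw [← Real.rpow_add hN0, show 1 - 4 * c + 2 * c = 1 - 2 * c by ring] at h1
    exact h1.trans (hmono _ hδ3)
  have hCC : (0 : ℝ) ≤ C0 * (N : ℝ) ^ (1 - δ) := by positivity
  have hCC2 : (0 : ℝ) ≤ Cm * (N : ℝ) ^ (1 - δ) := by positivity
  have hCC3 : (0 : ℝ) ≤ C * (N : ℝ) ^ (1 - δ) := by positivity
  rcases Nat.lt_or_ge Q q with hQq | hQq
  · -- minor arcs
    have h1 : (N : ℝ) ^ c ≤ q := by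
      have h2 : (N : ℝ) ^ c < (Q : ℝ) + 1 := Nat.lt_floor_add_one _
      have h3 : (Q : ℝ) + 1 ≤ q := by exact_mod_cast hQq
      linarith
    have h2 : (q : ℝ) ≤ (N : ℝ) ^ (1 - c) :=
      hqX.trans (Real.rpow_le_rpow_of_exponent_le hNr (by linarith))
    have h3 := hmin N q a α hN hq hcop hα2 h1 h2
    have h4 := model_minor (N := N) hq hcop hα hQX hQq
    have h5 : Cm * (N : ℝ) ^ (1 - δm) ≤ Cm * (N : ℝ) ^ (1 - δ) :=
      mul_le_mul_of_nonneg_left (hmono _ hδ1) hCm.le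
    refine (norm_sub_le _ _).trans ?_
    nlinarith
  · -- major arcs
    have h1 := model_major (N := N) hq hcop hα hQX hQq
    set E : ℝ := C * (q : ℝ) ^ A * (N : ℝ) ^ (1 - η) with hE
    have hE0 : 0 ≤ E := by positivity
    have h20 : ∀ m : ℕ, 1 ≤ m → m ≤ N →
        ‖∑ n ∈ Icc 1 m, (vonMangoldt n : ℂ) * e ((n : ℝ) * a / q) -
          ((moebius q : ℤ) : ℂ) / (Nat.totient q : ℂ) * (m : ℝ)‖ ≤ E := by
      intro m hm hmN
      have h3 := hrat q a (m : ℝ) hq hcop (by exact_mod_cast hm)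
      rw [Nat.floor_natCast] at h3
      have h4 : (m : ℝ) ^ (1 - η) ≤ (N : ℝ) ^ (1 - η) :=
        Real.rpow_le_rpow (by positivity) (by exact_mod_cast hmN) (by linarith)
      exact h3.trans (mul_le_mul_of_nonneg_left h4 (by positivity))
    have h2 := prime_major (α := α) (E := E) (a := a) (q := q) hN hE0 h20
    have h6 : E * (1 + 2 * π * (N * |α - a / q|)) ≤ 8 * C * (N : ℝ) ^ (1 - δ) :=
      major_error hq hNr hA hC hc0 hcA hδ2 hQle hQq hα
    have h7 : ∑ n ∈ Icc 1 N, (vonMangoldt n : ℂ) * e ((n : ℝ) * α) -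
        ∑ n ∈ Icc 1 N, lamQ Q n * e ((n : ℝ) * α) =
        (∑ n ∈ Icc 1 N, (vonMangoldt n : ℂ) * e ((n : ℝ) * α) -
          ((moebius q : ℤ) : ℂ) / (Nat.totient q : ℂ) * DD N (α - a / q)) -
        (∑ n ∈ Icc 1 N, lamQ Q n * e ((n : ℝ) * α) -
          ((moebius q : ℤ) : ℂ) / (Nat.totient q : ℂ) * DD N (α - a / q)) := by ring
    rw [h7]
    refine (norm_sub_le _ _).trans ?_
    have h8 : (0 : ℝ) ≤ (N : ℝ) ^ (1 - δ) := by positivity
    linarith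

end Vale.Agent.P026.TP
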