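import Vale.Agent.P026.TP.M1
import Vale.Agent.P026.TP.M4

/-! [M2] and [M4] assembled with [M1]. -/

namespace Vale.Agent.P026.TP

theorem ratStmt : RatStmt := ratStmt_of psiAPStmt

theorem supStmt (hM : MinorStmt) : SupStmt := supStmt_of ratStmt hM

end Vale.Agent.P026.TP
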