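import Vale.Agent.P026.TP.Defs

/-!
# P026 three primes, module M3: minor arcs with a power saving (Vaughan's identity)
-/

open Finset ArithmeticFunction
open scoped ArithmeticFunction.Moebius ArithmeticFunction.zeta

namespace Vale.Agent.P026.TP.M3

/-- distance to the nearest integer -/
noncomputable def dst (x : ℝ) : ℝ := |x - round x|

theorem dst_nonneg (x : ℝ) : 0 ≤ dst x := abs_nonneg _

theorem dst_le_abs_sub (x : ℝ) (m : ℤ) : dst x ≤ |x - m| := round_le x m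

theorem e_add (x y : ℝ) : e (x + y) = e x * e y := by
  unfold e
  rw [← Complex.exp_add]
  congr 1
  push_cast
  ring

theorem e_int (m : ℤ) : e m = 1 := by
  unfold e
  rw [Complex.exp_eq_one_iff]
  exact ⟨m, by push_cast; ring⟩

theorem norm_e (x : ℝ) : ‖e x‖ = 1 := by
  unfold e
  rw [show (2 * Real.pi * x * Complex.I : ℂ) = ((2 * Real.pi * x : ℝ) : ℂ) * Complex.I by
    push_cast; ring]
  exact Complex.norm_exp_ofReal_mul_I _

theorem e_nat_mul (n : ℕ) (x : ℝ) : e (n * x) = e x ^ n := by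
  unfold e
  rw [← Complex.exp_nat_mul]
  congr 1
  push_cast
  ring

theorem four_dst_le (x : ℝ) : 4 * dst x ≤ ‖e x - 1‖ := by
  have h1 : e x = Complex.exp (Complex.I * ((2 * Real.pi * (x - round x) : ℝ) : ℂ)) := by
    have h2 : e x = e (x - round x) := by
      have h3 : x = (x - round x) + ((round x : ℤ) : ℝ) := by ring
      conv_lhs => rw [h3]
      rw [e_add, e_int, mul_one]
    rw [h2]
    unfold e
    congr 1
    push_cast
    ring
  rw [h1, Complex.norm_exp_I_mul_ofReal_sub_one, Real.norm_eq_abs, abs_mul, abs_two]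
  have h4 : |x - round x| ≤ 1 / 2 := abs_sub_round x
  have h5 : 2 * Real.pi * (x - round x) / 2 = Real.pi * (x - round x) := by ring
  rw [h5]
  have h6 : |Real.sin (Real.pi * (x - round x))| = Real.sin (Real.pi * |x - round x|) := by
    rcases le_total 0 (x - round x) with h | h
    · rw [abs_of_nonneg h, abs_of_nonneg]
      apply Real.sin_nonneg_of_nonneg_of_le_pi (by positivity)
      rw [abs_of_nonneg h] at h4
      nlinarith [Real.pi_pos]
    · rw [abs_of_nonpos h] at h4 ⊢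
      rw [mul_neg, Real.sin_neg, abs_of_nonpos]
      have h7 := Real.sin_nonneg_of_nonneg_of_le_pi (x := Real.pi * -(x - round x))
        (by nlinarith [Real.pi_pos]) (by nlinarith [Real.pi_pos])
      rw [mul_neg, Real.sin_neg] at h7
      linarith
  rw [h6]
  have h8 := Real.mul_le_sin (x := Real.pi * |x - round x|)
    (by positivity) (by nlinarith [Real.pi_pos])
  have h9 : 2 / Real.pi * (Real.pi * |x - round x|) = 2 * |x - round x| := by
    field_simp
  rw [h9] at h8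
  unfold dst
  linarith

/-! ### geometric sums with monotone weights -/

theorem geom_bound (z : ℂ) (hz : ‖z‖ = 1) (n : ℕ) : ‖∑ k ∈ range n, z ^ k‖ * ‖z - 1‖ ≤ 2 := by
  rw [← norm_mul, geom_sum_mul]
  calc ‖z ^ n - 1‖ ≤ ‖z ^ n‖ + ‖(1 : ℂ)‖ := norm_sub_le _ _
    _ = 2 := by rw [norm_pow, hz]; norm_num

theorem abel_bound (f : ℕ → ℝ) (hf0 : ∀ k, 0 ≤ f k) (hf : Monotone f) (z : ℂ) (hz : ‖z‖ = 1)
    (n : ℕ) : ‖∑ k ∈ range (n + 1), (f k : ℂ) * z ^ k‖ * ‖z - 1‖ ≤ 4 * f n := by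
  have h1 := Finset.sum_range_by_parts (R := ℂ) (M := ℂ) (fun k => (f k : ℂ)) (fun k => z ^ k)
    (n + 1)
  simp only [smul_eq_mul, Nat.add_sub_cancel] at h1
  rw [h1, ← norm_mul, sub_mul]
  refine (norm_sub_le _ _).trans ?_
  have h2 : ‖(f n : ℂ) * (∑ k ∈ range (n + 1), z ^ k) * (z - 1)‖ ≤ 2 * f n := by
    rw [mul_assoc, norm_mul, norm_mul, Complex.norm_real, Real.norm_eq_abs, abs_of_nonneg (hf0 n)]
    nlinarith [geom_bound z hz (n + 1), hf0 n]
  have h3 : ‖(∑ i ∈ range n, ((f (i + 1) : ℂ) - f i) * ∑ i ∈ range (i + 1), z ^ i) * (z - 1)‖ ≤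
      2 * (f n - f 0) := by
    rw [Finset.sum_mul]
    refine (norm_sum_le _ _).trans ?_
    have h4 : ∀ i ∈ range n, ‖((f (i + 1) : ℂ) - f i) * (∑ i ∈ range (i + 1), z ^ i) * (z - 1)‖ ≤
        2 * (f (i + 1) - f i) := by
      intro i _
      have h5 : 0 ≤ f (i + 1) - f i := sub_nonneg.2 (hf (Nat.le_succ i))
      rw [mul_assoc, norm_mul, norm_mul, ← Complex.ofReal_sub, Complex.norm_real,
        Real.norm_eq_abs, abs_of_nonneg h5]
      nlinarith [geom_bound z hz (i + 1)]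
    refine (Finset.sum_le_sum h4).trans ?_
    rw [← Finset.mul_sum, Finset.sum_range_sub]
  linarith [hf0 0]

/-- weighted geometric sums, in terms of the distance to the nearest integer -/
theorem abel_dst (f : ℕ → ℝ) (hf0 : ∀ k, 0 ≤ f k) (hf : Monotone f) (x : ℝ) (n : ℕ) :
    ‖∑ k ∈ range (n + 1), (f k : ℂ) * e (k * x)‖ * dst x ≤ f n := by
  have h1 := abel_bound f hf0 hf (e x) (norm_e x) n
  simp only [← e_nat_mul] at h1
  have h2 := four_dst_le x
  nlinarith [norm_nonneg (∑ k ∈ range (n + 1), (f k : ℂ) * e (k * x)), hf0 n]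

/-! ### spacing -/

theorem dst_lower {q : ℕ} (hq : 1 ≤ q) {a : ℤ} (ha : IsCoprime a (q : ℤ)) {α : ℝ}
    (hα : |α - a / q| ≤ 1 / (q : ℝ) ^ 2) {h : ℤ} (h0 : h ≠ 0) (h1 : 2 * |h| ≤ q) :
    1 / (2 * (q : ℝ)) ≤ |h * α - round (h * α)| := by
  set m := round (h * α)
  have hq' : (0 : ℝ) < q := by exact_mod_cast hq
  have h2 : ¬ (q : ℤ) ∣ h * a := by
    intro h3
    have h4 : (q : ℤ) ∣ h := ha.symm.dvd_of_dvd_mul_right h3
    have h5 := Int.le_of_dvd (abs_pos.2 h0) ((dvd_abs _ _).2 h4)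
    omega
  have h6 : h * a - m * q ≠ 0 := by
    intro h7
    exact h2 ⟨m, by linarith⟩
  have h7 : (1 : ℝ) ≤ |(h : ℝ) * a - m * q| := by
    have : (1 : ℤ) ≤ |h * a - m * q| := Int.one_le_abs h6
    exact_mod_cast this
  have h8 : (h : ℝ) * α - m = ((h : ℝ) * a - m * q) / q + h * (α - a / q) := by
    field_simp
    ring
  have h9 : |(h : ℝ) * (α - a / q)| ≤ 1 / (2 * q) := by
    rw [abs_mul]
    have h10 : |(h : ℝ)| ≤ q / 2 := by
      have : (2 * |(h : ℝ)|) ≤ q := by exact_mod_cast h1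
      linarith
    calc |(h : ℝ)| * |α - a / q| ≤ (q / 2) * (1 / (q : ℝ) ^ 2) := by
          apply mul_le_mul h10 hα (abs_nonneg _) (by positivity)
      _ = 1 / (2 * q) := by field_simp
  have h11 : 1 / (q : ℝ) ≤ |((h : ℝ) * a - m * q) / q| := by
    rw [abs_div, abs_of_pos hq']
    gcongr
  have h12 : |((h : ℝ) * a - m * q) / q| ≤ |(h : ℝ) * α - m| + |(h : ℝ) * (α - a / q)| := by
    have : ((h : ℝ) * a - m * q) / q = ((h : ℝ) * α - m) - h * (α - a / q) := by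
      rw [h8]; ring
    rw [this]
    exact abs_sub _ _
  have h13 : 1 / (q : ℝ) = 1 / (2 * q) + 1 / (2 * q) := by field_simp; norm_num
  linarith

/-! ### sums over blocks -/

theorem sum_inv_le (n : ℕ) : ∑ i ∈ Icc 1 n, (1 : ℝ) / i ≤ 1 + Real.log n := by
  have h1 := harmonic_le_one_add_log n
  rw [harmonic_eq_sum_Icc] at h1
  push_cast at h1
  simpa [one_div] using h1

theorem sum_inj_le {A : Finset ℕ} {q : ℕ} {c : ℝ} (hc : 0 ≤ c) (t : ℕ → ℕ)
    (ht : ∀ h ∈ A, t h ∈ Icc 1 q) (hinj : Set.InjOn t A) (w : ℕ → ℝ)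
    (hw : ∀ h ∈ A, w h ≤ c * (1 / (t h : ℝ))) :
    ∑ h ∈ A, w h ≤ c * (1 + Real.log q) := by
  calc ∑ h ∈ A, w h ≤ ∑ h ∈ A, c * (1 / (t h : ℝ)) := Finset.sum_le_sum hw
    _ = ∑ i ∈ A.image t, c * (1 / (i : ℝ)) := by
        rw [Finset.sum_image]
        intro x hx y hy hxy
        exact hinj hx hy hxy
    _ ≤ ∑ i ∈ Icc 1 q, c * (1 / (i : ℝ)) := by
        apply Finset.sum_le_sum_of_subset_of_nonneg
        · intro i hi
          obtain ⟨h, hh, rfl⟩ := Finset.mem_image.1 hi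
          exact ht h hh
        · intro i _ _
          positivity
    _ ≤ c * (1 + Real.log q) := by
        rw [← Finset.mul_sum]
        exact mul_le_mul_of_nonneg_left (sum_inv_le q) hc

theorem block {q : ℕ} (hq : 1 ≤ q) {a : ℤ} (ha : IsCoprime a (q : ℤ)) {α : ℝ}
    (hα : |α - a / q| ≤ 1 / (q : ℝ) ^ 2) {M : ℝ} (w : ℕ → ℝ)
    (hw0 : ∀ h, 0 ≤ w h) (hwM : ∀ h, w h ≤ M)
    (hw : ∀ h : ℕ, w h * dst (h * α) ≤ 1) (s : ℕ) :
    ∑ i ∈ range (q / 2 + 1), w (s + i) ≤ 2 * M + 4 * q * (1 + Real.log q) := by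
  have hq' : (0 : ℝ) < q := by exact_mod_cast hq
  set x : ℕ → ℝ := fun i => ((s + i : ℕ) : ℝ) * α - round (((s + i : ℕ) : ℝ) * α) with hx
  set j : ℕ → ℤ := fun i => ⌊2 * (q : ℝ) * x i⌋ with hj
  have hxle : ∀ i, |x i| ≤ 1 / 2 := fun i => abs_sub_round _
  have hinj : Set.InjOn j (range (q / 2 + 1)) := by
    intro i hi i' hi' hii
    by_contra hne
    simp only [coe_range, Set.mem_Iio] at hi hi'
    have h1 : |2 * (q : ℝ) * x i - 2 * (q : ℝ) * x i'| < 1 := Int.abs_sub_lt_one_of_floor_eq_floor hii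
    have h2 : (((i : ℤ) - i' : ℤ)) ≠ 0 := by omega
    have h3 : 2 * |((i : ℤ) - i' : ℤ)| ≤ q := by
      rcases abs_cases ((i : ℤ) - i') with ⟨h, _⟩ | ⟨h, _⟩ <;> rw [h] <;> omega
    have h4 := dst_lower hq ha hα h2 h3
    have h5 : |(((i : ℤ) - i' : ℤ) : ℝ) * α - round ((((i : ℤ) - i' : ℤ) : ℝ) * α)| ≤
        |x i - x i'| := by
      have h6 := dst_le_abs_sub ((((i : ℤ) - i' : ℤ) : ℝ) * α)
        (round (((s + i : ℕ) : ℝ) * α) - round (((s + i' : ℕ) : ℝ) * α))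
      unfold dst at h6
      refine h6.trans (le_of_eq ?_)
      congr 1
      simp only [hx]
      push_cast
      ring
    have h7 : |2 * (q : ℝ) * x i - 2 * (q : ℝ) * x i'| = 2 * q * |x i - x i'| := by
      rw [← mul_sub, abs_mul, abs_of_pos (by positivity)]
    rw [h7] at h1
    have h8 : 1 / (2 * (q : ℝ)) ≤ |x i - x i'| := h4.trans h5
    rw [div_le_iff₀ (by positivity)] at h8
    nlinarith
  have hjle : ∀ i, j i ≤ q := by
    intro i
    have h1 : (j i : ℝ) ≤ 2 * (q : ℝ) * x i := Int.floor_le _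
    have h2 : x i ≤ 1 / 2 := (abs_le.1 (hxle i)).2
    have h3 : (j i : ℝ) ≤ q := by nlinarith
    exact_mod_cast h3
  have hjge : ∀ i, -(q : ℤ) ≤ j i := by
    intro i
    have h2 : -(1 / 2) ≤ x i := (abs_le.1 (hxle i)).1
    apply Int.le_floor.2
    push_cast
    nlinarith
  have hwx : ∀ i, w (s + i) * |x i| ≤ 1 := fun i => hw (s + i)
  have hM : 0 ≤ M := (hw0 0).trans (hwM 0)
  set A := range (q / 2 + 1) with hA
  have hsplit : ∑ i ∈ A, w (s + i) = ∑ i ∈ A.filter (fun i => j i = 0 ∨ j i = -1), w (s + i) +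
      (∑ i ∈ A.filter (fun i => 1 ≤ j i), w (s + i) +
        ∑ i ∈ A.filter (fun i => j i ≤ -2), w (s + i)) := by
    rw [← Finset.sum_filter_add_sum_filter_not A (fun i => j i = 0 ∨ j i = -1)]
    congr 1
    rw [← Finset.sum_filter_add_sum_filter_not (A.filter _) (fun i => 1 ≤ j i),
      Finset.filter_filter, Finset.filter_filter]
    congr 1
    · apply Finset.sum_congr _ fun _ _ => rfl
      apply Finset.filter_congr
      intro i _
      constructor
      · rintro ⟨_, h⟩; exact h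
      · intro h; exact ⟨by omega, h⟩
    · apply Finset.sum_congr _ fun _ _ => rfl
      apply Finset.filter_congr
      intro i _
      constructor
      · rintro ⟨h, h'⟩; omega
      · intro h; exact ⟨by omega, by omega⟩
  have hP1 : ∑ i ∈ A.filter (fun i => j i = 0 ∨ j i = -1), w (s + i) ≤ 2 * M := by
    have hcard : (A.filter (fun i => j i = 0 ∨ j i = -1)).card ≤ 2 := by
      have h1 : (A.filter (fun i => j i = 0 ∨ j i = -1)).card =
          ((A.filter (fun i => j i = 0 ∨ j i = -1)).image j).card := by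
        rw [Finset.card_image_of_injOn]
        intro y hy z hz hyz
        have hy1 := Finset.mem_filter.1 (Finset.mem_coe.1 hy)
        have hz1 := Finset.mem_filter.1 (Finset.mem_coe.1 hz)
        exact hinj (Finset.mem_coe.2 hy1.1) (Finset.mem_coe.2 hz1.1) hyz
      rw [h1]
      refine (Finset.card_le_card (t := {0, -1}) ?_).trans Finset.card_le_two
      intro y hy
      obtain ⟨i, hi, rfl⟩ := Finset.mem_image.1 hy
      simpa using (Finset.mem_filter.1 hi).2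
    calc ∑ i ∈ A.filter (fun i => j i = 0 ∨ j i = -1), w (s + i)
        ≤ ∑ i ∈ A.filter (fun i => j i = 0 ∨ j i = -1), M := Finset.sum_le_sum fun i _ => hwM _
      _ = (A.filter (fun i => j i = 0 ∨ j i = -1)).card * M := by simp
      _ ≤ 2 * M := by
        apply mul_le_mul_of_nonneg_right _ hM
        exact_mod_cast hcard
  have hP2 : ∑ i ∈ A.filter (fun i => 1 ≤ j i), w (s + i) ≤ 2 * q * (1 + Real.log q) := by
    apply sum_inj_le (by positivity) (fun i => (j i).toNat) _ _ (fun i => w (s + i))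
    · intro i hi
      have h1 := (Finset.mem_filter.1 hi).2
      have h2 : (((j i).toNat : ℕ) : ℝ) = (j i : ℝ) := by
        have : (((j i).toNat : ℕ) : ℤ) = j i := Int.toNat_of_nonneg (by omega)
        exact_mod_cast this
      simp only [h2]
      have h3 : (0 : ℝ) < j i := by exact_mod_cast (by omega : 0 < j i)
      rw [mul_one_div, le_div_iff₀ h3]
      have h4 : (j i : ℝ) ≤ 2 * (q : ℝ) * x i := Int.floor_le _
      have h5 := hwx i
      have h6 : x i ≤ |x i| := le_abs_self _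
      nlinarith [hw0 (s + i), mul_nonneg (hw0 (s + i)) hq'.le]
    · intro i hi
      have h1 := (Finset.mem_filter.1 hi).2
      have h2 := hjle i
      rw [Finset.mem_Icc]
      constructor <;> omega
    · intro i hi i' hi' hii
      have h1 := (Finset.mem_filter.1 (Finset.mem_coe.1 hi))
      have h1' := (Finset.mem_filter.1 (Finset.mem_coe.1 hi'))
      simp only at hii
      exact hinj (by simpa using h1.1) (by simpa using h1'.1) (by omega)
  have hP3 : ∑ i ∈ A.filter (fun i => j i ≤ -2), w (s + i) ≤ 2 * q * (1 + Real.log q) := by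
    apply sum_inj_le (by positivity) (fun i => (-j i - 1).toNat) _ _ (fun i => w (s + i))
    · intro i hi
      have h1 := (Finset.mem_filter.1 hi).2
      have h2 : (((-j i - 1).toNat : ℕ) : ℝ) = -(j i : ℝ) - 1 := by
        have : (((-j i - 1).toNat : ℕ) : ℤ) = -j i - 1 := Int.toNat_of_nonneg (by omega)
        exact_mod_cast this
      simp only [h2]
      have h3 : (0 : ℝ) < -(j i : ℝ) - 1 := by
        have : (0 : ℤ) < -j i - 1 := by omega
        exact_mod_cast this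
      rw [mul_one_div, le_div_iff₀ h3]
      have h4 : 2 * (q : ℝ) * x i < j i + 1 := Int.lt_floor_add_one _
      have h5 := hwx i
      have h6 : -x i ≤ |x i| := neg_le_abs _
      nlinarith [hw0 (s + i), mul_nonneg (hw0 (s + i)) hq'.le]
    · intro i hi
      have h1 := (Finset.mem_filter.1 hi).2
      have h2 := hjge i
      rw [Finset.mem_Icc]
      constructor <;> omega
    · intro i hi i' hi' hii
      have h1 := (Finset.mem_filter.1 (Finset.mem_coe.1 hi))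
      have h1' := (Finset.mem_filter.1 (Finset.mem_coe.1 hi'))
      simp only at hii
      exact hinj (by simpa using h1.1) (by simpa using h1'.1) (by omega)
  rw [hsplit]
  linarith

theorem blocks {q : ℕ} (hq : 1 ≤ q) {a : ℤ} (ha : IsCoprime a (q : ℤ)) {α : ℝ}
    (hα : |α - a / q| ≤ 1 / (q : ℝ) ^ 2) {M : ℝ} (w : ℕ → ℝ)
    (hw0 : ∀ h, 0 ≤ w h) (hwM : ∀ h, w h ≤ M)
    (hw : ∀ h : ℕ, w h * dst (h * α) ≤ 1) (k : ℕ) :
    ∑ h ∈ range k, w h ≤ (2 * k / q + 1) * (2 * M + 4 * q * (1 + Real.log q)) := by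
  have hq' : (0 : ℝ) < q := by exact_mod_cast hq
  have hM : 0 ≤ M := (hw0 0).trans (hwM 0)
  set B := q / 2 + 1 with hB
  set E := 2 * M + 4 * q * (1 + Real.log q) with hE
  have hE0 : 0 ≤ E := by
    have : 0 ≤ Real.log q := Real.log_natCast_nonneg q
    positivity
  have h1 : ∀ n : ℕ, ∑ h ∈ range (n * B), w h ≤ n * E := by
    intro n
    induction n with
    | zero => simp
    | succ n ih =>
      rw [Nat.succ_mul, Finset.sum_range_add]
      have h2 := block hq ha hα w hw0 hwM hw (n * B)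
      push_cast
      linarith
  have h2 : range k ⊆ range ((k / B + 1) * B) := by
    apply Finset.range_subset_range.2
    have h3 := Nat.div_add_mod k B
    have h4 := Nat.mod_lt k (show 0 < B by omega)
    nlinarith
  have h3 : ((k / B + 1 : ℕ) : ℝ) ≤ 2 * k / q + 1 := by
    push_cast
    have h4 : ((k / B : ℕ) : ℝ) ≤ (k : ℝ) / B := Nat.cast_div_le
    have h5 : (q : ℝ) / 2 ≤ B := by
      have : q ≤ 2 * B := by omega
      have h6 : (q : ℝ) ≤ 2 * B := by exact_mod_cast this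
      linarith
    have h6 : (k : ℝ) / B ≤ k / (q / 2) := by
      apply div_le_div_of_nonneg_left (by positivity) (by positivity) h5
    have h7 : (k : ℝ) / (q / 2) = 2 * k / q := by field_simp
    linarith
  calc ∑ h ∈ range k, w h ≤ ∑ h ∈ range ((k / B + 1) * B), w h :=
        Finset.sum_le_sum_of_subset_of_nonneg h2 fun i _ _ => hw0 i
    _ ≤ ((k / B + 1 : ℕ) : ℝ) * E := h1 _
    _ ≤ _ := mul_le_mul_of_nonneg_right h3 hE0

/-! ### reindexing and the divisor function -/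

theorem reindex {M : Type*} [AddCommMonoid M] (N : ℕ) (G : ℕ → ℕ → M) :
    ∑ n ∈ Icc 1 N, ∑ x ∈ n.divisorsAntidiagonal, G x.1 x.2 =
      ∑ a ∈ Icc 1 N, ∑ b ∈ Icc 1 (N / a), G a b := by
  rw [Finset.sum_sigma', Finset.sum_sigma']
  refine Finset.sum_nbij' (i := fun p => ⟨p.2.1, p.2.2⟩) (j := fun p => ⟨p.1 * p.2, (p.1, p.2)⟩)
    ?_ ?_ ?_ ?_ ?_
  · rintro ⟨n, x⟩ h
    simp only [Finset.mem_sigma, Finset.mem_Icc, Nat.mem_divisorsAntidiagonal] at h ⊢
    obtain ⟨⟨h1, h2⟩, h3, h4⟩ := h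
    have h5 : 0 < x.1 := Nat.pos_of_ne_zero (by rintro h; rw [h] at h3; simp at h3; omega)
    have h6 : 0 < x.2 := Nat.pos_of_ne_zero (by rintro h; rw [h] at h3; simp at h3; omega)
    refine ⟨⟨h5, ?_⟩, h6, ?_⟩
    · calc x.1 ≤ x.1 * x.2 := Nat.le_mul_of_pos_right _ h6
        _ ≤ N := by omega
    · rw [Nat.le_div_iff_mul_le h5, mul_comm]; omega
  · rintro ⟨a, b⟩ h
    simp only [Finset.mem_sigma, Finset.mem_Icc, Nat.mem_divisorsAntidiagonal] at h ⊢
    obtain ⟨⟨h1, h2⟩, h3, h4⟩ := h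
    have h5 : 0 < a * b := Nat.mul_pos h1 h3
    rw [Nat.le_div_iff_mul_le h1, mul_comm] at h4
    exact ⟨⟨h5, h4⟩, trivial, h5.ne'⟩
  · rintro ⟨n, x⟩ h
    simp only [Finset.mem_sigma, Nat.mem_divisorsAntidiagonal] at h
    obtain ⟨_, h3, _⟩ := h
    subst h3
    rfl
  · rintro ⟨a, b⟩ _
    rfl
  · rintro ⟨n, x⟩ _
    rfl

/-- the number of divisors -/
noncomputable def tau (n : ℕ) : ℝ := n.divisors.card

theorem tau_nonneg (n : ℕ) : 0 ≤ tau n := Nat.cast_nonneg _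

theorem tau_mul_le (m n : ℕ) : tau (m * n) ≤ tau m * tau n := by
  unfold tau
  rw [Nat.divisors_mul]
  exact_mod_cast Finset.card_mul_le

theorem sum_tau_mul (n : ℕ) (c : ℝ) : tau n * c = ∑ _x ∈ n.divisorsAntidiagonal, c := by
  rw [Finset.sum_const, nsmul_eq_mul]
  unfold tau
  congr 2
  rw [← Nat.map_div_right_divisors, Finset.card_map]

theorem log_nonneg' (N : ℕ) : 0 ≤ 1 + Real.log N := by
  have := Real.log_natCast_nonneg N
  linarith

theorem sum_tau_le (N : ℕ) : ∑ n ∈ Icc 1 N, tau n * (1 / n) ≤ (1 + Real.log N) ^ 2 := by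
  have h1 : ∀ n ∈ Icc 1 N, tau n * (1 / (n : ℝ)) =
      ∑ x ∈ n.divisorsAntidiagonal, (1 / (x.1 : ℝ)) * (1 / (x.2 : ℝ)) := by
    intro n _
    rw [sum_tau_mul]
    apply Finset.sum_congr rfl
    intro x hx
    rw [← (Nat.mem_divisorsAntidiagonal.1 hx).1]
    push_cast
    rw [one_div_mul_one_div]
  rw [Finset.sum_congr rfl h1, reindex N (fun a b => (1 / (a : ℝ)) * (1 / (b : ℝ)))]
  have h2 : ∀ a ∈ Icc 1 N, ∑ b ∈ Icc 1 (N / a), (1 / (a : ℝ)) * (1 / (b : ℝ)) ≤
      (1 / (a : ℝ)) * (1 + Real.log N) := by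
    intro a _
    rw [← Finset.mul_sum]
    apply mul_le_mul_of_nonneg_left _ (by positivity)
    refine le_trans ?_ (sum_inv_le N)
    apply Finset.sum_le_sum_of_subset_of_nonneg
    · exact Finset.Icc_subset_Icc_right (Nat.div_le_self _ _)
    · intro i _ _; positivity
  refine (Finset.sum_le_sum h2).trans ?_
  rw [← Finset.sum_mul, sq]
  exact mul_le_mul_of_nonneg_right (sum_inv_le N) (log_nonneg' N)

theorem sum_tau_sq_le (N : ℕ) : ∑ n ∈ Icc 1 N, tau n ^ 2 * (1 / n) ≤ (1 + Real.log N) ^ 4 := by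
  have h1 : ∀ n ∈ Icc 1 N, tau n ^ 2 * (1 / (n : ℝ)) ≤
      ∑ x ∈ n.divisorsAntidiagonal, (tau x.1 * (1 / (x.1 : ℝ))) * (tau x.2 * (1 / (x.2 : ℝ))) := by
    intro n _
    rw [sq, mul_assoc, sum_tau_mul]
    apply Finset.sum_le_sum
    intro x hx
    rw [← (Nat.mem_divisorsAntidiagonal.1 hx).1]
    calc tau (x.1 * x.2) * (1 / ((x.1 * x.2 : ℕ) : ℝ))
        ≤ (tau x.1 * tau x.2) * (1 / ((x.1 * x.2 : ℕ) : ℝ)) :=
          mul_le_mul_of_nonneg_right (tau_mul_le _ _) (by positivity)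
      _ = _ := by
          push_cast
          rw [← one_div_mul_one_div]
          ring
  refine (Finset.sum_le_sum h1).trans ?_
  rw [reindex N (fun a b => (tau a * (1 / (a : ℝ))) * (tau b * (1 / (b : ℝ))))]
  have h2 : ∀ a ∈ Icc 1 N, ∑ b ∈ Icc 1 (N / a), (tau a * (1 / (a : ℝ))) * (tau b * (1 / (b : ℝ))) ≤
      (tau a * (1 / (a : ℝ))) * (1 + Real.log N) ^ 2 := by
    intro a _
    rw [← Finset.mul_sum]
    have h3 := tau_nonneg a
    apply mul_le_mul_of_nonneg_left _ (by positivity)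
    refine le_trans ?_ (sum_tau_le N)
    apply Finset.sum_le_sum_of_subset_of_nonneg
    · exact Finset.Icc_subset_Icc_right (Nat.div_le_self _ _)
    · intro i _ _
      have h4 := tau_nonneg i
      positivity
  refine (Finset.sum_le_sum h2).trans ?_
  rw [← Finset.sum_mul, show (1 + Real.log N) ^ 4 = (1 + Real.log N) ^ 2 * (1 + Real.log N) ^ 2 by
    ring]
  exact mul_le_mul_of_nonneg_right (sum_tau_le N) (sq_nonneg _)

/-! ### the bilinear sum -/

/-- the weight `m [m > Y]` -/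
noncomputable def wt (Y m : ℕ) : ℝ := if Y < m then m else 0

theorem wt_nonneg (Y m : ℕ) : 0 ≤ wt Y m := by unfold wt; split_ifs <;> positivity

theorem wt_le (Y m : ℕ) : wt Y m ≤ m := by
  unfold wt
  split_ifs
  · exact le_rfl
  · positivity

theorem wt_mono (Y : ℕ) : Monotone (wt Y) := by
  intro a b hab
  unfold wt
  split_ifs with h1 h2
  · exact_mod_cast hab
  · omega
  · positivity
  · exact le_rfl

/-- `∑_{m ≤ n} wt m e(m x)` -/
noncomputable def wsum (Y n : ℕ) (x : ℝ) : ℂ := ∑ m ∈ range (n + 1), (wt Y m : ℂ) * e (m * x)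

theorem wsum_dst (Y n : ℕ) (x : ℝ) : ‖wsum Y n x‖ * dst x ≤ n :=
  (abel_dst (wt Y) (wt_nonneg Y) (wt_mono Y) x n).trans (wt_le Y n)

theorem wsum_le (Y n : ℕ) (x : ℝ) : ‖wsum Y n x‖ ≤ 2 * n * n := by
  unfold wsum
  refine (norm_sum_le _ _).trans ?_
  rw [Finset.sum_range_succ']
  have h1 : ∀ m ∈ range n, ‖(wt Y (m + 1) : ℂ) * e ((m + 1 : ℕ) * x)‖ ≤ n := by
    intro m hm
    rw [norm_mul, norm_e, mul_one, Complex.norm_real, Real.norm_eq_abs, abs_of_nonneg (wt_nonneg _ _)]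
    refine (wt_le _ _).trans ?_
    have := Finset.mem_range.1 hm
    exact_mod_cast this
  have h2 := Finset.sum_le_sum h1
  rw [Finset.sum_const, Finset.card_range, nsmul_eq_mul] at h2
  have h3 : wt Y 0 = 0 := by unfold wt; simp
  rw [h3]
  simp only [Complex.ofReal_zero, zero_mul, norm_zero, add_zero]
  nlinarith [Nat.cast_nonneg (α := ℝ) n]

theorem wsum_zero {Y n : ℕ} (h : n ≤ Y) (x : ℝ) : wsum Y n x = 0 := by
  unfold wsum
  apply Finset.sum_eq_zero
  intro m hm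
  have h1 := Finset.mem_range.1 hm
  have h2 : wt Y m = 0 := by unfold wt; rw [if_neg]; omega
  rw [h2]; simp

theorem norm_wsum_neg (Y n : ℕ) (x : ℝ) : ‖wsum Y n (-x)‖ = ‖wsum Y n x‖ := by
  have h1 : wsum Y n (-x) = (starRingEnd ℂ) (wsum Y n x) := by
    unfold wsum
    rw [map_sum]
    apply Finset.sum_congr rfl
    intro m _
    rw [map_mul, Complex.conj_ofReal]
    congr 1
    unfold e
    rw [← Complex.exp_conj]
    congr 1
    simp only [map_mul, Complex.conj_ofReal, Complex.conj_I, Complex.conj_ofNat]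
    push_cast
    ring
  rw [h1, RCLike.norm_conj]

theorem wsum_sum {q : ℕ} (hq : 1 ≤ q) {a : ℤ} (ha : IsCoprime a (q : ℤ)) {α : ℝ}
    (hα : |α - a / q| ≤ 1 / (q : ℝ) ^ 2) (Y n k : ℕ) (hn : 1 ≤ n) :
    ∑ h ∈ range k, ‖wsum Y n (h * α)‖ ≤
      n * ((2 * k / q + 1) * (2 * (2 * n) + 4 * q * (1 + Real.log q))) := by
  have hn' : (0 : ℝ) < n := by exact_mod_cast hn
  have h1 := blocks hq ha hα (M := 2 * n) (fun h => ‖wsum Y n (h * α)‖ / n)
    (fun h => by positivity)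
    (fun h => by
      rw [div_le_iff₀ hn']
      exact wsum_le Y n _)
    (fun h => by
      rw [div_mul_eq_mul_div, div_le_one hn']
      exact wsum_dst Y n _) k
  rw [← Finset.sum_div, div_le_iff₀ hn'] at h1
  linarith

/-- the off-diagonal sum over `k₂ ≤ k₁ = K` -/
theorem inner_K {q : ℕ} (hq : 1 ≤ q) {a : ℤ} (ha : IsCoprime a (q : ℤ)) {α : ℝ}
    (hα : |α - a / q| ≤ 1 / (q : ℝ) ^ 2) {N Y K : ℕ} (hK : 1 ≤ K) (hqN : q ≤ N)
    (hKY : Y < N / K) (hYK0 : Y < K) :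
    ∑ k ∈ Icc 1 K, ‖wsum Y (N / K) (((K : ℝ) - k) * α)‖ ≤
      8 * (N : ℝ) ^ 2 / q * (1 / K) + 8 * N * (1 + Real.log N) +
        4 * (N : ℝ) ^ 2 / (Y + 1) * (1 / K) + 4 * N * q * (1 + Real.log N) * (1 / K) := by
  have hq' : (0 : ℝ) < q := by exact_mod_cast hq
  have hK' : (0 : ℝ) < K := by exact_mod_cast hK
  have h1 : ∑ k ∈ Icc 1 K, ‖wsum Y (N / K) (((K : ℝ) - k) * α)‖ =
      ∑ h ∈ range K, ‖wsum Y (N / K) (h * α)‖ := by
    refine Finset.sum_nbij' (i := fun k => K - k) (j := fun h => K - h) ?_ ?_ ?_ ?_ ?_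
    · intro k hk
      simp only [Finset.mem_Icc, Finset.mem_range] at hk ⊢
      omega
    · intro k hk
      simp only [Finset.mem_Icc, Finset.mem_range] at hk ⊢
      omega
    · intro k hk
      simp only [Finset.mem_Icc] at hk
      omega
    · intro k hk
      simp only [Finset.mem_range] at hk
      omega
    · intro k hk
      simp only [Finset.mem_Icc] at hk
      rw [Nat.cast_sub hk.2]
  rw [h1]
  have hn1 : 1 ≤ N / K := by omega
  have h2 := wsum_sum hq ha hα Y (N / K) K hn1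
  refine h2.trans ?_
  set n : ℝ := ((N / K : ℕ) : ℝ) with hn
  have hnN : n ≤ N / K := Nat.cast_div_le
  have hn0 : (1 : ℝ) ≤ n := by rw [hn]; exact_mod_cast hn1
  have hnK : n * K ≤ N := by rwa [le_div_iff₀ hK'] at hnN
  have hY : (Y : ℝ) + 1 ≤ n := by rw [hn]; exact_mod_cast hKY
  have hN0 : (0 : ℝ) < N := by nlinarith
  have hlog : 1 + Real.log q ≤ 1 + Real.log N := by
    have : Real.log q ≤ Real.log N := Real.log_le_log hq' (by exact_mod_cast hqN)
    linarith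
  have hL0 : 0 ≤ 1 + Real.log q := log_nonneg' q
  set L := 1 + Real.log N with hL
  set L' := 1 + Real.log q with hL'
  have hYK : (1 : ℝ) / K ≤ 1 := by
    rw [div_le_one hK']; exact_mod_cast hK
  -- expand
  have e1 : n * ((2 * K / q + 1) * (2 * (2 * n) + 4 * q * L')) =
      8 * (n * K) * n / q + 8 * (n * K) * L' + 4 * n * n + 4 * n * q * L' := by
    field_simp
    ring
  rw [e1]
  have e2 : 8 * (n * K) * n / q ≤ 8 * (N : ℝ) ^ 2 / q * (1 / K) := by
    rw [div_mul_eq_mul_div, mul_one_div]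
    apply div_le_div_of_nonneg_right _ hq'.le
    rw [le_div_iff₀ hK']
    have : (n * K) ^ 2 ≤ (N : ℝ) ^ 2 := pow_le_pow_left₀ (by positivity) hnK 2
    linarith
  have e3 : 8 * (n * K) * L' ≤ 8 * N * L := by
    have : (n * K) * L' ≤ N * L := mul_le_mul hnK hlog hL0 hN0.le
    linarith
  have e4 : 4 * n * n ≤ 4 * (N : ℝ) ^ 2 / (Y + 1) * (1 / K) := by
    have hYK1 : (Y : ℝ) + 1 ≤ K := by exact_mod_cast hYK0
    rw [mul_one_div, le_div_iff₀ hK', le_div_iff₀ (by positivity)]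
    have : (n * K) ^ 2 ≤ (N : ℝ) ^ 2 := pow_le_pow_left₀ (by positivity) hnK 2
    have h3 : n * n * K * ((Y : ℝ) + 1) ≤ n * n * K * K :=
      mul_le_mul_of_nonneg_left hYK1 (by positivity)
    linarith
  have e5 : 4 * n * q * L' ≤ 4 * N * q * L * (1 / K) := by
    rw [mul_one_div, le_div_iff₀ hK']
    have : (n * K) * L' ≤ N * L := mul_le_mul hnK hlog hL0 hN0.le
    nlinarith
  linarith

/-- the correlation sum -/
noncomputable def cor (Y N : ℕ) (α : ℝ) (k l : ℕ) : ℂ :=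
  ∑ m ∈ Icc 1 N, if m * k ≤ N ∧ m * l ≤ N then (wt Y m : ℂ) * e (m * (((k : ℝ) - l) * α)) else 0

theorem cor_eq {Y N : ℕ} {α : ℝ} {k l : ℕ} (hl : l ≤ k) (hk : 1 ≤ k) :
    cor Y N α k l = wsum Y (N / k) (((k : ℝ) - l) * α) := by
  unfold cor wsum
  rw [← Finset.sum_filter, Finset.sum_range_succ']
  have h0 : (wt Y 0 : ℂ) = 0 := by unfold wt; simp
  rw [h0, zero_mul, add_zero]
  symm
  refine Finset.sum_nbij' (i := fun m => m + 1) (j := fun m => m - 1) ?_ ?_ ?_ ?_ ?_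
  · intro m hm
    have h1 := Finset.mem_range.1 hm
    have h2 : (m + 1) * k ≤ N := by
      have : m + 1 ≤ N / k := h1
      rwa [Nat.le_div_iff_mul_le hk] at this
    rw [Finset.mem_filter, Finset.mem_Icc]
    refine ⟨⟨by omega, ?_⟩, h2, ?_⟩
    · calc m + 1 ≤ (m + 1) * k := Nat.le_mul_of_pos_right _ hk
        _ ≤ N := h2
    · exact (Nat.mul_le_mul_left _ hl).trans h2
  · intro m hm
    rw [Finset.mem_filter, Finset.mem_Icc] at hm
    rw [Finset.mem_range]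
    have h1 : m ≤ N / k := (Nat.le_div_iff_mul_le hk).2 hm.2.1
    omega
  · intro m _
    simp
  · intro m hm
    rw [Finset.mem_filter, Finset.mem_Icc] at hm
    omega
  · intro m _
    rfl

theorem norm_cor_comm (Y N : ℕ) (α : ℝ) (k l : ℕ) : ‖cor Y N α k l‖ = ‖cor Y N α l k‖ := by
  have h1 : cor Y N α k l = (starRingEnd ℂ) (cor Y N α l k) := by
    unfold cor
    rw [map_sum]
    apply Finset.sum_congr rfl
    intro m _
    by_cases h : m * k ≤ N ∧ m * l ≤ N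
    · rw [if_pos h, if_pos h.symm, map_mul, Complex.conj_ofReal]
      congr 1
      unfold e
      rw [← Complex.exp_conj]
      congr 1
      simp only [map_mul, Complex.conj_ofReal, Complex.conj_I, Complex.conj_ofNat]
      push_cast
      ring
    · rw [if_neg h, if_neg (fun h' => h h'.symm), _root_.map_zero]
  rw [h1, RCLike.norm_conj]

/-- the correlation sums add up to a power saving -/
theorem cor_sum {q : ℕ} (hq : 1 ≤ q) {a : ℤ} (ha : IsCoprime a (q : ℤ)) {α : ℝ}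
    (hα : |α - a / q| ≤ 1 / (q : ℝ) ^ 2) {N Y : ℕ} (hqN : q ≤ N) :
    ∑ k ∈ (Icc 1 N).filter (fun k => Y < k), ∑ l ∈ (Icc 1 N).filter (fun k => Y < k),
      ‖cor Y N α k l‖ ≤
      2 * (N : ℝ) ^ 2 * (1 + Real.log N) ^ 2 * (8 / q + 12 / (Y + 1) + 4 * q / N) := by
  set A := (Icc 1 N).filter (fun k => Y < k) with hA
  set L := 1 + Real.log N with hL
  have hq' : (0 : ℝ) < q := by exact_mod_cast hq
  have hN' : (1 : ℝ) ≤ N := by exact_mod_cast hq.trans hqN
  have hL1 : 1 ≤ L := by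
    have := Real.log_natCast_nonneg N
    rw [hL]; linarith
  have h1 : ∑ k ∈ A, ∑ l ∈ A, ‖cor Y N α k l‖ ≤
      ∑ k ∈ A, ∑ l ∈ A, (if l ≤ k then ‖cor Y N α k l‖ else 0) +
        ∑ k ∈ A, ∑ l ∈ A, (if k ≤ l then ‖cor Y N α k l‖ else 0) := by
    rw [← Finset.sum_add_distrib]
    apply Finset.sum_le_sum
    intro k _
    rw [← Finset.sum_add_distrib]
    apply Finset.sum_le_sum
    intro l _
    have h2 := norm_nonneg (cor Y N α k l)
    split_ifs <;> linarith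
  have h2 : ∑ k ∈ A, ∑ l ∈ A, (if k ≤ l then ‖cor Y N α k l‖ else 0) =
      ∑ k ∈ A, ∑ l ∈ A, (if l ≤ k then ‖cor Y N α k l‖ else 0) := by
    rw [Finset.sum_comm]
    apply Finset.sum_congr rfl fun k _ => Finset.sum_congr rfl fun l _ => ?_
    rw [norm_cor_comm]
  rw [h2] at h1
  have h3 : ∀ k ∈ A, ∑ l ∈ A, (if l ≤ k then ‖cor Y N α k l‖ else 0) ≤
      if Y < N / k then 8 * (N : ℝ) ^ 2 / q * (1 / k) + 8 * N * (1 + Real.log N) +
        4 * (N : ℝ) ^ 2 / (Y + 1) * (1 / k) + 4 * N * q * (1 + Real.log N) * (1 / k) else 0 := by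
    intro k hk
    rw [hA, Finset.mem_filter, Finset.mem_Icc] at hk
    obtain ⟨⟨hk1, hkN⟩, hkY⟩ := hk
    split_ifs with h4
    · refine le_trans ?_ (inner_K hq ha hα hk1 hqN h4 hkY)
      rw [← Finset.sum_filter]
      calc ∑ l ∈ A.filter (fun l => l ≤ k), ‖cor Y N α k l‖
          = ∑ l ∈ A.filter (fun l => l ≤ k), ‖wsum Y (N / k) (((k : ℝ) - l) * α)‖ := by
            apply Finset.sum_congr rfl
            intro l hl
            rw [cor_eq (Finset.mem_filter.1 hl).2 hk1]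
        _ ≤ _ := by
            apply Finset.sum_le_sum_of_subset_of_nonneg
            · intro l hl
              rw [Finset.mem_filter, hA, Finset.mem_filter, Finset.mem_Icc] at hl
              rw [Finset.mem_Icc]
              exact ⟨hl.1.1.1, hl.2⟩
            · intro i _ _
              exact norm_nonneg _
    · apply le_of_eq
      apply Finset.sum_eq_zero
      intro l _
      split_ifs with h5
      · rw [cor_eq h5 hk1, wsum_zero (by omega), norm_zero]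
      · rfl
  have h4 := Finset.sum_le_sum h3
  rw [← Finset.sum_filter] at h4
  have h5 : A.filter (fun k => Y < N / k) ⊆ Icc 1 (N / (Y + 1)) := by
    intro k hk
    rw [Finset.mem_filter, hA, Finset.mem_filter, Finset.mem_Icc] at hk
    rw [Finset.mem_Icc]
    refine ⟨hk.1.1.1, ?_⟩
    have h6 : Y + 1 ≤ N / k := hk.2
    rw [Nat.le_div_iff_mul_le hk.1.1.1] at h6
    rw [Nat.le_div_iff_mul_le (by omega), mul_comm]
    exact h6
  have h6 : ∑ k ∈ A.filter (fun k => Y < N / k),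
      (8 * (N : ℝ) ^ 2 / q * (1 / k) + 8 * N * L +
        4 * (N : ℝ) ^ 2 / (Y + 1) * (1 / k) + 4 * N * q * L * (1 / k)) ≤
      ∑ k ∈ Icc 1 (N / (Y + 1)),
      (8 * (N : ℝ) ^ 2 / q * (1 / k) + 8 * N * L +
        4 * (N : ℝ) ^ 2 / (Y + 1) * (1 / k) + 4 * N * q * L * (1 / k)) := by
    apply Finset.sum_le_sum_of_subset_of_nonneg h5
    intro i _ _
    positivity
  have h7 : ∑ k ∈ Icc 1 (N / (Y + 1)), (1 : ℝ) / k ≤ L := by
    refine le_trans ?_ (sum_inv_le N)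
    apply Finset.sum_le_sum_of_subset_of_nonneg
    · exact Finset.Icc_subset_Icc_right (Nat.div_le_self _ _)
    · intro i _ _; positivity
  have h8 : ∑ k ∈ Icc 1 (N / (Y + 1)),
      (8 * (N : ℝ) ^ 2 / q * (1 / k) + 8 * N * L +
        4 * (N : ℝ) ^ 2 / (Y + 1) * (1 / k) + 4 * N * q * L * (1 / k)) =
      (8 * (N : ℝ) ^ 2 / q + 4 * (N : ℝ) ^ 2 / (Y + 1) + 4 * N * q * L) *
        (∑ k ∈ Icc 1 (N / (Y + 1)), (1 : ℝ) / k) + ((N / (Y + 1) : ℕ) : ℝ) * (8 * N * L) := by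
    rw [Finset.mul_sum]
    have : ((N / (Y + 1) : ℕ) : ℝ) * (8 * N * L) = ∑ _k ∈ Icc 1 (N / (Y + 1)), (8 * N * L) := by
      rw [Finset.sum_const, Nat.card_Icc, nsmul_eq_mul]
      simp
    rw [this, ← Finset.sum_add_distrib]
    apply Finset.sum_congr rfl
    intro k _
    ring
  have h9 : ((N / (Y + 1) : ℕ) : ℝ) ≤ (N : ℝ) / (Y + 1) := by
    have := Nat.cast_div_le (α := ℝ) (m := N) (n := Y + 1)
    push_cast at this
    exact this
  have h10 : (8 * (N : ℝ) ^ 2 / q + 4 * (N : ℝ) ^ 2 / (Y + 1) + 4 * N * q * L) *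
        (∑ k ∈ Icc 1 (N / (Y + 1)), (1 : ℝ) / k) ≤
      (8 * (N : ℝ) ^ 2 / q + 4 * (N : ℝ) ^ 2 / (Y + 1) + 4 * N * q * L) * L :=
    mul_le_mul_of_nonneg_left h7 (by positivity)
  have h11 : ((N / (Y + 1) : ℕ) : ℝ) * (8 * N * L) ≤ (N : ℝ) / (Y + 1) * (8 * N * L) :=
    mul_le_mul_of_nonneg_right h9 (by positivity)
  have h12 : (8 * (N : ℝ) ^ 2 / q + 4 * (N : ℝ) ^ 2 / (Y + 1) + 4 * N * q * L) * L +
      (N : ℝ) / (Y + 1) * (8 * N * L) ≤
      (N : ℝ) ^ 2 * L ^ 2 * (8 / q + 12 / (Y + 1) + 4 * q / N) := by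
    have e1 : (8 * (N : ℝ) ^ 2 / q + 4 * (N : ℝ) ^ 2 / (Y + 1) + 4 * N * q * L) * L +
      (N : ℝ) / (Y + 1) * (8 * N * L) =
      (N : ℝ) ^ 2 * L * (8 / q + 12 / (Y + 1)) + 4 * N * q * L ^ 2 := by
      field_simp
      ring
    have e2 : (N : ℝ) ^ 2 * L ^ 2 * (8 / q + 12 / (Y + 1) + 4 * q / N) =
      (N : ℝ) ^ 2 * L ^ 2 * (8 / q + 12 / (Y + 1)) + 4 * N * q * L ^ 2 := by
      field_simp
    rw [e1, e2]
    have e3 : (N : ℝ) ^ 2 * L ≤ (N : ℝ) ^ 2 * L ^ 2 := by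
      apply mul_le_mul_of_nonneg_left _ (by positivity)
      nlinarith
    have e4 : (N : ℝ) ^ 2 * L * (8 / q + 12 / (Y + 1)) ≤
        (N : ℝ) ^ 2 * L ^ 2 * (8 / q + 12 / (Y + 1)) :=
      mul_le_mul_of_nonneg_right e3 (by positivity)
    linarith
  rw [← hL] at h4
  rw [h8] at h6
  have h13 : ∑ k ∈ A, ∑ l ∈ A, (if l ≤ k then ‖cor Y N α k l‖ else 0) ≤
      (N : ℝ) ^ 2 * L ^ 2 * (8 / q + 12 / (Y + 1) + 4 * q / N) := by
    linarith
  calc ∑ k ∈ A, ∑ l ∈ A, ‖cor Y N α k l‖ ≤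
      2 * ∑ k ∈ A, ∑ l ∈ A, (if l ≤ k then ‖cor Y N α k l‖ else 0) := by linarith
    _ ≤ 2 * ((N : ℝ) ^ 2 * L ^ 2 * (8 / q + 12 / (Y + 1) + 4 * q / N)) := by linarith
    _ = _ := by ring

theorem sum_div_eq {M : Type*} [AddCommMonoid M] {N m : ℕ} (hm : 1 ≤ m) (F : ℕ → M) :
    ∑ k ∈ Icc 1 (N / m), F k = ∑ k ∈ Icc 1 N, if m * k ≤ N then F k else 0 := by
  rw [← Finset.sum_filter]
  apply Finset.sum_congr _ fun _ _ => rfl
  ext k
  rw [Finset.mem_filter, Finset.mem_Icc, Finset.mem_Icc]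
  constructor
  · rintro ⟨h1, h2⟩
    rw [Nat.le_div_iff_mul_le hm, mul_comm] at h2
    refine ⟨⟨h1, ?_⟩, h2⟩
    calc k ≤ m * k := Nat.le_mul_of_pos_left _ hm
      _ ≤ N := h2
  · rintro ⟨⟨h1, _⟩, h2⟩
    exact ⟨h1, by rw [Nat.le_div_iff_mul_le hm, mul_comm]; exact h2⟩

/-- the inner sum -/
noncomputable def inn (N : ℕ) (α : ℝ) (B : ℕ → ℝ) (m : ℕ) : ℂ :=
  ∑ k ∈ Icc 1 N, if m * k ≤ N then (B k : ℂ) * e (m * (k * α)) else 0

theorem inn_sq (N Y : ℕ) (α : ℝ) (B : ℕ → ℝ) :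
    ((∑ m ∈ Icc 1 N, wt Y m * ‖inn N α B m‖ ^ 2 : ℝ) : ℂ) =
      ∑ k ∈ Icc 1 N, ∑ l ∈ Icc 1 N, ((B k : ℂ) * B l) * cor Y N α k l := by
  have h1 : ∀ m : ℕ, ((wt Y m * ‖inn N α B m‖ ^ 2 : ℝ) : ℂ) = ∑ k ∈ Icc 1 N, ∑ l ∈ Icc 1 N,
      ((B k : ℂ) * B l) * (if m * k ≤ N ∧ m * l ≤ N then
        (wt Y m : ℂ) * e (m * (((k : ℝ) - l) * α)) else 0) := by
    intro m
    have h2 : ((‖inn N α B m‖ ^ 2 : ℝ) : ℂ) = inn N α B m * (starRingEnd ℂ) (inn N α B m) := by
      rw [Complex.mul_conj, Complex.normSq_eq_norm_sq]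
    rw [Complex.ofReal_mul, h2]
    unfold inn
    rw [map_sum, Finset.sum_mul_sum, Finset.mul_sum]
    apply Finset.sum_congr rfl
    intro k _
    rw [Finset.mul_sum]
    apply Finset.sum_congr rfl
    intro l _
    by_cases hk : m * k ≤ N
    · by_cases hl : m * l ≤ N
      · rw [if_pos hk, if_pos hl, if_pos ⟨hk, hl⟩]
        have h3 : e (m * (((k : ℝ) - l) * α)) =
            e (m * (k * α)) * (starRingEnd ℂ) (e (m * (l * α))) := by
          unfold e
          rw [← Complex.exp_conj, ← Complex.exp_add]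
          congr 1
          simp only [map_mul, Complex.conj_ofReal, Complex.conj_I, Complex.conj_ofNat]
          push_cast
          ring
        rw [h3, map_mul, Complex.conj_ofReal]
        ring
      · have hh : ¬ (m * k ≤ N ∧ m * l ≤ N) := fun h => hl h.2
        rw [if_neg hl, if_neg hh, _root_.map_zero, mul_zero, mul_zero, mul_zero]
    · have hh : ¬ (m * k ≤ N ∧ m * l ≤ N) := fun h => hk h.1
      rw [if_neg hk, if_neg hh, zero_mul, mul_zero, mul_zero]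
  rw [Complex.ofReal_sum, Finset.sum_congr rfl (fun m _ => h1 m), Finset.sum_comm]
  apply Finset.sum_congr rfl
  intro k _
  rw [Finset.sum_comm]
  apply Finset.sum_congr rfl
  intro l _
  unfold cor
  rw [Finset.mul_sum]

theorem inn_sq_le {q : ℕ} (hq : 1 ≤ q) {a : ℤ} (ha : IsCoprime a (q : ℤ)) {α : ℝ}
    (hα : |α - a / q| ≤ 1 / (q : ℝ) ^ 2) {N Y : ℕ} (hqN : q ≤ N) (B : ℕ → ℝ)
    (hB : ∀ k ∈ Icc 1 N, |B k| ≤ 1 + Real.log N) (hB0 : ∀ k ≤ Y, B k = 0) :
    ∑ m ∈ Icc 1 N, wt Y m * ‖inn N α B m‖ ^ 2 ≤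
      (1 + Real.log N) ^ 2 * (2 * (N : ℝ) ^ 2 * (1 + Real.log N) ^ 2 *
        (8 / q + 12 / (Y + 1) + 4 * q / N)) := by
  set L := 1 + Real.log N with hL
  have hL0 : 0 ≤ L := log_nonneg' N
  have h1 : 0 ≤ ∑ m ∈ Icc 1 N, wt Y m * ‖inn N α B m‖ ^ 2 := by
    apply Finset.sum_nonneg
    intro m _
    have := wt_nonneg Y m
    positivity
  have h2 : ∑ m ∈ Icc 1 N, wt Y m * ‖inn N α B m‖ ^ 2 =
      ‖((∑ m ∈ Icc 1 N, wt Y m * ‖inn N α B m‖ ^ 2 : ℝ) : ℂ)‖ := by
    rw [Complex.norm_real, Real.norm_eq_abs, abs_of_nonneg h1]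
  rw [h2, inn_sq]
  refine (norm_sum_le _ _).trans ?_
  have h3 : ∀ k ∈ Icc 1 N, ‖∑ l ∈ Icc 1 N, ((B k : ℂ) * B l) * cor Y N α k l‖ ≤
      ∑ l ∈ Icc 1 N, if Y < k ∧ Y < l then L ^ 2 * ‖cor Y N α k l‖ else 0 := by
    intro k hk
    refine (norm_sum_le _ _).trans (Finset.sum_le_sum fun l hl => ?_)
    rw [norm_mul, norm_mul, Complex.norm_real, Complex.norm_real, Real.norm_eq_abs,
      Real.norm_eq_abs]
    split_ifs with h
    · have h4 : |B k| * |B l| ≤ L ^ 2 := by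
        rw [sq]
        exact mul_le_mul (hB k hk) (hB l hl) (abs_nonneg _) hL0
      exact mul_le_mul_of_nonneg_right h4 (norm_nonneg _)
    · rcases not_and_or.1 h with h | h
      · rw [hB0 k (by omega)]; simp
      · rw [hB0 l (by omega)]; simp
  refine (Finset.sum_le_sum h3).trans ?_
  have h4 : ∑ k ∈ Icc 1 N, ∑ l ∈ Icc 1 N, (if Y < k ∧ Y < l then L ^ 2 * ‖cor Y N α k l‖ else 0) =
      L ^ 2 * ∑ k ∈ (Icc 1 N).filter (fun k => Y < k), ∑ l ∈ (Icc 1 N).filter (fun k => Y < k),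
      ‖cor Y N α k l‖ := by
    rw [Finset.mul_sum, Finset.sum_filter]
    apply Finset.sum_congr rfl
    intro k _
    split_ifs with h
    · rw [Finset.mul_sum, Finset.sum_filter]
      apply Finset.sum_congr rfl
      intro l _
      by_cases h' : Y < l
      · rw [if_pos ⟨h, h'⟩, if_pos h']
      · rw [if_neg (fun h'' => h' h''.2), if_neg h']
    · apply Finset.sum_eq_zero
      intro l _
      rw [if_neg (fun h' => h h'.1)]
  rw [h4]
  exact mul_le_mul_of_nonneg_left (cor_sum hq ha hα hqN) (by positivity)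

/-- **Type II** -/
theorem typeII {q : ℕ} (hq : 1 ≤ q) {a : ℤ} (ha : IsCoprime a (q : ℤ)) {α : ℝ}
    (hα : |α - a / q| ≤ 1 / (q : ℝ) ^ 2) {N Y : ℕ} (hqN : q ≤ N) (A B : ℕ → ℝ)
    (hA : ∀ m, |A m| ≤ tau m) (hA0 : ∀ m ≤ Y, A m = 0)
    (hB : ∀ k ∈ Icc 1 N, |B k| ≤ 1 + Real.log N) (hB0 : ∀ k ≤ Y, B k = 0) :
    ‖∑ m ∈ Icc 1 N, ∑ k ∈ Icc 1 (N / m), ((A m : ℂ) * B k) * e (((m * k : ℕ) : ℝ) * α)‖ ^ 2 ≤
      (1 + Real.log N) ^ 8 * (2 * (N : ℝ) ^ 2 * (8 / q + 12 / (Y + 1) + 4 * q / N)) := by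
  set L := 1 + Real.log N with hL
  have hL0 : 0 ≤ L := log_nonneg' N
  have h1 : ∑ m ∈ Icc 1 N, ∑ k ∈ Icc 1 (N / m), ((A m : ℂ) * B k) * e (((m * k : ℕ) : ℝ) * α) =
      ∑ m ∈ Icc 1 N, (A m : ℂ) * inn N α B m := by
    apply Finset.sum_congr rfl
    intro m hm
    rw [sum_div_eq (Finset.mem_Icc.1 hm).1]
    unfold inn
    rw [Finset.mul_sum]
    apply Finset.sum_congr rfl
    intro k _
    split_ifs
    · rw [mul_assoc]
      congr 3
      push_cast
      ring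
    · rw [mul_zero]
  rw [h1]
  have h2 : ‖∑ m ∈ Icc 1 N, (A m : ℂ) * inn N α B m‖ ≤
      ∑ m ∈ Icc 1 N, (|A m| * Real.sqrt (1 / m)) * (Real.sqrt (wt Y m) * ‖inn N α B m‖) := by
    refine (norm_sum_le _ _).trans (Finset.sum_le_sum fun m hm => ?_)
    rw [norm_mul, Complex.norm_real, Real.norm_eq_abs]
    have hm1 : (0 : ℝ) < m := by exact_mod_cast (Finset.mem_Icc.1 hm).1
    by_cases h : Y < m
    · have h3 : Real.sqrt (1 / m) * Real.sqrt (wt Y m) = 1 := by
        unfold wt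
        rw [if_pos h, ← Real.sqrt_mul (by positivity), one_div_mul_cancel hm1.ne', Real.sqrt_one]
      have h4 : (|A m| * Real.sqrt (1 / m)) * (Real.sqrt (wt Y m) * ‖inn N α B m‖) =
          |A m| * ‖inn N α B m‖ * (Real.sqrt (1 / m) * Real.sqrt (wt Y m)) := by ring
      rw [h4, h3, mul_one]
    · rw [hA0 m (by omega)]; simp
  have h5 : ‖∑ m ∈ Icc 1 N, (A m : ℂ) * inn N α B m‖ ^ 2 ≤
      (∑ m ∈ Icc 1 N, (|A m| * Real.sqrt (1 / m)) ^ 2) *
        ∑ m ∈ Icc 1 N, (Real.sqrt (wt Y m) * ‖inn N α B m‖) ^ 2 :=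
    (pow_le_pow_left₀ (norm_nonneg _) h2 2).trans (Finset.sum_mul_sq_le_sq_mul_sq _ _ _)
  have h6 : ∑ m ∈ Icc 1 N, (|A m| * Real.sqrt (1 / m)) ^ 2 ≤ L ^ 4 := by
    refine le_trans (Finset.sum_le_sum fun m hm => ?_) (sum_tau_sq_le N)
    rw [mul_pow, Real.sq_sqrt (by positivity)]
    apply mul_le_mul_of_nonneg_right _ (by positivity)
    exact pow_le_pow_left₀ (abs_nonneg _) (hA m) 2
  have h7 : ∑ m ∈ Icc 1 N, (Real.sqrt (wt Y m) * ‖inn N α B m‖) ^ 2 ≤
      L ^ 2 * (2 * (N : ℝ) ^ 2 * L ^ 2 * (8 / q + 12 / (Y + 1) + 4 * q / N)) := by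
    refine le_trans (le_of_eq ?_) (inn_sq_le hq ha hα hqN B hB hB0)
    apply Finset.sum_congr rfl
    intro m _
    rw [mul_pow, Real.sq_sqrt (wt_nonneg _ _)]
  have h8 : 0 ≤ ∑ m ∈ Icc 1 N, (Real.sqrt (wt Y m) * ‖inn N α B m‖) ^ 2 :=
    Finset.sum_nonneg fun m _ => sq_nonneg _
  calc _ ≤ _ := h5
    _ ≤ L ^ 4 * (L ^ 2 * (2 * (N : ℝ) ^ 2 * L ^ 2 * (8 / q + 12 / (Y + 1) + 4 * q / N))) :=
        mul_le_mul h6 h7 h8 (by positivity)
    _ = _ := by ring

/-! ### Vaughan's identity -/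

/-- truncation to `n ≤ Y` -/
noncomputable def lo (Y : ℕ) (f : ArithmeticFunction ℝ) : ArithmeticFunction ℝ :=
  ⟨fun n => if n ≤ Y then f n else 0, by simp⟩

theorem lo_apply (Y : ℕ) (f : ArithmeticFunction ℝ) (n : ℕ) :
    lo Y f n = if n ≤ Y then f n else 0 := rfl

theorem sub_app (f g : ArithmeticFunction ℝ) (n : ℕ) : (f - g) n = f n - g n := by
  rw [sub_eq_add_neg, ArithmeticFunction.add_apply, ArithmeticFunction.neg_apply, sub_eq_add_neg]

/-- the Moebius function with real values -/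
noncomputable def mu : ArithmeticFunction ℝ := ((μ : ArithmeticFunction ℤ) : ArithmeticFunction ℝ)

theorem abs_mu_le (n : ℕ) : |mu n| ≤ 1 := by
  have h1 : mu n = ((μ n : ℤ) : ℝ) := rfl
  rw [h1]
  exact_mod_cast abs_moebius_le_one

theorem vaughan (Y : ℕ) : vonMangoldt = lo Y vonMangoldt + lo Y mu * log -
    lo Y mu * lo Y vonMangoldt * (ζ : ArithmeticFunction ℝ) +
      ((mu - lo Y mu) * (ζ : ArithmeticFunction ℝ)) * (vonMangoldt - lo Y vonMangoldt) := by
  have h1 : mu * (ζ : ArithmeticFunction ℝ) = 1 := coe_moebius_mul_coe_zeta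
  have h2 : (ζ : ArithmeticFunction ℝ) * vonMangoldt = log := zeta_mul_vonMangoldt
  linear_combination (-(vonMangoldt - lo Y vonMangoldt)) * h1 + lo Y mu * h2

theorem twist_mul (N : ℕ) (α : ℝ) (f g : ArithmeticFunction ℝ) :
    ∑ n ∈ Icc 1 N, (((f * g) n : ℝ) : ℂ) * e (n * α) =
      ∑ a ∈ Icc 1 N, ∑ b ∈ Icc 1 (N / a), ((f a : ℂ) * g b) * e (((a * b : ℕ) : ℝ) * α) := by
  rw [← reindex N (fun a b => ((f a : ℂ) * g b) * e (((a * b : ℕ) : ℝ) * α))]
  apply Finset.sum_congr rfl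
  intro n _
  rw [ArithmeticFunction.mul_apply, Complex.ofReal_sum, Finset.sum_mul]
  apply Finset.sum_congr rfl
  intro x hx
  rw [(Nat.mem_divisorsAntidiagonal.1 hx).1, Complex.ofReal_mul]

theorem typeI {q : ℕ} (hq : 1 ≤ q) {a : ℤ} (ha : IsCoprime a (q : ℤ)) {α : ℝ}
    (hα : |α - a / q| ≤ 1 / (q : ℝ) ^ 2) {N R : ℕ} (hR : 2 * R ≤ q) (c g : ℕ → ℝ) {L G : ℝ}
    (hL : 0 ≤ L) (hG : 0 ≤ G) (hc : ∀ m ∈ Icc 1 N, |c m| ≤ L) (hc0 : ∀ m, R < m → c m = 0)
    (hg0 : g 0 = 0) (hg : Monotone g) (hgG : ∀ n ≤ N, g n ≤ G) :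
    ‖∑ m ∈ Icc 1 N, ∑ b ∈ Icc 1 (N / m), ((c m : ℂ) * g b) * e (((m * b : ℕ) : ℝ) * α)‖ ≤
      R * (L * (2 * q * G)) := by
  have hq' : (0 : ℝ) < q := by exact_mod_cast hq
  have hgn : ∀ n, 0 ≤ g n := fun n => by rw [← hg0]; exact hg (Nat.zero_le n)
  have h1 : ∀ m ∈ Icc 1 N,
      ‖∑ b ∈ Icc 1 (N / m), ((c m : ℂ) * g b) * e (((m * b : ℕ) : ℝ) * α)‖ ≤
        if m ≤ R then L * (2 * q * G) else 0 := by
    intro m hm
    split_ifs with h
    · have h2 : ∑ b ∈ Icc 1 (N / m), ((c m : ℂ) * g b) * e (((m * b : ℕ) : ℝ) * α) =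
          (c m : ℂ) * ∑ b ∈ range (N / m + 1), (g b : ℂ) * e (b * (m * α)) := by
        rw [Finset.sum_range_succ', hg0, Complex.ofReal_zero, zero_mul, add_zero, Finset.mul_sum]
        symm
        refine Finset.sum_nbij' (i := fun b => b + 1) (j := fun b => b - 1) ?_ ?_ ?_ ?_ ?_
        · intro b hb
          rw [Finset.mem_range] at hb
          rw [Finset.mem_Icc]
          omega
        · intro b hb
          rw [Finset.mem_Icc] at hb
          rw [Finset.mem_range]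
          omega
        · intro b _
          simp
        · intro b hb
          rw [Finset.mem_Icc] at hb
          omega
        · intro b _
          rw [mul_assoc]
          congr 3
          push_cast
          ring
      rw [h2, norm_mul, Complex.norm_real, Real.norm_eq_abs]
      have h3 := abel_dst g hgn hg (m * α) (N / m)
      have h4 : 1 / (2 * (q : ℝ)) ≤ dst (m * α) := by
        have hm1 := (Finset.mem_Icc.1 hm).1
        have h5 := dst_lower hq ha hα (h := (m : ℤ)) (by omega)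
          (by rw [abs_of_nonneg (by omega)]; omega)
        unfold dst
        simpa using h5
      have h5 : g (N / m) ≤ G := hgG _ (Nat.div_le_self _ _)
      have h6 : ‖∑ b ∈ range (N / m + 1), (g b : ℂ) * e (b * (m * α))‖ ≤ 2 * q * G := by
        have h7 : ‖∑ b ∈ range (N / m + 1), (g b : ℂ) * e (b * (m * α))‖ * (1 / (2 * (q : ℝ))) ≤ G :=
          ((mul_le_mul_of_nonneg_left h4 (norm_nonneg _)).trans h3).trans h5
        rw [mul_one_div, div_le_iff₀ (by positivity)] at h7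
        linarith
      exact mul_le_mul (hc m hm) h6 (norm_nonneg _) hL
    · rw [hc0 m (by omega)]
      simp
  refine (norm_sum_le _ _).trans ((Finset.sum_le_sum h1).trans ?_)
  rw [← Finset.sum_filter, Finset.sum_const, nsmul_eq_mul]
  apply mul_le_mul_of_nonneg_right _ (by positivity)
  have h2 : (Icc 1 N).filter (fun m => m ≤ R) ⊆ Icc 1 R := by
    intro m hm
    rw [Finset.mem_filter, Finset.mem_Icc] at hm
    rw [Finset.mem_Icc]
    omega
  have h3 := Finset.card_le_card h2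
  rw [Nat.card_Icc] at h3
  exact_mod_cast (by omega : ((Icc 1 N).filter (fun m => m ≤ R)).card ≤ R)

theorem Lam_le {N n : ℕ} (hn : n ∈ Icc 1 N) : vonMangoldt n ≤ 1 + Real.log N := by
  have h1 := Finset.mem_Icc.1 hn
  have h2 : Real.log n ≤ Real.log N :=
    Real.log_le_log (by exact_mod_cast h1.1) (by exact_mod_cast h1.2)
  have h3 := vonMangoldt_le_log (n := n)
  linarith

theorem lo_nonneg (Y n : ℕ) : 0 ≤ lo Y vonMangoldt n := by
  rw [lo_apply]
  split_ifs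
  · exact vonMangoldt_nonneg
  · exact le_rfl

theorem lo_le (Y n : ℕ) : lo Y vonMangoldt n ≤ vonMangoldt n := by
  rw [lo_apply]
  split_ifs
  · exact le_rfl
  · exact vonMangoldt_nonneg

theorem T0_le (N Y : ℕ) (α : ℝ) :
    ‖∑ n ∈ Icc 1 N, ((lo Y vonMangoldt n : ℝ) : ℂ) * e (n * α)‖ ≤ Y * (1 + Real.log N) := by
  have hL := log_nonneg' N
  have h1 : ∀ n ∈ Icc 1 N, ‖((lo Y vonMangoldt n : ℝ) : ℂ) * e (n * α)‖ ≤
      if n ≤ Y then 1 + Real.log N else 0 := by
    intro n hn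
    rw [norm_mul, norm_e, mul_one, Complex.norm_real, Real.norm_eq_abs,
      abs_of_nonneg (lo_nonneg _ _)]
    split_ifs with h
    · exact (lo_le _ _).trans (Lam_le hn)
    · rw [lo_apply, if_neg h]
  refine (norm_sum_le _ _).trans ((Finset.sum_le_sum h1).trans ?_)
  rw [← Finset.sum_filter, Finset.sum_const, nsmul_eq_mul]
  apply mul_le_mul_of_nonneg_right _ hL
  have h2 : (Icc 1 N).filter (fun m => m ≤ Y) ⊆ Icc 1 Y := by
    intro m hm
    rw [Finset.mem_filter, Finset.mem_Icc] at hm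
    rw [Finset.mem_Icc]
    omega
  have h3 := Finset.card_le_card h2
  rw [Nat.card_Icc] at h3
  exact_mod_cast (by omega : ((Icc 1 N).filter (fun m => m ≤ Y)).card ≤ Y)

theorem T1_le {q : ℕ} (hq : 1 ≤ q) {a : ℤ} (ha : IsCoprime a (q : ℤ)) {α : ℝ}
    (hα : |α - a / q| ≤ 1 / (q : ℝ) ^ 2) {N Y : ℕ} (hY : 2 * Y ≤ q) :
    ‖∑ n ∈ Icc 1 N, (((lo Y mu * log) n : ℝ) : ℂ) * e (n * α)‖ ≤
      Y * (1 * (2 * q * (1 + Real.log N))) := by
  rw [twist_mul]
  apply typeI hq ha hα hY (fun m => lo Y mu m) (fun n => log n) zero_le_one (log_nonneg' N)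
  · intro m _
    rw [lo_apply]
    split_ifs
    · exact abs_mu_le m
    · simp
  · intro m hm
    rw [lo_apply, if_neg (by omega)]
  · simp
  · intro m n hmn
    simp only [log_apply]
    rcases Nat.eq_zero_or_pos m with rfl | h
    · simpa using Real.log_natCast_nonneg n
    · exact Real.log_le_log (by exact_mod_cast h) (by exact_mod_cast hmn)
  · intro n hn
    simp only [log_apply]
    rcases Nat.eq_zero_or_pos n with rfl | h
    · simpa using log_nonneg' N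
    · have : Real.log n ≤ Real.log N := Real.log_le_log (by exact_mod_cast h) (by exact_mod_cast hn)
      linarith

theorem T2_le {q : ℕ} (hq : 1 ≤ q) {a : ℤ} (ha : IsCoprime a (q : ℤ)) {α : ℝ}
    (hα : |α - a / q| ≤ 1 / (q : ℝ) ^ 2) {N Y : ℕ} (hY : 2 * (Y * Y) ≤ q) :
    ‖∑ n ∈ Icc 1 N, (((lo Y mu * lo Y vonMangoldt * (ζ : ArithmeticFunction ℝ)) n : ℝ) : ℂ) *
      e (n * α)‖ ≤ ((Y * Y : ℕ) : ℝ) * ((1 + Real.log N) * (2 * q * 1)) := by
  rw [twist_mul]
  apply typeI hq ha hα hY (fun m => (lo Y mu * lo Y vonMangoldt) m)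
    (fun n => (ζ : ArithmeticFunction ℝ) n) (log_nonneg' N) zero_le_one
  · intro m hm
    rw [ArithmeticFunction.mul_apply]
    refine (Finset.abs_sum_le_sum_abs _ _).trans ?_
    have h1 : ∀ x ∈ m.divisorsAntidiagonal, |lo Y mu x.1 * lo Y vonMangoldt x.2| ≤
        vonMangoldt x.2 := by
      intro x _
      rw [abs_mul, abs_of_nonneg (lo_nonneg _ _)]
      have h2 : |lo Y mu x.1| ≤ 1 := by
        rw [lo_apply]
        split_ifs
        · exact abs_mu_le _
        · simp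
      calc |lo Y mu x.1| * lo Y vonMangoldt x.2 ≤ 1 * vonMangoldt x.2 :=
            mul_le_mul h2 (lo_le _ _) (lo_nonneg _ _) zero_le_one
        _ = _ := one_mul _
    refine (Finset.sum_le_sum h1).trans ?_
    rw [Nat.sum_divisorsAntidiagonal' (fun _ y => vonMangoldt y), vonMangoldt_sum]
    have h1 := Finset.mem_Icc.1 hm
    have h2 : Real.log m ≤ Real.log N :=
      Real.log_le_log (by exact_mod_cast h1.1) (by exact_mod_cast h1.2)
    linarith
  · intro m hm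
    rw [ArithmeticFunction.mul_apply]
    apply Finset.sum_eq_zero
    intro x hx
    have h1 := (Nat.mem_divisorsAntidiagonal.1 hx).1
    rw [lo_apply, lo_apply]
    by_cases h2 : x.1 ≤ Y
    · by_cases h3 : x.2 ≤ Y
      · have := Nat.mul_le_mul h2 h3
        omega
      · rw [if_neg h3, mul_zero]
    · rw [if_neg h2, zero_mul]
  · simp
  · intro m n hmn
    simp only [natCoe_apply, zeta_apply]
    split_ifs <;> simp
    omega
  · intro n hn
    simp only [natCoe_apply, zeta_apply]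
    split_ifs <;> simp

theorem T3_le {q : ℕ} (hq : 1 ≤ q) {a : ℤ} (ha : IsCoprime a (q : ℤ)) {α : ℝ}
    (hα : |α - a / q| ≤ 1 / (q : ℝ) ^ 2) {N Y : ℕ} (hqN : q ≤ N) :
    ‖∑ n ∈ Icc 1 N, (((((mu - lo Y mu) * (ζ : ArithmeticFunction ℝ)) *
      (vonMangoldt - lo Y vonMangoldt)) n : ℝ) : ℂ) * e (n * α)‖ ^ 2 ≤
      (1 + Real.log N) ^ 8 * (2 * (N : ℝ) ^ 2 * (8 / q + 12 / (Y + 1) + 4 * q / N)) := by
  rw [twist_mul]
  apply typeII hq ha hα hqN (fun m => ((mu - lo Y mu) * (ζ : ArithmeticFunction ℝ)) m)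
    (fun n => (vonMangoldt - lo Y vonMangoldt) n)
  · intro m
    rw [coe_mul_zeta_apply]
    refine (Finset.abs_sum_le_sum_abs _ _).trans ?_
    have h1 : ∀ x ∈ m.divisors, |(mu - lo Y mu) x| ≤ 1 := by
      intro x _
      rw [sub_app, lo_apply]
      split_ifs
      · simp
      · rw [sub_zero]; exact abs_mu_le _
    refine (Finset.sum_le_sum h1).trans ?_
    rw [Finset.sum_const, nsmul_eq_mul, mul_one]
    exact le_rfl
  · intro m hm
    rw [coe_mul_zeta_apply]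
    apply Finset.sum_eq_zero
    intro x hx
    have h1 : x ≤ Y := (Nat.divisor_le hx).trans hm
    rw [sub_app, lo_apply, if_pos h1, sub_self]
  · intro k hk
    rw [sub_app, abs_of_nonneg (sub_nonneg.2 (lo_le _ _))]
    have := Lam_le hk
    have := lo_nonneg Y k
    linarith
  · intro k hk
    rw [sub_app, lo_apply, if_pos hk, sub_self]

/-- **minor arcs**, before the choice of parameters -/
theorem minor_pre {q : ℕ} (hq : 1 ≤ q) {a : ℤ} (ha : IsCoprime a (q : ℤ)) {α : ℝ}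
    (hα : |α - a / q| ≤ 1 / (q : ℝ) ^ 2) {N Y : ℕ} (hqN : q ≤ N) (hY : 2 * (Y * Y) ≤ q)
    (hY1 : 1 ≤ Y) :
    ‖∑ n ∈ Icc 1 N, (vonMangoldt n : ℂ) * e ((n : ℝ) * α)‖ ≤
      5 * (Y * Y * q) * (1 + Real.log N) + Real.sqrt ((1 + Real.log N) ^ 8 *
        (2 * (N : ℝ) ^ 2 * (8 / q + 12 / (Y + 1) + 4 * q / N))) := by
  have h0 : ∑ n ∈ Icc 1 N, (vonMangoldt n : ℂ) * e ((n : ℝ) * α) =
      ∑ n ∈ Icc 1 N, ((lo Y vonMangoldt n : ℝ) : ℂ) * e (n * α) +
      ∑ n ∈ Icc 1 N, (((lo Y mu * log) n : ℝ) : ℂ) * e (n * α) -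
      ∑ n ∈ Icc 1 N, (((lo Y mu * lo Y vonMangoldt * (ζ : ArithmeticFunction ℝ)) n : ℝ) : ℂ) *
        e (n * α) +
      ∑ n ∈ Icc 1 N, (((((mu - lo Y mu) * (ζ : ArithmeticFunction ℝ)) *
        (vonMangoldt - lo Y vonMangoldt)) n : ℝ) : ℂ) * e (n * α) := by
    rw [← Finset.sum_add_distrib, ← Finset.sum_sub_distrib, ← Finset.sum_add_distrib]
    apply Finset.sum_congr rfl
    intro n _
    rw [← add_mul, ← sub_mul, ← add_mul]
    congr 1
    conv_lhs => rw [vaughan Y]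
    rw [ArithmeticFunction.add_apply, sub_app, ArithmeticFunction.add_apply]
    push_cast
    ring
  have h1 := T0_le N Y α
  have h2 := T1_le hq ha hα (N := N) (Y := Y) (by nlinarith)
  have h3 := T2_le hq ha hα (N := N) hY
  have h4 := T3_le hq ha hα (N := N) (Y := Y) hqN
  have h5 := Real.le_sqrt_of_sq_le h4
  rw [h0]
  refine (norm_add_le _ _).trans (add_le_add ?_ h5)
  refine (norm_sub_le _ _).trans ?_
  refine (add_le_add (norm_add_le _ _) le_rfl).trans ?_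
  have hL : 1 ≤ 1 + Real.log N := by
    have := Real.log_natCast_nonneg N
    linarith
  set L := 1 + Real.log N with hLdef
  have hY' : (1 : ℝ) ≤ Y := by exact_mod_cast hY1
  have hq' : (1 : ℝ) ≤ q := by exact_mod_cast hq
  have h6 : (Y : ℝ) ≤ Y * Y := by nlinarith
  have h7 : (Y : ℝ) ≤ Y * Y * q := by nlinarith
  have h8 : (Y : ℝ) * q ≤ Y * Y * q := by nlinarith
  have e1 : (Y : ℝ) * L ≤ (Y * Y * q) * L := mul_le_mul_of_nonneg_right h7 (by linarith)
  have e2 : (Y : ℝ) * (1 * (2 * q * L)) ≤ 2 * ((Y * Y * q) * L) := by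
    have : (Y : ℝ) * q * L ≤ (Y * Y * q) * L := mul_le_mul_of_nonneg_right h8 (by linarith)
    linarith
  have e3 : ((Y * Y : ℕ) : ℝ) * (L * (2 * q * 1)) = 2 * ((Y * Y * q) * L) := by
    push_cast
    ring
  rw [e3] at h3
  linarith

/-! ### the choice of parameters -/

theorem log_bound {ε : ℝ} (hε : 0 < ε) {N : ℕ} (hN : 1 ≤ N) :
    1 + Real.log N ≤ (1 + 1 / ε) * (N : ℝ) ^ ε := by
  have hN' : (1 : ℝ) ≤ N := by exact_mod_cast hN
  have h1 : Real.log N ≤ (N : ℝ) ^ ε / ε := Real.log_le_rpow_div (by positivity) hε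
  have h2 : (1 : ℝ) ≤ (N : ℝ) ^ ε := Real.one_le_rpow hN' hε.le
  calc 1 + Real.log N ≤ (N : ℝ) ^ ε + (N : ℝ) ^ ε / ε := add_le_add h2 h1
    _ = _ := by ring

theorem trivial_le (N : ℕ) (α : ℝ) :
    ‖∑ n ∈ Icc 1 N, (vonMangoldt n : ℂ) * e ((n : ℝ) * α)‖ ≤ N * (1 + Real.log N) := by
  have h1 : ∀ n ∈ Icc 1 N, ‖(vonMangoldt n : ℂ) * e ((n : ℝ) * α)‖ ≤ 1 + Real.log N := by
    intro n hn
    rw [norm_mul, norm_e, mul_one, Complex.norm_real, Real.norm_eq_abs,
      abs_of_nonneg vonMangoldt_nonneg]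
    exact Lam_le hn
  refine (norm_sum_le _ _).trans ((Finset.sum_le_sum h1).trans (le_of_eq ?_))
  rw [Finset.sum_const, Nat.card_Icc, nsmul_eq_mul]
  simp

end M3

open M3

theorem minorStmt : MinorStmt := by
  intro κ hκ0 hκ1
  set ε := κ / 64 with hε
  have hε0 : 0 < ε := by positivity
  set K := 1 + 1 / ε with hK
  have hK1 : 1 ≤ K := by
    have : 0 < 1 / ε := by positivity
    linarith
  refine ⟨κ / 16, 12 * K ^ 4, by positivity, by positivity, ?_⟩
  intro N q a α hN hq ha hα hqκ hqN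
  have hN' : (1 : ℝ) ≤ N := by exact_mod_cast hN
  have hN0 : (0 : ℝ) < N := by linarith
  have hq' : (1 : ℝ) ≤ q := by exact_mod_cast hq
  have hL := log_bound hε0 hN
  rw [← hK] at hL
  have hL1 : 1 ≤ 1 + Real.log N := by
    have := Real.log_natCast_nonneg N
    linarith
  set L := 1 + Real.log N with hLdef
  have hKK : K ≤ K ^ 4 := by
    calc K = K ^ 1 := (pow_one K).symm
      _ ≤ K ^ 4 := pow_le_pow_right₀ hK1 (by norm_num)
  by_cases hsmall : (N : ℝ) ^ (κ / 2) < 2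
  · refine (trivial_le N α).trans ?_
    have h1 : (N : ℝ) * L ≤ N * (K * (N : ℝ) ^ ε) := mul_le_mul_of_nonneg_left hL hN0.le
    have h2 : (N : ℝ) * (N : ℝ) ^ ε = (N : ℝ) ^ (1 - κ / 16) * (N : ℝ) ^ (κ / 16 + ε) := by
      rw [← Real.rpow_add hN0]
      nth_rewrite 1 [← Real.rpow_one (N : ℝ)]
      rw [← Real.rpow_add hN0]
      congr 1
      ring
    have h3 : (N : ℝ) ^ (κ / 16 + ε) ≤ (N : ℝ) ^ (κ / 2) :=
      Real.rpow_le_rpow_of_exponent_le hN' (by rw [hε]; linarith)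
    have h4 : 0 < (N : ℝ) ^ (1 - κ / 16) := Real.rpow_pos_of_pos hN0 _
    calc (N : ℝ) * L ≤ K * (N * (N : ℝ) ^ ε) := by linarith
      _ = K * ((N : ℝ) ^ (1 - κ / 16) * (N : ℝ) ^ (κ / 16 + ε)) := by rw [h2]
      _ ≤ K * ((N : ℝ) ^ (1 - κ / 16) * 2) := by
          gcongr
          linarith
      _ = 2 * K * (N : ℝ) ^ (1 - κ / 16) := by ring
      _ ≤ 12 * K ^ 4 * (N : ℝ) ^ (1 - κ / 16) := by
          apply mul_le_mul_of_nonneg_right _ h4.le
          linarith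
  · push Not at hsmall
    set y := (N : ℝ) ^ (κ / 4) with hy
    have hy1 : 1 ≤ y := Real.one_le_rpow hN' (by positivity)
    set Y := ⌊y⌋₊ with hYdef
    have hY1 : 1 ≤ Y := Nat.le_floor (by exact_mod_cast hy1)
    have hYy : (Y : ℝ) ≤ y := Nat.floor_le (by linarith)
    have hyY : y < Y + 1 := Nat.lt_floor_add_one y
    have hyy : y * y = (N : ℝ) ^ (κ / 2) := by
      rw [hy, ← Real.rpow_add hN0]; congr 1; ring
    have hYY : (Y : ℝ) * Y ≤ (N : ℝ) ^ (κ / 2) := by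
      rw [← hyy]; exact mul_le_mul hYy hYy (by positivity) (by linarith)
    have hκκ : (N : ℝ) ^ (κ / 2) * (N : ℝ) ^ (κ / 2) = (N : ℝ) ^ κ := by
      rw [← Real.rpow_add hN0]; congr 1; ring
    have hY2 : 2 * (Y * Y) ≤ q := by
      have : (2 : ℝ) * (Y * Y) ≤ q := by
        calc (2 : ℝ) * (Y * Y) ≤ (N : ℝ) ^ (κ / 2) * (N : ℝ) ^ (κ / 2) :=
              mul_le_mul hsmall hYY (by positivity) (by positivity)
          _ ≤ q := by rw [hκκ]; exact hqκ
      exact_mod_cast this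
    have hqN' : q ≤ N := by
      have h1 : (N : ℝ) ^ (1 - κ) ≤ (N : ℝ) ^ (1 : ℝ) :=
        Real.rpow_le_rpow_of_exponent_le hN' (by linarith)
      rw [Real.rpow_one] at h1
      exact_mod_cast hqN.trans h1
    refine (minor_pre hq ha hα hqN' hY2 hY1).trans ?_
    set P := (N : ℝ) ^ (1 - κ / 8) with hP
    have hP0 : 0 < P := Real.rpow_pos_of_pos hN0 _
    have hL4 : L ≤ L ^ 4 := by
      calc L = L ^ 1 := (pow_one L).symm
        _ ≤ L ^ 4 := pow_le_pow_right₀ hL1 (by norm_num)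
    have h1 : 5 * (Y * Y * q) * L ≤ 5 * P * L ^ 4 := by
      have h2 : (Y : ℝ) * Y * q ≤ P := by
        calc (Y : ℝ) * Y * q ≤ (N : ℝ) ^ (κ / 2) * (N : ℝ) ^ (1 - κ) :=
              mul_le_mul hYY hqN (by positivity) (by positivity)
          _ = (N : ℝ) ^ (1 - κ / 2) := by rw [← Real.rpow_add hN0]; congr 1; ring
          _ ≤ P := Real.rpow_le_rpow_of_exponent_le hN' (by linarith)
      have h3 : (Y : ℝ) * Y * q * L ≤ P * L ^ 4 :=
        mul_le_mul h2 hL4 (by linarith) hP0.le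
      linarith
    have h2 : Real.sqrt (L ^ 8 * (2 * (N : ℝ) ^ 2 * (8 / q + 12 / (Y + 1) + 4 * q / N))) ≤
        7 * P * L ^ 4 := by
      apply Real.sqrt_le_iff.2
      refine ⟨by positivity, ?_⟩
      set z := (N : ℝ) ^ (-(κ / 4)) with hz
      have hz0 : 0 < z := Real.rpow_pos_of_pos hN0 _
      have hyz : y * z = 1 := by
        rw [hy, hz, ← Real.rpow_add hN0, add_neg_cancel, Real.rpow_zero]
      have h3 : 8 / (q : ℝ) ≤ 8 * z := by
        rw [div_le_iff₀ (by positivity)]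
        have : y ≤ q := by
          calc y ≤ (N : ℝ) ^ κ := Real.rpow_le_rpow_of_exponent_le hN' (by linarith)
            _ ≤ q := hqκ
        nlinarith
      have h4 : 12 / ((Y : ℝ) + 1) ≤ 12 * z := by
        rw [div_le_iff₀ (by positivity)]
        nlinarith
      have h5 : 4 * (q : ℝ) / N ≤ 4 * z := by
        rw [div_le_iff₀ hN0]
        have h6 : (N : ℝ) ^ (1 - κ) ≤ z * N := by
          nth_rewrite 2 [← Real.rpow_one (N : ℝ)]
          rw [hz, ← Real.rpow_add hN0]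
          exact Real.rpow_le_rpow_of_exponent_le hN' (by linarith)
        linarith
      have h6 : P ^ 2 = (N : ℝ) ^ 2 * z := by
        rw [hP, hz, ← Real.rpow_natCast, ← Real.rpow_natCast, ← Real.rpow_mul hN0.le,
          ← Real.rpow_add hN0]
        congr 1
        push_cast
        ring
      calc L ^ 8 * (2 * (N : ℝ) ^ 2 * (8 / q + 12 / (Y + 1) + 4 * q / N))
          ≤ L ^ 8 * (2 * (N : ℝ) ^ 2 * (24 * z)) := by
            apply mul_le_mul_of_nonneg_left _ (by positivity)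
            apply mul_le_mul_of_nonneg_left _ (by positivity)
            linarith
        _ = 48 * (P ^ 2 * L ^ 8) := by rw [h6]; ring
        _ ≤ 49 * (P ^ 2 * L ^ 8) := by
            have : 0 ≤ P ^ 2 * L ^ 8 := by positivity
            linarith
        _ = (7 * P * L ^ 4) ^ 2 := by ring
    have h3 : L ^ 4 ≤ K ^ 4 * (N : ℝ) ^ (κ / 16) := by
      calc L ^ 4 ≤ (K * (N : ℝ) ^ ε) ^ 4 := pow_le_pow_left₀ (by linarith) hL 4
        _ = K ^ 4 * (N : ℝ) ^ (κ / 16) := by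
            rw [mul_pow]
            congr 1
            rw [← Real.rpow_natCast, ← Real.rpow_mul hN0.le]
            congr 1
            rw [hε]; push_cast; ring
    have h4 : P * (N : ℝ) ^ (κ / 16) = (N : ℝ) ^ (1 - κ / 16) := by
      rw [hP, ← Real.rpow_add hN0]; congr 1; ring
    calc 5 * (Y * Y * q) * L + Real.sqrt (L ^ 8 *
          (2 * (N : ℝ) ^ 2 * (8 / q + 12 / (Y + 1) + 4 * q / N)))
        ≤ 5 * P * L ^ 4 + 7 * P * L ^ 4 := add_le_add h1 h2
      _ = 12 * (P * L ^ 4) := by ring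
      _ ≤ 12 * (P * (K ^ 4 * (N : ℝ) ^ (κ / 16))) := by gcongr
      _ = 12 * K ^ 4 * (P * (N : ℝ) ^ (κ / 16)) := by ring
      _ = _ := by rw [h4]

end Vale.Agent.P026.TP
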