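import Vale.Agent.P026.TP.Base

/-!
# P026 (three primes), module M5: comparison of ternary convolutions
-/

open Finset ArithmeticFunction

namespace Vale.Agent.P026.TP

/-- The exponential sum of `f` on `[1, N]`. -/
noncomputable def expS (N : ℕ) (f : ℕ → ℂ) (α : ℝ) : ℂ := ∑ n ∈ Icc 1 N, f n * e ((n : ℝ) * α)

/-- The ternary convolution of `f` at `N`. -/
noncomputable def tern (N : ℕ) (f : ℕ → ℂ) : ℂ :=
  ∑ a ∈ Icc 1 N, ∑ b ∈ Icc 1 N, ∑ c ∈ Icc 1 N, (if a + b + c = N then f a * f b * f c else 0)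

/-- Discrete Parseval identity. -/
theorem parseval_disc (N M : ℕ) (hM : N < M) (f : ℕ → ℂ) :
    ∑ k ∈ range M, ‖expS N f ((k : ℝ) / M)‖ ^ 2 = M * ∑ n ∈ Icc 1 N, ‖f n‖ ^ 2 := by
  have hM0 : 0 < M := by omega
  have h1 : ∀ k : ℕ, ((‖expS N f ((k : ℝ) / M)‖ ^ 2 : ℝ) : ℂ) =
      ∑ m ∈ Icc 1 N, ∑ n ∈ Icc 1 N, f m * (starRingEnd ℂ) (f n) *
        e ((k : ℝ) * (((m : ℤ) - n : ℤ) : ℝ) / M) := by
    intro k
    have : ((‖expS N f ((k : ℝ) / M)‖ ^ 2 : ℝ) : ℂ) =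
        expS N f ((k : ℝ) / M) * (starRingEnd ℂ) (expS N f ((k : ℝ) / M)) := by
      rw [Complex.mul_conj, Complex.normSq_eq_norm_sq]
    rw [this]
    unfold expS
    rw [map_sum, Finset.sum_mul_sum]
    refine Finset.sum_congr rfl fun m _ => Finset.sum_congr rfl fun n _ => ?_
    rw [map_mul, conj_e]
    have : e ((m : ℝ) * ((k : ℝ) / M)) * e (-((n : ℝ) * ((k : ℝ) / M))) =
        e ((k : ℝ) * (((m : ℤ) - n : ℤ) : ℝ) / M) := by
      rw [← e_add]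
      congr 1
      push_cast
      ring
    rw [← this]
    ring
  have h2 : ((∑ k ∈ range M, ‖expS N f ((k : ℝ) / M)‖ ^ 2 : ℝ) : ℂ) =
      ((M * ∑ n ∈ Icc 1 N, ‖f n‖ ^ 2 : ℝ) : ℂ) := by
    rw [Complex.ofReal_sum, Finset.sum_congr rfl (fun k _ => h1 k), Finset.sum_comm]
    have h3 : ∀ m ∈ Icc 1 N, ∑ k ∈ range M, ∑ n ∈ Icc 1 N, f m * (starRingEnd ℂ) (f n) *
        e ((k : ℝ) * (((m : ℤ) - n : ℤ) : ℝ) / M) = (M : ℂ) * ((‖f m‖ ^ 2 : ℝ) : ℂ) := by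
      intro m hm
      rw [Finset.sum_comm]
      have h4 : ∀ n ∈ Icc 1 N, ∑ k ∈ range M, f m * (starRingEnd ℂ) (f n) *
          e ((k : ℝ) * (((m : ℤ) - n : ℤ) : ℝ) / M) =
          if n = m then (M : ℂ) * ((‖f m‖ ^ 2 : ℝ) : ℂ) else 0 := by
        intro n hn
        rw [← Finset.mul_sum, geom_e _ _ hM0]
        rw [mem_Icc] at hm hn
        by_cases hnm : n = m
        · subst hnm
          rw [if_pos (by simp), if_pos rfl]
          have : ((‖f n‖ ^ 2 : ℝ) : ℂ) = f n * (starRingEnd ℂ) (f n) := by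
            rw [Complex.mul_conj, Complex.normSq_eq_norm_sq]
          rw [this]; ring
        · rw [if_neg hnm, if_neg, mul_zero]
          intro hd
          have h5 : ((m : ℤ) - n) = 0 := by
            apply Int.eq_zero_of_abs_lt_dvd hd
            rw [abs_lt]
            constructor <;> omega
          omega
      rw [Finset.sum_congr rfl h4, Finset.sum_ite_eq' (Icc 1 N) m, if_pos hm]
    rw [Finset.sum_congr rfl h3]
    push_cast
    rw [Finset.mul_sum]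
  exact_mod_cast h2

/-- The ternary convolution from the exponential sum. -/
theorem tern_eq (N : ℕ) (f : ℕ → ℂ) :
    ((2 * N + 1 : ℕ) : ℂ) * tern N f = ∑ k ∈ range (2 * N + 1),
      expS N f ((k : ℝ) / ((2 * N + 1 : ℕ) : ℝ)) ^ 3 *
        e (-((N : ℝ) * ((k : ℝ) / ((2 * N + 1 : ℕ) : ℝ)))) := by
  set M : ℕ := 2 * N + 1 with hMdef
  have hM0 : 0 < M := by omega
  have key : ∀ (X : ℕ → ℂ) (w : ℂ), (∑ n ∈ Icc 1 N, X n) ^ 3 * w =
      ∑ a ∈ Icc 1 N, ∑ b ∈ Icc 1 N, ∑ c ∈ Icc 1 N, X a * X b * X c * w := by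
    intro X w
    simp only [← Finset.sum_mul, ← Finset.mul_sum]
    ring
  have h1 : ∀ k : ℕ, expS N f ((k : ℝ) / M) ^ 3 * e (-((N : ℝ) * ((k : ℝ) / M))) =
      ∑ a ∈ Icc 1 N, ∑ b ∈ Icc 1 N, ∑ c ∈ Icc 1 N,
        f a * f b * f c * e ((k : ℝ) * (((a : ℤ) + b + c - N : ℤ) : ℝ) / M) := by
    intro k
    unfold expS
    rw [key]
    refine Finset.sum_congr rfl fun a _ => Finset.sum_congr rfl fun b _ =>
      Finset.sum_congr rfl fun c _ => ?_
    have : e ((a : ℝ) * ((k : ℝ) / M)) * e ((b : ℝ) * ((k : ℝ) / M)) *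
        e ((c : ℝ) * ((k : ℝ) / M)) * e (-((N : ℝ) * ((k : ℝ) / M))) =
        e ((k : ℝ) * (((a : ℤ) + b + c - N : ℤ) : ℝ) / M) := by
      rw [← e_add, ← e_add, ← e_add]
      congr 1
      push_cast
      ring
    rw [← this]
    ring
  have h2 : ∑ k ∈ range M, expS N f ((k : ℝ) / M) ^ 3 * e (-((N : ℝ) * ((k : ℝ) / M))) =
      ∑ a ∈ Icc 1 N, ∑ b ∈ Icc 1 N, ∑ c ∈ Icc 1 N, ∑ k ∈ range M,
        f a * f b * f c * e ((k : ℝ) * (((a : ℤ) + b + c - N : ℤ) : ℝ) / M) := by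
    rw [Finset.sum_congr rfl (fun k _ => h1 k), Finset.sum_comm]
    refine Finset.sum_congr rfl fun a _ => ?_
    rw [Finset.sum_comm]
    refine Finset.sum_congr rfl fun b _ => ?_
    rw [Finset.sum_comm]
  rw [h2]
  unfold tern
  rw [Finset.mul_sum]
  refine Finset.sum_congr rfl fun a ha => ?_
  rw [Finset.mul_sum]
  refine Finset.sum_congr rfl fun b hb => ?_
  rw [Finset.mul_sum]
  refine Finset.sum_congr rfl fun c hc => ?_
  rw [← Finset.mul_sum, geom_e _ _ hM0]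
  rw [mem_Icc] at ha hb hc
  by_cases h : a + b + c = N
  · rw [if_pos h, if_pos]
    · ring
    · have : (a : ℤ) + b + c - N = 0 := by omega
      rw [this]; exact dvd_zero _
  · rw [if_neg h, if_neg, mul_zero, mul_zero]
    intro hd
    apply h
    have h5 : ((a : ℤ) + b + c - N) = 0 := by
      apply Int.eq_zero_of_abs_lt_dvd hd
      rw [abs_lt]
      constructor <;> omega
    omega

theorem compareStmt : CompareStmt := by
  intro N f g B L hN hB hL hfg hf hg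
  change ‖tern N f - tern N g‖ ≤ 3 * B * L
  set M : ℕ := 2 * N + 1 with hMdef
  have hM0 : 0 < M := by omega
  have hMR : (0 : ℝ) < M := by exact_mod_cast hM0
  have h1 : (M : ℂ) * (tern N f - tern N g) = ∑ k ∈ range M,
      (expS N f ((k : ℝ) / M) ^ 3 - expS N g ((k : ℝ) / M) ^ 3) *
        e (-((N : ℝ) * ((k : ℝ) / M))) := by
    rw [mul_sub, tern_eq, tern_eq, ← Finset.sum_sub_distrib]
    refine Finset.sum_congr rfl fun k _ => ?_
    ring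
  have h2 : ∀ k : ℕ, ‖(expS N f ((k : ℝ) / M) ^ 3 - expS N g ((k : ℝ) / M) ^ 3) *
        e (-((N : ℝ) * ((k : ℝ) / M)))‖ ≤
      3 / 2 * B * (‖expS N f ((k : ℝ) / M)‖ ^ 2 + ‖expS N g ((k : ℝ) / M)‖ ^ 2) := by
    intro k
    rw [norm_mul, norm_e, mul_one]
    set F := expS N f ((k : ℝ) / M)
    set G := expS N g ((k : ℝ) / M)
    have hFG : ‖F - G‖ ≤ B := by
      have := hfg ((k : ℝ) / M)
      have h3 : F - G = ∑ n ∈ Icc 1 N, (f n - g n) * e ((n : ℝ) * ((k : ℝ) / M)) := by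
        simp only [F, G, expS]
        rw [← Finset.sum_sub_distrib]
        exact Finset.sum_congr rfl fun n _ => by ring
      rw [h3]; exact this
    have h4 : F ^ 3 - G ^ 3 = (F - G) * (F ^ 2 + F * G + G ^ 2) := by ring
    rw [h4, norm_mul]
    have h5 : ‖F ^ 2 + F * G + G ^ 2‖ ≤ 3 / 2 * (‖F‖ ^ 2 + ‖G‖ ^ 2) := by
      calc ‖F ^ 2 + F * G + G ^ 2‖ ≤ ‖F ^ 2‖ + ‖F * G‖ + ‖G ^ 2‖ := norm_add₃_le
        _ = ‖F‖ ^ 2 + ‖F‖ * ‖G‖ + ‖G‖ ^ 2 := by rw [norm_pow, norm_mul, norm_pow]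
        _ ≤ 3 / 2 * (‖F‖ ^ 2 + ‖G‖ ^ 2) := by nlinarith [sq_nonneg (‖F‖ - ‖G‖)]
    calc ‖F - G‖ * ‖F ^ 2 + F * G + G ^ 2‖ ≤ B * (3 / 2 * (‖F‖ ^ 2 + ‖G‖ ^ 2)) :=
          mul_le_mul hFG h5 (norm_nonneg _) hB
      _ = _ := by ring
  have h3 : (M : ℝ) * ‖tern N f - tern N g‖ ≤ M * (3 * B * L) := by
    have : (M : ℝ) * ‖tern N f - tern N g‖ = ‖(M : ℂ) * (tern N f - tern N g)‖ := by
      rw [norm_mul, Complex.norm_natCast]
    rw [this, h1]
    calc _ ≤ ∑ k ∈ range M, ‖(expS N f ((k : ℝ) / M) ^ 3 - expS N g ((k : ℝ) / M) ^ 3) *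
          e (-((N : ℝ) * ((k : ℝ) / M)))‖ := norm_sum_le _ _
      _ ≤ ∑ k ∈ range M, 3 / 2 * B *
          (‖expS N f ((k : ℝ) / M)‖ ^ 2 + ‖expS N g ((k : ℝ) / M)‖ ^ 2) :=
          Finset.sum_le_sum fun k _ => h2 k
      _ = 3 / 2 * B * ((M : ℝ) * ∑ n ∈ Icc 1 N, ‖f n‖ ^ 2 + M * ∑ n ∈ Icc 1 N, ‖g n‖ ^ 2) := by
          rw [← Finset.mul_sum, Finset.sum_add_distrib, parseval_disc N M (by omega) f,
            parseval_disc N M (by omega) g]
      _ ≤ 3 / 2 * B * ((M : ℝ) * L + M * L) := by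
          gcongr
      _ = _ := by ring
  exact le_of_mul_le_mul_left h3 hMR

end Vale.Agent.P026.TP
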