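import Vale.Agent.P026.TP.M6

/-!
# P026 (three primes), module M6b: the ternary convolution of the model
-/

open Finset ArithmeticFunction

namespace Vale.Agent.P026.TP

/-- The ternary correlation of three additive characters. -/
noncomputable def E3 (N : ℕ) (x y z : ℝ) : ℂ :=
  ∑ a ∈ Icc 1 N, ∑ b ∈ Icc 1 N, ∑ c ∈ Icc 1 N,
    if a + b + c = N then e ((a : ℝ) * x) * e ((b : ℝ) * y) * e ((c : ℝ) * z) else 0

/-- The number of representations, as a complex number. -/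
noncomputable def cnt3 (N : ℕ) : ℂ :=
  ∑ a ∈ Icc 1 N, ∑ b ∈ Icc 1 N, ∑ c ∈ Icc 1 N, if a + b + c = N then (1 : ℂ) else 0

theorem E3_swap (N : ℕ) (x y z : ℝ) : E3 N x y z = E3 N z y x := by
  unfold E3
  have h1 : ∑ a ∈ Icc 1 N, ∑ b ∈ Icc 1 N, ∑ c ∈ Icc 1 N,
      (if a + b + c = N then e ((a : ℝ) * x) * e ((b : ℝ) * y) * e ((c : ℝ) * z) else 0) =
      ∑ b ∈ Icc 1 N, ∑ a ∈ Icc 1 N, ∑ c ∈ Icc 1 N,
      (if a + b + c = N then e ((a : ℝ) * x) * e ((b : ℝ) * y) * e ((c : ℝ) * z) else 0) :=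
    Finset.sum_comm
  have h2 : ∑ a ∈ Icc 1 N, ∑ b ∈ Icc 1 N, ∑ c ∈ Icc 1 N,
      (if a + b + c = N then e ((a : ℝ) * z) * e ((b : ℝ) * y) * e ((c : ℝ) * x) else 0) =
      ∑ b ∈ Icc 1 N, ∑ a ∈ Icc 1 N, ∑ c ∈ Icc 1 N,
      (if a + b + c = N then e ((a : ℝ) * z) * e ((b : ℝ) * y) * e ((c : ℝ) * x) else 0) :=
    Finset.sum_comm
  rw [h1, h2]
  refine Finset.sum_congr rfl fun b _ => ?_
  rw [Finset.sum_comm]
  refine Finset.sum_congr rfl fun c _ => Finset.sum_congr rfl fun a _ => ?_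
  by_cases h : a + b + c = N
  · rw [if_pos h, if_pos (by omega)]
    ring
  · rw [if_neg h, if_neg (by omega)]

/-- The inner double sum. -/
theorem inner_eq (N c : ℕ) (hc : c ∈ Icc 1 N) (x y z : ℝ) :
    ∑ a ∈ Icc 1 N, ∑ b ∈ Icc 1 N,
      (if a + b + c = N then e ((a : ℝ) * x) * e ((b : ℝ) * y) * e ((c : ℝ) * z) else 0) =
    e ((c : ℝ) * z) * e (((N : ℝ) - c) * y) * ∑ a ∈ Icc 1 (N - c - 1), e ((a : ℝ) * (x - y)) := by
  rw [mem_Icc] at hc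
  have h1 : Icc 1 (N - c - 1) ⊆ Icc 1 N := by
    intro a ha
    rw [mem_Icc] at ha ⊢
    omega
  rw [← Finset.sum_subset h1, Finset.mul_sum]
  · refine Finset.sum_congr rfl fun a ha => ?_
    rw [mem_Icc] at ha
    rw [Finset.sum_eq_single (N - a - c)]
    · rw [if_pos (by omega)]
      have h2 : ((N - a - c : ℕ) : ℝ) = N - a - c := by
        rw [Nat.cast_sub (by omega), Nat.cast_sub (by omega)]
      rw [h2]
      have h3 : e (((N : ℝ) - c) * y) * e ((a : ℝ) * (x - y)) =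
          e ((a : ℝ) * x) * e (((N : ℝ) - a - c) * y) := by
        rw [← e_add, ← e_add]
        congr 1
        ring
      linear_combination (-(e ((c : ℝ) * z))) * h3
    · intro b _ hb
      rw [if_neg (by omega)]
    · intro hb
      rw [mem_Icc] at hb
      omega
  · intro a ha ha'
    rw [mem_Icc] at ha ha'
    refine Finset.sum_eq_zero fun b hb => ?_
    rw [mem_Icc] at hb
    rw [if_neg (by omega)]

theorem E3_eq_sum (N : ℕ) (x y z : ℝ) : E3 N x y z = ∑ c ∈ Icc 1 N,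
    e ((c : ℝ) * z) * e (((N : ℝ) - c) * y) * ∑ a ∈ Icc 1 (N - c - 1), e ((a : ℝ) * (x - y)) := by
  unfold E3
  have h1 : ∑ a ∈ Icc 1 N, ∑ b ∈ Icc 1 N, ∑ c ∈ Icc 1 N,
      (if a + b + c = N then e ((a : ℝ) * x) * e ((b : ℝ) * y) * e ((c : ℝ) * z) else 0) =
      ∑ c ∈ Icc 1 N, ∑ a ∈ Icc 1 N, ∑ b ∈ Icc 1 N,
      (if a + b + c = N then e ((a : ℝ) * x) * e ((b : ℝ) * y) * e ((c : ℝ) * z) else 0) := by
    rw [Finset.sum_congr rfl (fun a _ => Finset.sum_comm), Finset.sum_comm]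
  rw [h1]
  exact Finset.sum_congr rfl fun c hc => inner_eq N c hc x y z

theorem E3_bound (N : ℕ) (x y z : ℝ) (h : ℤ) (M : ℕ) (hM : 1 ≤ M) (hd : ¬ (M : ℤ) ∣ h)
    (hxy : x - y = (h : ℝ) / M) : ‖E3 N x y z‖ ≤ M * N := by
  rw [E3_eq_sum]
  calc _ ≤ ∑ c ∈ Icc 1 N, ‖e ((c : ℝ) * z) * e (((N : ℝ) - c) * y) *
        ∑ a ∈ Icc 1 (N - c - 1), e ((a : ℝ) * (x - y))‖ := norm_sum_le _ _
    _ ≤ ∑ c ∈ Icc 1 N, (M : ℝ) := by
        refine Finset.sum_le_sum fun c _ => ?_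
        rw [norm_mul, norm_mul, norm_e, norm_e, one_mul, one_mul, hxy]
        exact geom_bound h M hM hd _
    _ = M * N := by simp [mul_comm]

theorem E3_diag (N : ℕ) (x : ℝ) : E3 N x x x = e ((N : ℝ) * x) * cnt3 N := by
  unfold E3 cnt3
  simp only [Finset.mul_sum]
  refine Finset.sum_congr rfl fun a _ => Finset.sum_congr rfl fun b _ =>
    Finset.sum_congr rfl fun c _ => ?_
  split_ifs with h
  · rw [← e_add, ← e_add, mul_one, ← h]
    congr 1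
    push_cast
    ring
  · rw [mul_zero]

theorem cnt3_eq (N : ℕ) : cnt3 N = ∑ c ∈ Icc 1 N, ((N - c - 1 : ℕ) : ℂ) := by
  have h1 : cnt3 N = E3 N 0 0 0 := by
    rw [E3_diag]
    simp [e_zero]
  rw [h1, E3_eq_sum]
  refine Finset.sum_congr rfl fun c _ => ?_
  simp [e_zero]

theorem sum_aux (N : ℕ) : (∑ c ∈ Icc 1 N, (N - c - 1)) * 2 = (N - 1) * (N - 2) := by
  have h1 : ∑ c ∈ Icc 1 N, (N - c - 1) = ∑ k ∈ range (N - 1), k := by
    rcases Nat.eq_zero_or_pos N with rfl | hN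
    · simp
    have h2 : ∑ c ∈ Icc 1 N, (N - c - 1) = ∑ k ∈ range N, (k - 1) := by
      refine Finset.sum_nbij' (fun c => N - c) (fun k => N - k) ?_ ?_ ?_ ?_ ?_
      · intro c hc; rw [mem_Icc] at hc; rw [mem_range]; omega
      · intro k hk; rw [mem_range] at hk; rw [mem_Icc]; omega
      · intro c hc; rw [mem_Icc] at hc; omega
      · intro k hk; rw [mem_range] at hk; omega
      · intro c _; rfl
    rw [h2]
    obtain ⟨m, rfl⟩ : ∃ m, N = m + 1 := ⟨N - 1, by omega⟩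
    rw [Finset.sum_range_succ']
    simp
  rw [h1, Finset.sum_range_id_mul_two]
  congr 1

theorem cnt3_bound (N : ℕ) (hN : 1 ≤ N) : ‖cnt3 N - (N : ℂ) ^ 2 / 2‖ ≤ 3 / 2 * N := by
  have hNR : (1 : ℝ) ≤ N := by exact_mod_cast hN
  have h1 : (2 : ℂ) * cnt3 N = (((N - 1) * (N - 2) : ℕ) : ℂ) := by
    rw [cnt3_eq, ← sum_aux]
    push_cast
    ring
  have h2 : cnt3 N - (N : ℂ) ^ 2 / 2 =
      ((((((N - 1) * (N - 2) : ℕ) : ℝ) - (N : ℝ) ^ 2) / 2 : ℝ) : ℂ) := by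
    have : cnt3 N = (((N - 1) * (N - 2) : ℕ) : ℂ) / 2 := by
      rw [← h1]; ring
    rw [this]
    push_cast
    ring
  rw [h2, Complex.norm_real, Real.norm_eq_abs, abs_le]
  rcases Nat.lt_or_ge N 2 with h3 | h3
  · have : N = 1 := by omega
    subst this
    norm_num
  · have h4 : (((N - 1) * (N - 2) : ℕ) : ℝ) = ((N : ℝ) - 1) * (N - 2) := by
      rw [Nat.cast_mul, Nat.cast_sub hN, Nat.cast_sub h3]
      norm_num
    rw [h4]
    constructor <;> nlinarith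

theorem tern_model (N Q : ℕ) :
    ∑ a ∈ Icc 1 N, ∑ b ∈ Icc 1 N, ∑ c ∈ Icc 1 N,
      (if a + b + c = N then lamQ Q a * lamQ Q b * lamQ Q c else 0) =
    ∑ i ∈ frac Q, ∑ j ∈ frac Q, ∑ k ∈ frac Q, wt i * wt j * wt k * E3 N (bt i) (bt j) (bt k) := by
  have key : ∀ (X Y Z : (Σ _ : ℕ, ℕ) → ℂ), (∑ i ∈ frac Q, X i) * (∑ i ∈ frac Q, Y i) *
      (∑ i ∈ frac Q, Z i) =
      ∑ i ∈ frac Q, ∑ j ∈ frac Q, ∑ k ∈ frac Q, X i * Y j * Z k := by
    intro X Y Z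
    simp only [← Finset.sum_mul, ← Finset.mul_sum]
  have h1 : ∀ a b c : ℕ, (if a + b + c = N then lamQ Q a * lamQ Q b * lamQ Q c else 0) =
      ∑ i ∈ frac Q, ∑ j ∈ frac Q, ∑ k ∈ frac Q, wt i * wt j * wt k *
        (if a + b + c = N then e ((a : ℝ) * bt i) * e ((b : ℝ) * bt j) * e ((c : ℝ) * bt k)
          else 0) := by
    intro a b c
    split_ifs
    · rw [lamQ_eq, lamQ_eq, lamQ_eq, key]
      refine Finset.sum_congr rfl fun i _ => Finset.sum_congr rfl fun j _ =>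
        Finset.sum_congr rfl fun k _ => ?_
      ring
    · simp
  have h2 : ∀ (F : ℕ → ℕ → ℕ → (Σ _ : ℕ, ℕ) → (Σ _ : ℕ, ℕ) → (Σ _ : ℕ, ℕ) → ℂ),
      ∑ a ∈ Icc 1 N, ∑ b ∈ Icc 1 N, ∑ c ∈ Icc 1 N,
        ∑ i ∈ frac Q, ∑ j ∈ frac Q, ∑ k ∈ frac Q, F a b c i j k =
      ∑ i ∈ frac Q, ∑ j ∈ frac Q, ∑ k ∈ frac Q,
        ∑ a ∈ Icc 1 N, ∑ b ∈ Icc 1 N, ∑ c ∈ Icc 1 N, F a b c i j k := by
    intro F
    have hL : ∑ a ∈ Icc 1 N, ∑ b ∈ Icc 1 N, ∑ c ∈ Icc 1 N,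
        ∑ i ∈ frac Q, ∑ j ∈ frac Q, ∑ k ∈ frac Q, F a b c i j k =
        ∑ s ∈ Icc 1 N ×ˢ (Icc 1 N ×ˢ Icc 1 N), ∑ t ∈ frac Q ×ˢ (frac Q ×ˢ frac Q),
          F s.1 s.2.1 s.2.2 t.1 t.2.1 t.2.2 := by
      simp only [Finset.sum_product]
    have hR : ∑ i ∈ frac Q, ∑ j ∈ frac Q, ∑ k ∈ frac Q,
        ∑ a ∈ Icc 1 N, ∑ b ∈ Icc 1 N, ∑ c ∈ Icc 1 N, F a b c i j k =
        ∑ t ∈ frac Q ×ˢ (frac Q ×ˢ frac Q), ∑ s ∈ Icc 1 N ×ˢ (Icc 1 N ×ˢ Icc 1 N),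
          F s.1 s.2.1 s.2.2 t.1 t.2.1 t.2.2 := by
      simp only [Finset.sum_product]
    rw [hL, hR, Finset.sum_comm]
  calc _ = ∑ a ∈ Icc 1 N, ∑ b ∈ Icc 1 N, ∑ c ∈ Icc 1 N,
        ∑ i ∈ frac Q, ∑ j ∈ frac Q, ∑ k ∈ frac Q, wt i * wt j * wt k *
        (if a + b + c = N then e ((a : ℝ) * bt i) * e ((b : ℝ) * bt j) * e ((c : ℝ) * bt k)
          else 0) :=
        Finset.sum_congr rfl fun a _ => Finset.sum_congr rfl fun b _ =>
          Finset.sum_congr rfl fun c _ => h1 a b c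
    _ = _ := by
        rw [h2]
        refine Finset.sum_congr rfl fun i _ => Finset.sum_congr rfl fun j _ =>
          Finset.sum_congr rfl fun k _ => ?_
        unfold E3
        simp only [Finset.mul_sum]

theorem norm_wt_le_one (i : Σ _ : ℕ, ℕ) (hi : 1 ≤ i.1) : ‖wt i‖ ≤ 1 := by
  refine (norm_wt_le i hi).trans ?_
  have : (1 : ℝ) ≤ Nat.totient i.1 := by exact_mod_cast Nat.totient_pos.mpr hi
  rw [div_le_one (by linarith)]
  exact this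

theorem sum_norm_wt_le (Q : ℕ) : ∑ i ∈ frac Q, ‖wt i‖ ≤ Q := by
  have h1 := sum_frac_le Q (fun _ => 1) (fun i => ‖wt i‖) (fun i hi => norm_wt_le i hi)
  simpa using h1

theorem moebius_pow_three (q : ℕ) : moebius q ^ 3 = moebius q := by
  by_cases h : Squarefree q
  · have := moebius_apply_of_squarefree h
    rw [this, ← pow_mul, mul_comm, pow_mul]
    norm_num
  · rw [moebius_eq_zero_of_not_squarefree h]
    norm_num

theorem sum_wt_cube (N Q : ℕ) :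
    ∑ i ∈ frac Q, wt i ^ 3 * e ((N : ℝ) * bt i) =
      ∑ q ∈ Icc 1 Q, ((moebius q : ℤ) : ℂ) / (Nat.totient q : ℂ) ^ 3 * ram q N := by
  unfold frac
  rw [Finset.sum_sigma]
  refine Finset.sum_congr rfl fun q _ => ?_
  unfold ram
  rw [Finset.mul_sum]
  refine Finset.sum_congr rfl fun a _ => ?_
  unfold wt bt
  have h1 : (((moebius q : ℤ) : ℂ)) ^ 3 = ((moebius q : ℤ) : ℂ) := by
    have := moebius_pow_three q
    exact_mod_cast this
  rw [div_pow, h1]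
  congr 2
  ring

theorem modelStmt : ModelStmt := by
  refine ⟨5 / 2, fun N Q hN hQ => ?_⟩
  have hNR : (1 : ℝ) ≤ N := by exact_mod_cast hN
  have hQR : (1 : ℝ) ≤ Q := by exact_mod_cast hQ
  rw [tern_model, ← sum_wt_cube]
  -- split off the diagonal
  have h1 : ∑ i ∈ frac Q, wt i ^ 3 * e ((N : ℝ) * bt i) * cnt3 N =
      ∑ i ∈ frac Q, ∑ j ∈ frac Q, ∑ k ∈ frac Q,
        if j = i ∧ k = i then wt i * wt j * wt k * E3 N (bt i) (bt j) (bt k) else 0 := by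
    refine Finset.sum_congr rfl fun i hi => ?_
    rw [Finset.sum_eq_single i]
    · rw [Finset.sum_eq_single i]
      · rw [if_pos ⟨rfl, rfl⟩, E3_diag]
        ring
      · intro k _ hk
        rw [if_neg (fun h => hk h.2)]
      · intro h; exact absurd hi h
    · intro j _ hj
      refine Finset.sum_eq_zero fun k _ => ?_
      rw [if_neg (fun h => hj h.1)]
    · intro h; exact absurd hi h
  have h2 : ∀ i ∈ frac Q, ∀ j ∈ frac Q, ∀ k ∈ frac Q, ‖wt i * wt j * wt k *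
      E3 N (bt i) (bt j) (bt k) - (if j = i ∧ k = i then
        wt i * wt j * wt k * E3 N (bt i) (bt j) (bt k) else 0)‖ ≤
      ‖wt i‖ * ‖wt j‖ * ‖wt k‖ * ((Q : ℝ) ^ 2 * N) := by
    intro i hi j hj k hk
    by_cases hd : j = i ∧ k = i
    · rw [if_pos hd, sub_self, norm_zero]
      positivity
    · rw [if_neg hd, sub_zero, norm_mul, norm_mul, norm_mul]
      refine mul_le_mul_of_nonneg_left ?_ (by positivity)
      have hbd : ∀ {u v : Σ _ : ℕ, ℕ}, u ∈ frac Q → v ∈ frac Q →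
          ((u.1 * v.1 : ℕ) : ℝ) ≤ (Q : ℝ) ^ 2 := by
        intro u v hu hv
        rw [mem_frac] at hu hv
        have : u.1 * v.1 ≤ Q * Q := Nat.mul_le_mul hu.1.2 hv.1.2
        calc ((u.1 * v.1 : ℕ) : ℝ) ≤ ((Q * Q : ℕ) : ℝ) := by exact_mod_cast this
          _ = (Q : ℝ) ^ 2 := by push_cast; ring
      have hpos : ∀ {u v : Σ _ : ℕ, ℕ}, u ∈ frac Q → v ∈ frac Q → 1 ≤ u.1 * v.1 := by
        intro u v hu hv
        rw [mem_frac] at hu hv
        exact Nat.mul_pos hu.1.1 hv.1.1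
      by_cases hij : i = j
      · have hjk : k ≠ j := by
          intro h
          exact hd ⟨hij.symm, by rw [h, hij]⟩
        obtain ⟨h, hh, hdv⟩ := frac_diff hk hj hjk
        rw [E3_swap]
        refine (E3_bound N _ _ _ h _ (hpos hk hj) hdv hh).trans ?_
        exact mul_le_mul_of_nonneg_right (hbd hk hj) (by positivity)
      · obtain ⟨h, hh, hdv⟩ := frac_diff hi hj hij
        refine (E3_bound N _ _ _ h _ (hpos hi hj) hdv hh).trans ?_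
        exact mul_le_mul_of_nonneg_right (hbd hi hj) (by positivity)
  have h3 : ‖∑ i ∈ frac Q, ∑ j ∈ frac Q, ∑ k ∈ frac Q,
      wt i * wt j * wt k * E3 N (bt i) (bt j) (bt k) -
      ∑ i ∈ frac Q, wt i ^ 3 * e ((N : ℝ) * bt i) * cnt3 N‖ ≤ (Q : ℝ) ^ 5 * N := by
    rw [h1]
    simp only [← Finset.sum_sub_distrib]
    calc _ ≤ ∑ i ∈ frac Q, ∑ j ∈ frac Q, ∑ k ∈ frac Q,
          ‖wt i‖ * ‖wt j‖ * ‖wt k‖ * ((Q : ℝ) ^ 2 * N) := by
          refine (norm_sum_le _ _).trans (Finset.sum_le_sum fun i hi => ?_)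
          refine (norm_sum_le _ _).trans (Finset.sum_le_sum fun j hj => ?_)
          refine (norm_sum_le _ _).trans (Finset.sum_le_sum fun k hk => ?_)
          exact h2 i hi j hj k hk
      _ = (∑ i ∈ frac Q, ‖wt i‖) ^ 3 * ((Q : ℝ) ^ 2 * N) := by
          simp only [← Finset.sum_mul, ← Finset.mul_sum]
          ring
      _ ≤ (Q : ℝ) ^ 3 * ((Q : ℝ) ^ 2 * N) := by
          have h4 : 0 ≤ ∑ i ∈ frac Q, ‖wt i‖ := Finset.sum_nonneg fun i _ => norm_nonneg _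
          gcongr
          exact sum_norm_wt_le Q
      _ = (Q : ℝ) ^ 5 * N := by ring
  have h4 : ‖∑ i ∈ frac Q, wt i ^ 3 * e ((N : ℝ) * bt i)‖ ≤ Q := by
    refine (norm_sum_le _ _).trans ?_
    refine le_trans (Finset.sum_le_sum fun i hi => ?_) (sum_norm_wt_le Q)
    rw [mem_frac] at hi
    rw [norm_mul, norm_e, mul_one, norm_pow]
    have h5 := norm_wt_le_one i hi.1.1
    have h6 := norm_nonneg (wt i)
    calc ‖wt i‖ ^ 3 ≤ ‖wt i‖ ^ 1 := pow_le_pow_of_le_one h6 h5 (by norm_num)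
      _ = ‖wt i‖ := pow_one _
  have h5 : ∑ i ∈ frac Q, wt i ^ 3 * e ((N : ℝ) * bt i) * cnt3 N =
      (∑ i ∈ frac Q, wt i ^ 3 * e ((N : ℝ) * bt i)) * cnt3 N := by rw [Finset.sum_mul]
  have h6 : (∑ i ∈ frac Q, ∑ j ∈ frac Q, ∑ k ∈ frac Q,
      wt i * wt j * wt k * E3 N (bt i) (bt j) (bt k)) -
      (∑ i ∈ frac Q, wt i ^ 3 * e ((N : ℝ) * bt i)) * (N : ℂ) ^ 2 / 2 =
      ((∑ i ∈ frac Q, ∑ j ∈ frac Q, ∑ k ∈ frac Q,
      wt i * wt j * wt k * E3 N (bt i) (bt j) (bt k)) -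
      ∑ i ∈ frac Q, wt i ^ 3 * e ((N : ℝ) * bt i) * cnt3 N) +
      (∑ i ∈ frac Q, wt i ^ 3 * e ((N : ℝ) * bt i)) * (cnt3 N - (N : ℂ) ^ 2 / 2) := by
    rw [h5]
    ring
  rw [h6]
  calc _ ≤ (Q : ℝ) ^ 5 * N + Q * (3 / 2 * N) := by
        refine (norm_add_le _ _).trans (add_le_add h3 ?_)
        rw [norm_mul]
        exact mul_le_mul h4 (cnt3_bound N hN) (norm_nonneg _) (by positivity)
    _ ≤ 5 / 2 * (Q : ℝ) ^ 5 * N := by
        have h7 : (Q : ℝ) ≤ (Q : ℝ) ^ 5 := by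
          calc (Q : ℝ) = (Q : ℝ) ^ 1 := (pow_one _).symm
            _ ≤ (Q : ℝ) ^ 5 := pow_le_pow_right₀ hQR (by norm_num)
        nlinarith [mul_le_mul_of_nonneg_right h7 (by positivity : (0 : ℝ) ≤ N)]

end Vale.Agent.P026.TP
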