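import Mathlib
import Vale.Agent.P026.TP.Defs

/-! [M9] the forward direction: from the modules to Vinogradov's theorem with a power saving. -/

open Finset Real ArithmeticFunction

namespace Vale.Agent.P026.TP

theorem vm_zero : vonMangoldt 0 = 0 := by simp

/-- `r3` as a complex ternary convolution over `1 ≤ a, b, c ≤ n`. -/
theorem r3_eq (n : ℕ) : (r3 n : ℂ) =
    ∑ a ∈ Icc 1 n, ∑ b ∈ Icc 1 n, ∑ c ∈ Icc 1 n,
      (if a + b + c = n then (vonMangoldt a : ℂ) * vonMangoldt b * vonMangoldt c else 0) := by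
  unfold r3
  push_cast
  have hr : ∀ (F : ℕ → ℂ), F 0 = 0 → ∑ a ∈ range (n + 1), F a = ∑ a ∈ Icc 1 n, F a := by
    intro F hF
    rw [Finset.sum_range_succ', hF, add_zero]
    have := Finset.sum_Ico_add' (fun a => F a) 0 n 1
    rw [← Finset.range_eq_Ico] at this
    rw [this]
    congr 1
  rw [hr]
  · refine sum_congr rfl fun a _ => ?_
    rw [hr]
    · refine sum_congr rfl fun b _ => ?_
      rw [hr]
      · refine sum_congr rfl fun c _ => ?_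
        split_ifs <;> simp
      · simp [vm_zero]
    · simp [vm_zero]
  · simp [vm_zero]

theorem sum_vm_sq (N : ℕ) (hN : 1 ≤ N) :
    ∑ n ∈ Icc 1 N, ‖(vonMangoldt n : ℂ)‖ ^ 2 ≤ N * (1 + Real.log N) ^ 3 := by
  have hlog : 0 ≤ Real.log N := Real.log_nonneg (by exact_mod_cast hN)
  have h1 : ∀ n ∈ Icc 1 N, ‖(vonMangoldt n : ℂ)‖ ^ 2 ≤ (1 + Real.log N) ^ 3 := by
    intro n hn
    obtain ⟨h2, h3⟩ := mem_Icc.1 hn
    rw [Complex.norm_real, Real.norm_eq_abs, abs_of_nonneg vonMangoldt_nonneg]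
    have h4 : vonMangoldt n ≤ 1 + Real.log N := by
      refine (vonMangoldt_le_log).trans ?_
      have : Real.log n ≤ Real.log N :=
        Real.log_le_log (by exact_mod_cast h2) (by exact_mod_cast h3)
      linarith
    calc vonMangoldt n ^ 2 ≤ (1 + Real.log N) ^ 2 := pow_le_pow_left₀ vonMangoldt_nonneg h4 2
      _ ≤ (1 + Real.log N) ^ 3 := pow_le_pow_right₀ (by linarith) (by norm_num)
  refine (sum_le_card_nsmul _ _ _ h1).trans ?_
  rw [Nat.card_Icc, nsmul_eq_mul, Nat.add_sub_cancel]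

theorem log_pow_le {N : ℝ} (hN : 1 ≤ N) {d : ℝ} (hd : 0 < d) :
    (1 + Real.log N) ^ 3 ≤ (1 + 6 / d) ^ 3 * N ^ (d / 2) := by
  have h1 : Real.log N ≤ N ^ (d / 6) / (d / 6) := Real.log_le_rpow_div (by linarith) (by linarith)
  have h2 : 1 ≤ N ^ (d / 6) := Real.one_le_rpow hN (by linarith)
  have h3 : 1 + Real.log N ≤ (1 + 6 / d) * N ^ (d / 6) := by
    have h4 : N ^ (d / 6) / (d / 6) = 6 / d * N ^ (d / 6) := by field_simp
    rw [h4] at h1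
    linarith
  have hlog : 0 ≤ Real.log N := Real.log_nonneg hN
  have h5 : (N ^ (d / 6)) ^ 3 = N ^ (d / 2) := by
    rw [← Real.rpow_natCast (N ^ (d / 6)) 3, ← Real.rpow_mul (by linarith)]
    congr 1
    push_cast
    ring
  calc (1 + Real.log N) ^ 3 ≤ ((1 + 6 / d) * N ^ (d / 6)) ^ 3 :=
        pow_le_pow_left₀ (by linarith) h3 3
    _ = (1 + 6 / d) ^ 3 * N ^ (d / 2) := by rw [mul_pow, h5]

theorem floor_ge_half {x : ℝ} (hx : 1 ≤ x) : x / 2 ≤ (⌊x⌋₊ : ℝ) := by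
  have h1 : x < (⌊x⌋₊ : ℝ) + 1 := Nat.lt_floor_add_one x
  have h2 : 1 ≤ ⌊x⌋₊ := Nat.floor_pos.2 hx
  have h3 : (1 : ℝ) ≤ (⌊x⌋₊ : ℝ) := by exact_mod_cast h2
  linarith

theorem inv_sqrt_floor {N c : ℝ} (hN : 1 ≤ N) (hc : 0 < c) :
    1 / Real.sqrt (⌊N ^ c⌋₊ : ℝ) ≤ 2 * N ^ (-(c / 2)) := by
  have hN0 : 0 < N := by linarith
  have h1 : 1 ≤ N ^ c := Real.one_le_rpow hN hc.le
  have h2 := floor_ge_half h1
  have h3 : Real.sqrt (N ^ c) = N ^ (c / 2) := by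
    rw [Real.sqrt_eq_rpow, ← Real.rpow_mul hN0.le]
    congr 1
    ring
  have h4 : N ^ (c / 2) / 2 ≤ Real.sqrt (⌊N ^ c⌋₊ : ℝ) := by
    apply Real.le_sqrt_of_sq_le
    rw [div_pow, ← h3, Real.sq_sqrt (by positivity)]
    linarith
  have h5 : 0 < N ^ (c / 2) := Real.rpow_pos_of_pos hN0 _
  calc 1 / Real.sqrt (⌊N ^ c⌋₊ : ℝ) ≤ 1 / (N ^ (c / 2) / 2) :=
        one_div_le_one_div_of_le (by positivity) h4
    _ = 2 * N ^ (-(c / 2)) := by rw [Real.rpow_neg hN0.le]; field_simp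

theorem forward_of (hS : SupStmt) (hC : CompareStmt) (hMS : ModelSqStmt) (hM : ModelStmt)
    (hSing : SingularStmt) : ForwardStmt := by
  rintro ⟨σ₀, hσ, hz⟩
  obtain ⟨c, ds, Cs, hc, hc10, hds, hCs, hsup⟩ := hS σ₀ hσ hz
  obtain ⟨C1, hC1⟩ := hMS
  obtain ⟨C2, hC2⟩ := hM
  obtain ⟨-, C3, hC3⟩ := hSing
  set δ : ℝ := min (min (ds / 2) (1 / 2)) (c / 2) with hδ
  have hδ0 : 0 < δ := lt_min (lt_min (by linarith) (by norm_num)) (by linarith)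
  have hδ1 : δ ≤ ds / 2 := (min_le_left _ _).trans (min_le_left _ _)
  have hδ2 : δ ≤ 1 / 2 := (min_le_left _ _).trans (min_le_right _ _)
  have hδ3 : δ ≤ c / 2 := min_le_right _ _
  set K1 : ℝ := max C1 1 with hK1
  have hK11 : 1 ≤ K1 := le_max_right _ _
  set A1 : ℝ := 3 * Cs * (K1 * (1 + 6 / ds) ^ 3) with hA1
  refine ⟨δ, hδ0, A1 + |C2| + |C3|, ?_⟩
  intro N hN
  have hNr : (1 : ℝ) ≤ N := by exact_mod_cast hN
  have hN0 : (0 : ℝ) < N := by linarith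
  set Q : ℕ := ⌊(N : ℝ) ^ c⌋₊ with hQ
  have hNc : 1 ≤ (N : ℝ) ^ c := Real.one_le_rpow hNr hc.le
  have hQ1 : 1 ≤ Q := Nat.floor_pos.2 hNc
  have hQle : (Q : ℝ) ≤ (N : ℝ) ^ c := Nat.floor_le (by positivity)
  have hQk : ∀ k : ℕ, (Q : ℝ) ^ k ≤ (N : ℝ) ^ (k * c) := by
    intro k
    have := pow_le_pow_left₀ (by positivity) hQle k
    rwa [← Real.rpow_natCast ((N : ℝ) ^ c) k, ← Real.rpow_mul hN0.le, mul_comm c] at this
  have hQ4 : Q ^ 4 ≤ N := by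
    have h1 := hQk 4
    have h2 : (N : ℝ) ^ (((4 : ℕ) : ℝ) * c) ≤ (N : ℝ) ^ (1 : ℝ) :=
      Real.rpow_le_rpow_of_exponent_le hNr (by push_cast; linarith)
    rw [Real.rpow_one] at h2
    exact_mod_cast h1.trans h2
  have hlog : 0 ≤ Real.log N := Real.log_nonneg hNr
  set L : ℝ := K1 * N * (1 + Real.log N) ^ 3 with hL
  have hL0 : 0 ≤ L := by positivity
  have hbase : 0 ≤ (N : ℝ) * (1 + Real.log N) ^ 3 := by positivity
  have hL1 : ∑ n ∈ Icc 1 N, ‖(vonMangoldt n : ℂ)‖ ^ 2 ≤ L := by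
    refine (sum_vm_sq N hN).trans ?_
    rw [hL, mul_assoc]
    exact le_mul_of_one_le_left hbase hK11
  have hL2 : ∑ n ∈ Icc 1 N, ‖lamQ Q n‖ ^ 2 ≤ L := by
    refine (hC1 N Q hN hQ1 hQ4).trans ?_
    rw [hL, mul_assoc, mul_assoc]
    exact mul_le_mul_of_nonneg_right (le_max_left _ _) hbase
  have hcmp := hC N (fun n => (vonMangoldt n : ℂ)) (fun n => lamQ Q n) (Cs * (N : ℝ) ^ (1 - ds)) L
    hN (by positivity) hL0 (fun α => hsup N α hN) hL1 hL2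
  have hmod := hC2 N Q hN hQ1
  have hsing := hC3 N Q hQ1
  rw [← r3_eq] at hcmp
  set T : ℂ := ∑ a ∈ Icc 1 N, ∑ b ∈ Icc 1 N, ∑ c ∈ Icc 1 N,
      (if a + b + c = N then lamQ Q a * lamQ Q b * lamQ Q c else 0) with hT
  set S : ℂ := ∑ q ∈ Icc 1 Q, ((moebius q : ℤ) : ℂ) / (Nat.totient q : ℂ) ^ 3 * ram q N with hSd
  have hkey : ((r3 N - singular N * (N : ℝ) ^ 2 / 2 : ℝ) : ℂ) =
      ((r3 N : ℂ) - T) + (T - S * (N : ℂ) ^ 2 / 2) - ((singular N : ℂ) - S) * ((N : ℂ) ^ 2 / 2) := by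
    push_cast
    ring
  have hb1 : 3 * (Cs * (N : ℝ) ^ (1 - ds)) * L ≤ A1 * (N : ℝ) ^ (2 - δ) := by
    have h1 := log_pow_le hNr hds
    have h2 : 3 * (Cs * (N : ℝ) ^ (1 - ds)) * L ≤ 3 * (Cs * (N : ℝ) ^ (1 - ds)) *
        (K1 * N * ((1 + 6 / ds) ^ 3 * (N : ℝ) ^ (ds / 2))) := by
      rw [hL]
      gcongr
    refine h2.trans ?_
    have h3 : 3 * (Cs * (N : ℝ) ^ (1 - ds)) *
        (K1 * N * ((1 + 6 / ds) ^ 3 * (N : ℝ) ^ (ds / 2))) =
        A1 * ((N : ℝ) ^ (1 - ds) * (N : ℝ) ^ (1 : ℝ) * (N : ℝ) ^ (ds / 2)) := by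
      rw [hA1, Real.rpow_one]
      ring
    rw [h3, ← Real.rpow_add hN0, ← Real.rpow_add hN0]
    apply mul_le_mul_of_nonneg_left _ (by positivity)
    exact Real.rpow_le_rpow_of_exponent_le hNr (by linarith)
  have hb2 : C2 * (Q : ℝ) ^ 5 * N ≤ |C2| * (N : ℝ) ^ (2 - δ) := by
    have h1 : C2 * (Q : ℝ) ^ 5 * N ≤ |C2| * (Q : ℝ) ^ 5 * N := by
      gcongr
      exact le_abs_self _
    refine h1.trans ?_
    have h2 := hQk 5
    have h3 : (Q : ℝ) ^ 5 * N ≤ (N : ℝ) ^ (((5 : ℕ) : ℝ) * c) * (N : ℝ) ^ (1 : ℝ) := by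
      rw [Real.rpow_one]
      exact mul_le_mul_of_nonneg_right h2 hN0.le
    rw [← Real.rpow_add hN0] at h3
    rw [mul_assoc]
    apply mul_le_mul_of_nonneg_left _ (abs_nonneg _)
    refine h3.trans (Real.rpow_le_rpow_of_exponent_le hNr ?_)
    push_cast
    linarith
  have hb3 : C3 / Real.sqrt Q * ((N : ℝ) ^ 2 / 2) ≤ |C3| * (N : ℝ) ^ (2 - δ) := by
    have h1 := inv_sqrt_floor hNr hc
    have h2 : C3 / Real.sqrt Q ≤ |C3| * (2 * (N : ℝ) ^ (-(c / 2))) := by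
      rw [div_eq_mul_one_div]
      exact mul_le_mul (le_abs_self _) h1 (by positivity) (abs_nonneg _)
    have h3 := mul_le_mul_of_nonneg_right h2 (by positivity : 0 ≤ (N : ℝ) ^ 2 / 2)
    refine h3.trans ?_
    have h4 : |C3| * (2 * (N : ℝ) ^ (-(c / 2))) * ((N : ℝ) ^ 2 / 2) =
        |C3| * ((N : ℝ) ^ (-(c / 2)) * (N : ℝ) ^ (2 : ℝ)) := by
      rw [show (2 : ℝ) = ((2 : ℕ) : ℝ) by norm_num, Real.rpow_natCast]
      push_cast
      ring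
    rw [h4, ← Real.rpow_add hN0]
    apply mul_le_mul_of_nonneg_left _ (abs_nonneg _)
    exact Real.rpow_le_rpow_of_exponent_le hNr (by linarith)
  have hfin : ‖((r3 N - singular N * (N : ℝ) ^ 2 / 2 : ℝ) : ℂ)‖ ≤
      3 * (Cs * (N : ℝ) ^ (1 - ds)) * L + C2 * (Q : ℝ) ^ 5 * N +
        C3 / Real.sqrt Q * ((N : ℝ) ^ 2 / 2) := by
    rw [hkey]
    refine (norm_sub_le _ _).trans (add_le_add ((norm_add_le _ _).trans (add_le_add hcmp hmod)) ?_)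
    rw [norm_mul]
    have h1 : ‖((N : ℂ) ^ 2 / 2)‖ = (N : ℝ) ^ 2 / 2 := by
      rw [norm_div, norm_pow, Complex.norm_natCast]
      norm_num
    rw [h1]
    exact mul_le_mul_of_nonneg_right hsing (by positivity)
  rw [Complex.norm_real, Real.norm_eq_abs] at hfin
  linarith

end Vale.Agent.P026.TP
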