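import Vale.Agent.P026.TP.S2
import Vale.Agent.P026.TP.M6b
import Vale.Agent.P026.TP.M5
import Vale.Agent.P026.TP.M9
import Vale.Agent.P026.TP.M24
import Vale.Agent.P026.TP.M3

/-!
# P026 (binary Goldbach in mean square): the forward direction
-/

open Finset ArithmeticFunction

namespace Vale.Agent.P026.TP

/-- The binary convolution of `f` on `[1, N]`. -/
noncomputable def bin (N : ℕ) (f : ℕ → ℂ) (m : ℕ) : ℂ :=
  ∑ a ∈ Icc 1 N, ∑ b ∈ Icc 1 N, (if a + b = m then f a * f b else 0)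

theorem expS_bin (N : ℕ) (f : ℕ → ℂ) (α : ℝ) :
    expS (2 * N) (bin N f) α = expS N f α ^ 2 := by
  unfold expS bin
  rw [sq, Finset.sum_mul_sum]
  have h1 : ∀ m ∈ Icc 1 (2 * N), (∑ a ∈ Icc 1 N, ∑ b ∈ Icc 1 N,
      (if a + b = m then f a * f b else 0)) * e ((m : ℝ) * α) =
      ∑ a ∈ Icc 1 N, ∑ b ∈ Icc 1 N, (if a + b = m then
        (f a * e ((a : ℝ) * α)) * (f b * e ((b : ℝ) * α)) else 0) := by
    intro m _
    simp only [Finset.sum_mul]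
    refine Finset.sum_congr rfl fun a _ => Finset.sum_congr rfl fun b _ => ?_
    split_ifs with h
    · have h2 : e ((m : ℝ) * α) = e ((a : ℝ) * α) * e ((b : ℝ) * α) := by
        rw [← e_add, ← h]
        congr 1
        push_cast
        ring
      rw [h2]; ring
    · rw [zero_mul]
  rw [Finset.sum_congr rfl h1, Finset.sum_comm]
  refine Finset.sum_congr rfl fun a ha => ?_
  rw [Finset.sum_comm]
  refine Finset.sum_congr rfl fun b hb => ?_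
  rw [mem_Icc] at ha hb
  rw [Finset.sum_ite_eq, if_pos (by rw [mem_Icc]; omega)]

/-- Comparison of binary convolutions in mean square. -/
theorem compare2 (N : ℕ) (f g : ℕ → ℂ) (B L : ℝ)
    (hfg : ∀ α : ℝ, ‖∑ n ∈ Icc 1 N, (f n - g n) * e ((n : ℝ) * α)‖ ≤ B)
    (hf : ∑ n ∈ Icc 1 N, ‖f n‖ ^ 2 ≤ L) (hg : ∑ n ∈ Icc 1 N, ‖g n‖ ^ 2 ≤ L) :
    ∑ m ∈ Icc 1 (2 * N), ‖bin N f m - bin N g m‖ ^ 2 ≤ 4 * B ^ 2 * L := by
  set M : ℕ := 2 * N + 1 with hMdef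
  have hM0 : 0 < M := by omega
  have hMR : (0 : ℝ) < M := by exact_mod_cast hM0
  have h1 := parseval_disc (2 * N) M (by omega) (fun m => bin N f m - bin N g m)
  have h2 : ∀ k : ℕ, ‖expS (2 * N) (fun m => bin N f m - bin N g m) ((k : ℝ) / M)‖ ^ 2 ≤
      2 * B ^ 2 * (‖expS N f ((k : ℝ) / M)‖ ^ 2 + ‖expS N g ((k : ℝ) / M)‖ ^ 2) := by
    intro k
    set F := expS N f ((k : ℝ) / M) with hF
    set G := expS N g ((k : ℝ) / M) with hG
    have hFG : ‖F - G‖ ≤ B := by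
      have := hfg ((k : ℝ) / M)
      have h3 : F - G = ∑ n ∈ Icc 1 N, (f n - g n) * e ((n : ℝ) * ((k : ℝ) / M)) := by
        simp only [F, G, expS]
        rw [← Finset.sum_sub_distrib]
        exact Finset.sum_congr rfl fun n _ => by ring
      rw [h3]; exact this
    have h4 : expS (2 * N) (fun m => bin N f m - bin N g m) ((k : ℝ) / M) = (F - G) * (F + G) := by
      have h5 : expS (2 * N) (fun m => bin N f m - bin N g m) ((k : ℝ) / M) =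
          expS (2 * N) (bin N f) ((k : ℝ) / M) - expS (2 * N) (bin N g) ((k : ℝ) / M) := by
        unfold expS
        rw [← Finset.sum_sub_distrib]
        exact Finset.sum_congr rfl fun n _ => by ring
      rw [h5, expS_bin, expS_bin]
      ring
    rw [h4, norm_mul, mul_pow]
    have h6 : ‖F + G‖ ^ 2 ≤ 2 * (‖F‖ ^ 2 + ‖G‖ ^ 2) := by
      calc ‖F + G‖ ^ 2 ≤ (‖F‖ + ‖G‖) ^ 2 := pow_le_pow_left₀ (norm_nonneg _) (norm_add_le _ _) 2
        _ ≤ _ := by nlinarith [sq_nonneg (‖F‖ - ‖G‖)]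
    have h7 : ‖F - G‖ ^ 2 ≤ B ^ 2 := pow_le_pow_left₀ (norm_nonneg _) hFG 2
    calc ‖F - G‖ ^ 2 * ‖F + G‖ ^ 2 ≤ B ^ 2 * (2 * (‖F‖ ^ 2 + ‖G‖ ^ 2)) :=
          mul_le_mul h7 h6 (sq_nonneg _) (sq_nonneg _)
      _ = _ := by ring
  have h3 : (M : ℝ) * ∑ m ∈ Icc 1 (2 * N), ‖bin N f m - bin N g m‖ ^ 2 ≤ M * (4 * B ^ 2 * L) := by
    rw [← h1]
    calc _ ≤ ∑ k ∈ range M, 2 * B ^ 2 *
          (‖expS N f ((k : ℝ) / M)‖ ^ 2 + ‖expS N g ((k : ℝ) / M)‖ ^ 2) :=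
          Finset.sum_le_sum fun k _ => h2 k
      _ = 2 * B ^ 2 * ((M : ℝ) * ∑ n ∈ Icc 1 N, ‖f n‖ ^ 2 + M * ∑ n ∈ Icc 1 N, ‖g n‖ ^ 2) := by
          rw [← Finset.mul_sum, Finset.sum_add_distrib, parseval_disc N M (by omega) f,
            parseval_disc N M (by omega) g]
      _ ≤ 2 * B ^ 2 * ((M : ℝ) * L + M * L) := by
          gcongr
      _ = _ := by ring
  exact le_of_mul_le_mul_left h3 hMR

theorem r2_eq_bin {N n : ℕ} (hn : n ≤ N) : (r2 n : ℂ) = bin N (fun m => (vonMangoldt m : ℂ)) n := by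
  unfold r2 bin
  push_cast
  have hr : ∀ (F : ℕ → ℂ), F 0 = 0 → (∀ a, n < a → F a = 0) →
      ∑ a ∈ range (n + 1), F a = ∑ a ∈ Icc 1 N, F a := by
    intro F hF hF2
    have h1 : range (n + 1) ⊆ range (N + 1) := Finset.range_subset_range.2 (by omega)
    rw [Finset.sum_subset h1]
    · rw [Finset.sum_range_succ', hF, add_zero]
      have := Finset.sum_Ico_add' (fun a => F a) 0 N 1
      rw [← Finset.range_eq_Ico] at this
      rw [this]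
      congr 1
    · intro a ha ha'
      simp only [mem_range] at ha ha'
      exact hF2 a (by omega)
  rw [hr]
  · refine sum_congr rfl fun a _ => ?_
    rw [hr]
    · refine sum_congr rfl fun b _ => ?_
      split_ifs <;> simp
    · simp
    · intro b hb
      rw [if_neg (by omega)]
      simp
  · simp
  · intro a ha
    refine Finset.sum_eq_zero fun b _ => ?_
    rw [if_neg (by omega)]
    simp

/-- The binary convolution of two exponentials. -/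
theorem bin_exp {N n : ℕ} (hn : n ≤ N) (hn1 : 1 ≤ n) (x y : ℝ) :
    ∑ a ∈ Icc 1 N, ∑ b ∈ Icc 1 N, (if a + b = n then e ((a : ℝ) * x) * e ((b : ℝ) * y) else 0) =
      e ((n : ℝ) * y) * ∑ a ∈ Icc 1 (n - 1), e ((a : ℝ) * (x - y)) := by
  have h1 : Icc 1 (n - 1) ⊆ Icc 1 N := by
    intro a ha
    rw [mem_Icc] at ha ⊢
    omega
  rw [← Finset.sum_subset h1, Finset.mul_sum]
  · refine Finset.sum_congr rfl fun a ha => ?_
    rw [mem_Icc] at ha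
    rw [Finset.sum_eq_single (n - a)]
    · rw [if_pos (by omega), ← e_add, ← e_add]
      congr 1
      rw [Nat.cast_sub (by omega)]
      ring
    · intro b _ hb
      rw [if_neg (by omega)]
    · intro hb
      rw [mem_Icc] at hb
      omega
  · intro a ha ha'
    rw [mem_Icc] at ha ha'
    refine Finset.sum_eq_zero fun b hb => ?_
    rw [mem_Icc] at hb
    rw [if_neg (by omega)]

theorem bin_model (N Q n : ℕ) : bin N (lamQ Q) n =
    ∑ i ∈ frac Q, ∑ j ∈ frac Q, wt i * wt j *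
      ∑ a ∈ Icc 1 N, ∑ b ∈ Icc 1 N,
        (if a + b = n then e ((a : ℝ) * bt i) * e ((b : ℝ) * bt j) else 0) := by
  unfold bin
  have h1 : ∀ a b : ℕ, (if a + b = n then lamQ Q a * lamQ Q b else 0) =
      ∑ i ∈ frac Q, ∑ j ∈ frac Q, wt i * wt j *
        (if a + b = n then e ((a : ℝ) * bt i) * e ((b : ℝ) * bt j) else 0) := by
    intro a b
    split_ifs
    · rw [lamQ_eq, lamQ_eq, Finset.sum_mul_sum]
      refine Finset.sum_congr rfl fun i _ => Finset.sum_congr rfl fun j _ => ?_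
      ring
    · simp
  have h2 : ∀ (F : ℕ → ℕ → (Σ _ : ℕ, ℕ) → (Σ _ : ℕ, ℕ) → ℂ),
      ∑ a ∈ Icc 1 N, ∑ b ∈ Icc 1 N, ∑ i ∈ frac Q, ∑ j ∈ frac Q, F a b i j =
      ∑ i ∈ frac Q, ∑ j ∈ frac Q, ∑ a ∈ Icc 1 N, ∑ b ∈ Icc 1 N, F a b i j := by
    intro F
    have hL : ∑ a ∈ Icc 1 N, ∑ b ∈ Icc 1 N, ∑ i ∈ frac Q, ∑ j ∈ frac Q, F a b i j =
        ∑ s ∈ Icc 1 N ×ˢ Icc 1 N, ∑ t ∈ frac Q ×ˢ frac Q, F s.1 s.2 t.1 t.2 := by
      simp only [Finset.sum_product]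
    have hR : ∑ i ∈ frac Q, ∑ j ∈ frac Q, ∑ a ∈ Icc 1 N, ∑ b ∈ Icc 1 N, F a b i j =
        ∑ t ∈ frac Q ×ˢ frac Q, ∑ s ∈ Icc 1 N ×ˢ Icc 1 N, F s.1 s.2 t.1 t.2 := by
      simp only [Finset.sum_product]
    rw [hL, hR, Finset.sum_comm]
  rw [Finset.sum_congr rfl fun a _ => Finset.sum_congr rfl fun b _ => h1 a b, h2]
  refine Finset.sum_congr rfl fun i _ => Finset.sum_congr rfl fun j _ => ?_
  simp only [Finset.mul_sum]

theorem sum_wt_sq_eq (n Q : ℕ) :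
    ∑ i ∈ frac Q, wt i ^ 2 * e ((n : ℝ) * bt i) =
      ∑ q ∈ Icc 1 Q, ((moebius q : ℤ) : ℂ) ^ 2 / (Nat.totient q : ℂ) ^ 2 * ram q n := by
  unfold frac
  rw [Finset.sum_sigma]
  refine Finset.sum_congr rfl fun q _ => ?_
  unfold ram
  rw [Finset.mul_sum]
  refine Finset.sum_congr rfl fun a _ => ?_
  unfold wt bt
  rw [div_pow]
  congr 2
  ring

theorem model2 {N n Q : ℕ} (hn : n ≤ N) (hn1 : 1 ≤ n) (hQ : 1 ≤ Q) :
    ‖bin N (lamQ Q) n - (n : ℂ) *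
      ∑ q ∈ Icc 1 Q, ((moebius q : ℤ) : ℂ) ^ 2 / (Nat.totient q : ℂ) ^ 2 * ram q n‖ ≤
      2 * (Q : ℝ) ^ 4 := by
  have hQR : (1 : ℝ) ≤ Q := by exact_mod_cast hQ
  rw [bin_model, ← sum_wt_sq_eq]
  simp only [bin_exp hn hn1]
  have h1 : ∑ i ∈ frac Q, wt i ^ 2 * e ((n : ℝ) * bt i) * ((n - 1 : ℕ) : ℂ) =
      ∑ i ∈ frac Q, ∑ j ∈ frac Q, if j = i then wt i * wt j * (e ((n : ℝ) * bt j) *
        ∑ a ∈ Icc 1 (n - 1), e ((a : ℝ) * (bt i - bt j))) else 0 := by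
    refine Finset.sum_congr rfl fun i hi => ?_
    rw [Finset.sum_ite_eq', if_pos hi]
    simp only [sub_self, mul_zero, e_zero, Finset.sum_const, Nat.card_Icc, Nat.add_sub_cancel,
      nsmul_eq_mul, mul_one]
    ring
  have h2 : ∀ i ∈ frac Q, ∀ j ∈ frac Q, ‖wt i * wt j * (e ((n : ℝ) * bt j) *
      ∑ a ∈ Icc 1 (n - 1), e ((a : ℝ) * (bt i - bt j))) - (if j = i then
        wt i * wt j * (e ((n : ℝ) * bt j) *
        ∑ a ∈ Icc 1 (n - 1), e ((a : ℝ) * (bt i - bt j))) else 0)‖ ≤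
      ‖wt i‖ * ‖wt j‖ * (Q : ℝ) ^ 2 := by
    intro i hi j hj
    by_cases hd : j = i
    · rw [if_pos hd, sub_self, norm_zero]
      positivity
    · rw [if_neg hd, sub_zero, norm_mul, norm_mul, norm_mul, norm_e, one_mul]
      refine mul_le_mul_of_nonneg_left ?_ (by positivity)
      obtain ⟨h, hh, hdv⟩ := frac_diff hi hj (fun h => hd h.symm)
      rw [mem_frac] at hi hj
      have hpos : 1 ≤ i.1 * j.1 := Nat.mul_pos hi.1.1 hj.1.1
      rw [hh]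
      refine (geom_bound h _ hpos hdv _).trans ?_
      have : i.1 * j.1 ≤ Q * Q := Nat.mul_le_mul hi.1.2 hj.1.2
      calc ((i.1 * j.1 : ℕ) : ℝ) ≤ ((Q * Q : ℕ) : ℝ) := by exact_mod_cast this
        _ = (Q : ℝ) ^ 2 := by push_cast; ring
  have h3 : ‖∑ i ∈ frac Q, ∑ j ∈ frac Q, wt i * wt j * (e ((n : ℝ) * bt j) *
      ∑ a ∈ Icc 1 (n - 1), e ((a : ℝ) * (bt i - bt j))) -
      ∑ i ∈ frac Q, wt i ^ 2 * e ((n : ℝ) * bt i) * ((n - 1 : ℕ) : ℂ)‖ ≤ (Q : ℝ) ^ 4 := by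
    rw [h1]
    simp only [← Finset.sum_sub_distrib]
    calc _ ≤ ∑ i ∈ frac Q, ∑ j ∈ frac Q, ‖wt i‖ * ‖wt j‖ * (Q : ℝ) ^ 2 := by
          refine (norm_sum_le _ _).trans (Finset.sum_le_sum fun i hi => ?_)
          refine (norm_sum_le _ _).trans (Finset.sum_le_sum fun j hj => ?_)
          exact h2 i hi j hj
      _ = (∑ i ∈ frac Q, ‖wt i‖) ^ 2 * (Q : ℝ) ^ 2 := by
          simp only [← Finset.sum_mul, ← Finset.mul_sum]
          ring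
      _ ≤ (Q : ℝ) ^ 2 * (Q : ℝ) ^ 2 := by
          have h4 : 0 ≤ ∑ i ∈ frac Q, ‖wt i‖ := Finset.sum_nonneg fun i _ => norm_nonneg _
          gcongr
          exact sum_norm_wt_le Q
      _ = (Q : ℝ) ^ 4 := by ring
  have h4 : ‖∑ i ∈ frac Q, wt i ^ 2 * e ((n : ℝ) * bt i)‖ ≤ Q := by
    refine (norm_sum_le _ _).trans ?_
    refine le_trans (Finset.sum_le_sum fun i hi => ?_) (sum_norm_wt_le Q)
    rw [mem_frac] at hi
    rw [norm_mul, norm_e, mul_one, norm_pow]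
    have h5 := norm_wt_le_one i hi.1.1
    have h6 := norm_nonneg (wt i)
    calc ‖wt i‖ ^ 2 ≤ ‖wt i‖ ^ 1 := pow_le_pow_of_le_one h6 h5 (by norm_num)
      _ = ‖wt i‖ := pow_one _
  have h6 : (∑ i ∈ frac Q, ∑ j ∈ frac Q, wt i * wt j * (e ((n : ℝ) * bt j) *
      ∑ a ∈ Icc 1 (n - 1), e ((a : ℝ) * (bt i - bt j)))) -
      (n : ℂ) * ∑ i ∈ frac Q, wt i ^ 2 * e ((n : ℝ) * bt i) =
      ((∑ i ∈ frac Q, ∑ j ∈ frac Q, wt i * wt j * (e ((n : ℝ) * bt j) *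
      ∑ a ∈ Icc 1 (n - 1), e ((a : ℝ) * (bt i - bt j)))) -
      ∑ i ∈ frac Q, wt i ^ 2 * e ((n : ℝ) * bt i) * ((n - 1 : ℕ) : ℂ)) -
      ∑ i ∈ frac Q, wt i ^ 2 * e ((n : ℝ) * bt i) := by
    rw [← Finset.sum_mul, Nat.cast_sub hn1]
    push_cast
    ring
  rw [h6]
  have h7 : (Q : ℝ) ≤ (Q : ℝ) ^ 4 := by
    calc (Q : ℝ) = (Q : ℝ) ^ 1 := (pow_one _).symm
      _ ≤ (Q : ℝ) ^ 4 := pow_le_pow_right₀ hQR (by norm_num)
  calc _ ≤ (Q : ℝ) ^ 4 + Q := (norm_sub_le _ _).trans (add_le_add h3 h4)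
    _ ≤ _ := by linarith

theorem sq_sum3 (x y z : ℂ) : ‖x + y - z‖ ^ 2 ≤ 3 * (‖x‖ ^ 2 + ‖y‖ ^ 2 + ‖z‖ ^ 2) := by
  have h1 : ‖x + y - z‖ ≤ ‖x‖ + ‖y‖ + ‖z‖ :=
    (norm_sub_le _ _).trans (add_le_add_left (norm_add_le _ _) _)
  calc ‖x + y - z‖ ^ 2 ≤ (‖x‖ + ‖y‖ + ‖z‖) ^ 2 := pow_le_pow_left₀ (norm_nonneg _) h1 2
    _ ≤ _ := by nlinarith [sq_nonneg (‖x‖ - ‖y‖), sq_nonneg (‖y‖ - ‖z‖), sq_nonneg (‖x‖ - ‖z‖)]

theorem forward2_of (hS : SupStmt) : Forward2Stmt := by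
  rintro ⟨σ₀, hσ, hz⟩
  obtain ⟨c, ds, Cs, hc, hc10, hds, hCs, hsup⟩ := hS σ₀ hσ hz
  obtain ⟨C1, hC1⟩ := modelSqStmt
  obtain ⟨-, C3, hC3⟩ := singular2Stmt
  set δ : ℝ := min (min ds (1 / 2)) (c / 2) with hδ
  have hδ0 : 0 < δ := lt_min (lt_min hds (by norm_num)) (by linarith)
  have hδ1 : δ ≤ ds := (min_le_left _ _).trans (min_le_left _ _)
  have hδ2 : δ ≤ 1 / 2 := (min_le_left _ _).trans (min_le_right _ _)
  have hδ3 : δ ≤ c / 2 := min_le_right _ _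
  set K1 : ℝ := max C1 1 with hK1
  have hK11 : 1 ≤ K1 := le_max_right _ _
  set A1 : ℝ := 4 * Cs ^ 2 * (K1 * (1 + 6 / ds) ^ 3) with hA1
  set A3 : ℝ := 2 * C3 ^ 2 * (1 + 1 / (c / 8)) ^ 4 with hA3
  refine ⟨δ, hδ0, 3 * (A1 + 4 + A3), ?_⟩
  intro N hN
  have hNr : (1 : ℝ) ≤ N := by exact_mod_cast hN
  have hN0 : (0 : ℝ) < N := by linarith
  set Q : ℕ := ⌊(N : ℝ) ^ c⌋₊ with hQ
  have hNc : 1 ≤ (N : ℝ) ^ c := Real.one_le_rpow hNr hc.le
  have hQ1 : 1 ≤ Q := Nat.floor_pos.2 hNc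
  have hQr : (1 : ℝ) ≤ Q := by exact_mod_cast hQ1
  have hQle : (Q : ℝ) ≤ (N : ℝ) ^ c := Nat.floor_le (by positivity)
  have hQk : ∀ k : ℕ, (Q : ℝ) ^ k ≤ (N : ℝ) ^ (k * c) := by
    intro k
    have := pow_le_pow_left₀ (by positivity) hQle k
    rwa [← Real.rpow_natCast ((N : ℝ) ^ c) k, ← Real.rpow_mul hN0.le, mul_comm c] at this
  have hQ4 : Q ^ 4 ≤ N := by
    have h1 := hQk 4
    have h2 : (N : ℝ) ^ (((4 : ℕ) : ℝ) * c) ≤ (N : ℝ) ^ (1 : ℝ) :=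
      Real.rpow_le_rpow_of_exponent_le hNr (by push_cast; linarith)
    rw [Real.rpow_one] at h2
    exact_mod_cast h1.trans h2
  have hlog : 0 ≤ Real.log N := Real.log_nonneg hNr
  set L : ℝ := K1 * N * (1 + Real.log N) ^ 3 with hL
  have hL0 : 0 ≤ L := by positivity
  have hbase : 0 ≤ (N : ℝ) * (1 + Real.log N) ^ 3 := by positivity
  have hL1 : ∑ n ∈ Icc 1 N, ‖(vonMangoldt n : ℂ)‖ ^ 2 ≤ L := by
    refine (sum_vm_sq N hN).trans ?_
    rw [hL, mul_assoc]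
    exact le_mul_of_one_le_left hbase hK11
  have hL2 : ∑ n ∈ Icc 1 N, ‖lamQ Q n‖ ^ 2 ≤ L := by
    refine (hC1 N Q hN hQ1 hQ4).trans ?_
    rw [hL, mul_assoc, mul_assoc]
    exact mul_le_mul_of_nonneg_right (le_max_left _ _) hbase
  have hcmp := compare2 N (fun n => (vonMangoldt n : ℂ)) (fun n => lamQ Q n)
    (Cs * (N : ℝ) ^ (1 - ds)) L (fun α => hsup N α hN) hL1 hL2
  -- the first term
  have hT1 : ∑ n ∈ Icc 1 N, ‖bin N (fun m => (vonMangoldt m : ℂ)) n - bin N (lamQ Q) n‖ ^ 2 ≤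
      A1 * (N : ℝ) ^ (3 - δ) := by
    calc _ ≤ ∑ n ∈ Icc 1 (2 * N),
          ‖bin N (fun m => (vonMangoldt m : ℂ)) n - bin N (lamQ Q) n‖ ^ 2 :=
          Finset.sum_le_sum_of_subset_of_nonneg (Finset.Icc_subset_Icc_right (by omega))
            fun _ _ _ => sq_nonneg _
      _ ≤ 4 * (Cs * (N : ℝ) ^ (1 - ds)) ^ 2 * L := hcmp
      _ ≤ 4 * (Cs * (N : ℝ) ^ (1 - ds)) ^ 2 *
          (K1 * N * ((1 + 6 / ds) ^ 3 * (N : ℝ) ^ (ds / 2))) := by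
          rw [hL]
          gcongr
          exact log_pow_le hNr hds
      _ = A1 * ((N : ℝ) ^ (1 - ds) * (N : ℝ) ^ (1 - ds) * (N : ℝ) ^ (1 : ℝ) *
          (N : ℝ) ^ (ds / 2)) := by
          rw [hA1, Real.rpow_one]
          ring
      _ = A1 * (N : ℝ) ^ (3 - 3 / 2 * ds) := by
          rw [← Real.rpow_add hN0, ← Real.rpow_add hN0, ← Real.rpow_add hN0]
          congr 2
          ring
      _ ≤ A1 * (N : ℝ) ^ (3 - δ) := by
          refine mul_le_mul_of_nonneg_left ?_ (by positivity)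
          exact Real.rpow_le_rpow_of_exponent_le hNr (by linarith)
  -- the second term
  set S : ℕ → ℂ := fun n =>
    ∑ q ∈ Icc 1 Q, ((moebius q : ℤ) : ℂ) ^ 2 / (Nat.totient q : ℂ) ^ 2 * ram q n with hSd
  have hT2 : ∑ n ∈ Icc 1 N, ‖bin N (lamQ Q) n - (n : ℂ) * S n‖ ^ 2 ≤ 4 * (N : ℝ) ^ (3 - δ) := by
    calc _ ≤ ∑ n ∈ Icc 1 N, (2 * (Q : ℝ) ^ 4) ^ 2 := by
          refine Finset.sum_le_sum fun n hn => ?_
          rw [mem_Icc] at hn
          exact pow_le_pow_left₀ (norm_nonneg _) (model2 hn.2 hn.1 hQ1) 2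
      _ = 4 * ((N : ℝ) ^ (1 : ℝ) * (Q : ℝ) ^ 8) := by
          rw [Finset.sum_const, Nat.card_Icc, nsmul_eq_mul, Nat.add_sub_cancel, Real.rpow_one]
          ring
      _ ≤ 4 * ((N : ℝ) ^ (1 : ℝ) * (N : ℝ) ^ (((8 : ℕ) : ℝ) * c)) := by
          gcongr
          exact hQk 8
      _ = 4 * (N : ℝ) ^ (1 + ((8 : ℕ) : ℝ) * c) := by rw [← Real.rpow_add hN0]
      _ ≤ 4 * (N : ℝ) ^ (3 - δ) := by
          refine mul_le_mul_of_nonneg_left ?_ (by norm_num)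
          exact Real.rpow_le_rpow_of_exponent_le hNr (by push_cast; linarith)
  -- the third term
  have hT3 : ∑ n ∈ Icc 1 N, ‖(n : ℂ) * ((singular2 n : ℂ) - S n)‖ ^ 2 ≤
      A3 * (N : ℝ) ^ (3 - δ) := by
    have hinvQ : 1 / (Q : ℝ) ≤ 2 * (N : ℝ) ^ (-c) := by
      have h2 := floor_ge_half hNc
      have h3 : (0 : ℝ) < (N : ℝ) ^ c := by linarith
      calc 1 / (Q : ℝ) ≤ 1 / ((N : ℝ) ^ c / 2) :=
            one_div_le_one_div_of_le (by positivity) h2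
        _ = 2 * (N : ℝ) ^ (-c) := by rw [Real.rpow_neg hN0.le]; field_simp
    have hlog4 : (1 + Real.log N) ^ 4 ≤ (1 + 1 / (c / 8)) ^ 4 * (N : ℝ) ^ (c / 2) := by
      have h1 := M3.log_bound (ε := c / 8) (by linarith) hN
      calc (1 + Real.log N) ^ 4 ≤ ((1 + 1 / (c / 8)) * (N : ℝ) ^ (c / 8)) ^ 4 :=
            pow_le_pow_left₀ (by linarith) h1 4
        _ = (1 + 1 / (c / 8)) ^ 4 * (N : ℝ) ^ (c / 2) := by
            rw [mul_pow, ← Real.rpow_natCast ((N : ℝ) ^ (c / 8)) 4, ← Real.rpow_mul hN0.le]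
            congr 2
            push_cast
            ring
    calc _ ≤ ∑ n ∈ Icc 1 N, C3 ^ 2 * (1 / (Q : ℝ)) * (N : ℝ) ^ 3 * (M3.tau n ^ 2 * (1 / n)) := by
          refine Finset.sum_le_sum fun n hn => ?_
          rw [mem_Icc] at hn
          have hn1 : (1 : ℝ) ≤ n := by exact_mod_cast hn.1
          have hnN : (n : ℝ) ≤ N := by exact_mod_cast hn.2
          have h1 := hC3 n Q hn.1 hQ1
          rw [norm_mul, Complex.norm_natCast, mul_pow]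
          have h2 : ‖(singular2 n : ℂ) - S n‖ ^ 2 ≤ (C3 * (n.divisors.card : ℝ) / Real.sqrt Q) ^ 2 :=
            pow_le_pow_left₀ (norm_nonneg _) h1 2
          have h3 : (C3 * (n.divisors.card : ℝ) / Real.sqrt Q) ^ 2 =
              C3 ^ 2 * (1 / (Q : ℝ)) * M3.tau n ^ 2 := by
            rw [div_pow, Real.sq_sqrt (by linarith), mul_pow]
            unfold M3.tau
            ring
          rw [h3] at h2
          calc (n : ℝ) ^ 2 * ‖(singular2 n : ℂ) - S n‖ ^ 2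
              ≤ (n : ℝ) ^ 2 * (C3 ^ 2 * (1 / (Q : ℝ)) * M3.tau n ^ 2) :=
                mul_le_mul_of_nonneg_left h2 (sq_nonneg _)
            _ = C3 ^ 2 * (1 / (Q : ℝ)) * (n : ℝ) ^ 3 * (M3.tau n ^ 2 * (1 / n)) := by
                field_simp
            _ ≤ _ := by gcongr
      _ = C3 ^ 2 * (1 / (Q : ℝ)) * (N : ℝ) ^ 3 * ∑ n ∈ Icc 1 N, M3.tau n ^ 2 * (1 / (n : ℝ)) := by
          rw [Finset.mul_sum]
      _ ≤ C3 ^ 2 * (2 * (N : ℝ) ^ (-c)) * (N : ℝ) ^ 3 *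
          ((1 + 1 / (c / 8)) ^ 4 * (N : ℝ) ^ (c / 2)) := by
          have h1 := (M3.sum_tau_sq_le N).trans hlog4
          have h2 : 0 ≤ ∑ n ∈ Icc 1 N, M3.tau n ^ 2 * (1 / (n : ℝ)) :=
            Finset.sum_nonneg fun n _ => by positivity
          gcongr
      _ = A3 * ((N : ℝ) ^ (-c) * (N : ℝ) ^ (3 : ℝ) * (N : ℝ) ^ (c / 2)) := by
          rw [hA3, show (N : ℝ) ^ (3 : ℝ) = (N : ℝ) ^ (3 : ℕ) by
            rw [← Real.rpow_natCast]; norm_num]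
          ring
      _ = A3 * (N : ℝ) ^ (3 - c / 2) := by
          rw [← Real.rpow_add hN0, ← Real.rpow_add hN0]
          congr 2
          ring
      _ ≤ A3 * (N : ℝ) ^ (3 - δ) := by
          refine mul_le_mul_of_nonneg_left ?_ (by positivity)
          exact Real.rpow_le_rpow_of_exponent_le hNr (by linarith)
  calc ∑ n ∈ Icc 1 N, (r2 n - singular2 n * n) ^ 2
      ≤ ∑ n ∈ Icc 1 N, 3 * (‖bin N (fun m => (vonMangoldt m : ℂ)) n - bin N (lamQ Q) n‖ ^ 2 +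
          ‖bin N (lamQ Q) n - (n : ℂ) * S n‖ ^ 2 +
          ‖(n : ℂ) * ((singular2 n : ℂ) - S n)‖ ^ 2) := by
        refine Finset.sum_le_sum fun n hn => ?_
        rw [mem_Icc] at hn
        have h1 : ((r2 n - singular2 n * n : ℝ) : ℂ) =
            (bin N (fun m => (vonMangoldt m : ℂ)) n - bin N (lamQ Q) n) +
            (bin N (lamQ Q) n - (n : ℂ) * S n) - (n : ℂ) * ((singular2 n : ℂ) - S n) := by
          push_cast
          rw [r2_eq_bin hn.2]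
          ring
        have h2 : (r2 n - singular2 n * n) ^ 2 = ‖((r2 n - singular2 n * n : ℝ) : ℂ)‖ ^ 2 := by
          rw [Complex.norm_real, Real.norm_eq_abs, sq_abs]
        rw [h2, h1]
        exact sq_sum3 _ _ _
    _ = 3 * (∑ n ∈ Icc 1 N, ‖bin N (fun m => (vonMangoldt m : ℂ)) n - bin N (lamQ Q) n‖ ^ 2 +
          ∑ n ∈ Icc 1 N, ‖bin N (lamQ Q) n - (n : ℂ) * S n‖ ^ 2 +
          ∑ n ∈ Icc 1 N, ‖(n : ℂ) * ((singular2 n : ℂ) - S n)‖ ^ 2) := by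
        rw [← Finset.mul_sum, Finset.sum_add_distrib, Finset.sum_add_distrib]
    _ ≤ 3 * (A1 * (N : ℝ) ^ (3 - δ) + 4 * (N : ℝ) ^ (3 - δ) + A3 * (N : ℝ) ^ (3 - δ)) := by
        gcongr
    _ = _ := by ring

theorem forward2Stmt : Forward2Stmt := forward2_of (supStmt minorStmt)

end Vale.Agent.P026.TP
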