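import Vale.Agent.P026.TP.Base

/-!
# P026 (three primes), module M6: the model
-/

open Finset ArithmeticFunction

namespace Vale.Agent.P026.TP

/-! ### Geometric sums -/

theorem norm_e_sub_one (x : ℝ) : ‖e x - 1‖ = 2 * |Real.sin (Real.pi * x)| := by
  have h := Complex.norm_exp_I_mul_ofReal_sub_one (2 * Real.pi * x)
  have h2 : Complex.exp (Complex.I * ((2 * Real.pi * x : ℝ) : ℂ)) = e x := by
    unfold e
    congr 1
    push_cast
    ring
  rw [h2] at h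
  rw [h, Real.norm_eq_abs, abs_mul, abs_of_pos (by norm_num : (0 : ℝ) < 2)]
  congr 3
  ring

theorem norm_e_sub_one_ge (h : ℤ) (M : ℕ) (hM : 1 ≤ M) (hd : ¬ (M : ℤ) ∣ h) :
    4 / (M : ℝ) ≤ ‖e ((h : ℝ) / M) - 1‖ := by
  have hM0 : (0 : ℤ) < M := by exact_mod_cast hM
  have hMR : (0 : ℝ) < M := by exact_mod_cast hM
  set r := h % M with hr
  have hr0 : 0 ≤ r := Int.emod_nonneg _ hM0.ne'
  have hrM : r < M := Int.emod_lt_of_pos _ hM0
  have hr1 : 1 ≤ r := by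
    rcases hr0.lt_or_eq with h1 | h1
    · omega
    · exact absurd (Int.dvd_of_emod_eq_zero h1.symm) hd
  have hx : (h : ℝ) / M = (r : ℝ) / M + ((h / M : ℤ) : ℝ) := by
    have h1 : (h : ℝ) = r + M * ((h / M : ℤ) : ℝ) := by
      have := Int.emod_add_mul_ediv h M
      exact_mod_cast this.symm
    rw [h1]
    field_simp
  rw [hx, e_add_int, norm_e_sub_one]
  have hr1' : (1 : ℝ) ≤ r := by exact_mod_cast hr1
  have hrM' : (r : ℝ) ≤ M - 1 := by
    have : r ≤ M - 1 := by omega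
    exact_mod_cast this
  have hpi := Real.pi_pos
  have key : 2 / (M : ℝ) ≤ Real.sin (Real.pi * ((r : ℝ) / M)) := by
    rcases le_total ((r : ℝ) / M) (1 / 2) with h1 | h1
    · have h2 := Real.mul_le_sin (x := Real.pi * ((r : ℝ) / M)) (by positivity) (by nlinarith)
      have h3 : 2 / Real.pi * (Real.pi * ((r : ℝ) / M)) = 2 * ((r : ℝ) / M) := by
        field_simp
      rw [h3] at h2
      refine le_trans ?_ h2
      rw [div_le_iff₀ hMR]
      have : 2 * ((r : ℝ) / M) * M = 2 * r := by field_simp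
      rw [this]; linarith
    · have h4 : Real.sin (Real.pi * ((r : ℝ) / M)) = Real.sin (Real.pi * (1 - (r : ℝ) / M)) := by
        rw [← Real.sin_pi_sub]
        congr 1
        ring
      have h5 : (r : ℝ) / M ≤ 1 := by
        rw [div_le_one hMR]; linarith
      have h2 := Real.mul_le_sin (x := Real.pi * (1 - (r : ℝ) / M))
        (mul_nonneg hpi.le (by linarith)) (by nlinarith)
      have h3 : 2 / Real.pi * (Real.pi * (1 - (r : ℝ) / M)) = 2 * (1 - (r : ℝ) / M) := by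
        field_simp
      rw [h3] at h2
      rw [h4]
      refine le_trans ?_ h2
      rw [div_le_iff₀ hMR]
      have : 2 * (1 - (r : ℝ) / M) * M = 2 * (M - r) := by field_simp
      rw [this]; linarith
  have h6 : 0 ≤ Real.sin (Real.pi * ((r : ℝ) / M)) := le_trans (by positivity) key
  rw [abs_of_nonneg h6]
  calc 4 / (M : ℝ) = 2 * (2 / M) := by ring
    _ ≤ _ := by linarith

theorem geom_bound (h : ℤ) (M : ℕ) (hM : 1 ≤ M) (hd : ¬ (M : ℤ) ∣ h) (K : ℕ) :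
    ‖∑ n ∈ Icc 1 K, e ((n : ℝ) * ((h : ℝ) / M))‖ ≤ M := by
  have hMR : (0 : ℝ) < M := by exact_mod_cast hM
  have h1 := norm_e_sub_one_ge h M hM hd
  set z := e ((h : ℝ) / M) with hz
  have hz1 : ‖z‖ = 1 := norm_e _
  have h2 : ∑ n ∈ Icc 1 K, e ((n : ℝ) * ((h : ℝ) / M)) = z * ∑ n ∈ range K, z ^ n := by
    rw [Finset.mul_sum]
    have : Icc 1 K = (range K).image (· + 1) := by
      ext n
      simp only [mem_Icc, mem_image, mem_range]
      constructor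
      · intro hn
        exact ⟨n - 1, by omega, by omega⟩
      · rintro ⟨m, hm, rfl⟩
        omega
    rw [this, Finset.sum_image (by intro a _ b _ hab; simpa using hab)]
    refine Finset.sum_congr rfl fun n _ => ?_
    rw [e_nat_mul, pow_succ]
    ring
  rw [h2, norm_mul, hz1, one_mul]
  have h3 : (∑ n ∈ range K, z ^ n) * (z - 1) = z ^ K - 1 := geom_sum_mul z K
  have h4 : ‖∑ n ∈ range K, z ^ n‖ * ‖z - 1‖ ≤ 2 := by
    rw [← norm_mul, h3]
    calc ‖z ^ K - 1‖ ≤ ‖z ^ K‖ + ‖(1 : ℂ)‖ := norm_sub_le _ _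
      _ = 2 := by rw [norm_pow, hz1]; norm_num
  have h5 : ‖∑ n ∈ range K, z ^ n‖ * (4 / (M : ℝ)) ≤ 2 :=
    (mul_le_mul_of_nonneg_left h1 (norm_nonneg _)).trans h4
  have h6 : ‖∑ n ∈ range K, z ^ n‖ * (4 / (M : ℝ)) * M = 4 * ‖∑ n ∈ range K, z ^ n‖ := by
    field_simp
  nlinarith [norm_nonneg (∑ n ∈ range K, z ^ n), mul_le_mul_of_nonneg_right h5 hMR.le]

/-! ### The fractions -/

/-- The reduced fractions with denominator at most `Q`. -/
def frac (Q : ℕ) : Finset (Σ _ : ℕ, ℕ) :=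
  (Icc 1 Q).sigma fun q => (range q).filter (fun a => Nat.Coprime a q)

/-- The weight `μ(q) / φ(q)`. -/
noncomputable def wt (i : Σ _ : ℕ, ℕ) : ℂ := ((moebius i.1 : ℤ) : ℂ) / (Nat.totient i.1 : ℂ)

/-- The fraction. -/
noncomputable def bt (i : Σ _ : ℕ, ℕ) : ℝ := (i.2 : ℝ) / i.1

theorem mem_frac {Q : ℕ} {i : Σ _ : ℕ, ℕ} :
    i ∈ frac Q ↔ (1 ≤ i.1 ∧ i.1 ≤ Q) ∧ i.2 < i.1 ∧ Nat.Coprime i.2 i.1 := by
  unfold frac
  simp only [mem_sigma, mem_Icc, mem_filter, mem_range]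

theorem lamQ_eq (Q n : ℕ) : lamQ Q n = ∑ i ∈ frac Q, wt i * e ((n : ℝ) * bt i) := by
  unfold lamQ frac
  rw [Finset.sum_sigma]
  refine Finset.sum_congr rfl fun q _ => ?_
  unfold ram
  rw [Finset.mul_sum]
  refine Finset.sum_congr rfl fun a _ => ?_
  unfold wt bt
  congr 2
  ring

/-- The difference of two distinct reduced fractions. -/
theorem frac_diff {Q : ℕ} {i j : Σ _ : ℕ, ℕ} (hi : i ∈ frac Q) (hj : j ∈ frac Q) (hij : i ≠ j) :
    ∃ h : ℤ, bt i - bt j = (h : ℝ) / ((i.1 * j.1 : ℕ) : ℝ) ∧ ¬ ((i.1 * j.1 : ℕ) : ℤ) ∣ h := by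
  rw [mem_frac] at hi hj
  obtain ⟨⟨hi1, hi2⟩, hi3, hi4⟩ := hi
  obtain ⟨⟨hj1, hj2⟩, hj3, hj4⟩ := hj
  refine ⟨(i.2 : ℤ) * j.1 - j.2 * i.1, ?_, ?_⟩
  · unfold bt
    have h1 : (i.1 : ℝ) ≠ 0 := by positivity
    have h2 : (j.1 : ℝ) ≠ 0 := by positivity
    push_cast
    field_simp
  · intro hd
    have h0 : (i.2 : ℤ) * j.1 - j.2 * i.1 = 0 := by
      apply Int.eq_zero_of_abs_lt_dvd hd
      push_cast
      have hi3' : (i.2 : ℤ) < i.1 := by exact_mod_cast hi3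
      have hj3' : (j.2 : ℤ) < j.1 := by exact_mod_cast hj3
      have hi0 : (0 : ℤ) < i.1 := by exact_mod_cast hi1
      have hj0 : (0 : ℤ) < j.1 := by exact_mod_cast hj1
      have hi20 : (0 : ℤ) ≤ i.2 := by positivity
      have hj20 : (0 : ℤ) ≤ j.2 := by positivity
      rw [abs_lt]
      constructor
      · nlinarith [mul_nonneg hi20 hj0.le]
      · nlinarith [mul_nonneg hj20 hi0.le]
    have h1 : i.2 * j.1 = j.2 * i.1 := by
      have : (i.2 : ℤ) * j.1 = j.2 * i.1 := by linarith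
      exact_mod_cast this
    have h2 : i.1 ∣ j.1 := by
      have : i.1 ∣ i.2 * j.1 := ⟨j.2, by rw [h1]; ring⟩
      exact (Nat.Coprime.symm hi4).dvd_of_dvd_mul_left this
    have h3 : j.1 ∣ i.1 := by
      have : j.1 ∣ j.2 * i.1 := ⟨i.2, by rw [← h1]; ring⟩
      exact (Nat.Coprime.symm hj4).dvd_of_dvd_mul_left this
    have h4 : i.1 = j.1 := Nat.dvd_antisymm h2 h3
    rw [h4] at h1
    have h5 : i.2 = j.2 := Nat.eq_of_mul_eq_mul_right (by omega) h1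
    apply hij
    rcases i with ⟨a, b⟩
    rcases j with ⟨c, d⟩
    simp only at h4 h5
    subst h4 h5
    rfl

theorem norm_wt_le (i : Σ _ : ℕ, ℕ) (hi : 1 ≤ i.1) : ‖wt i‖ ≤ 1 / (Nat.totient i.1 : ℝ) := by
  unfold wt
  rw [norm_div, Complex.norm_natCast]
  have hφ : (0 : ℝ) < Nat.totient i.1 := by exact_mod_cast Nat.totient_pos.mpr hi
  refine div_le_div_of_nonneg_right ?_ hφ.le
  rw [Complex.norm_intCast]
  exact_mod_cast abs_moebius_le_one

theorem sum_frac_le (Q : ℕ) (g : ℕ → ℝ) (f : (Σ _ : ℕ, ℕ) → ℝ)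
    (hf : ∀ i, 1 ≤ i.1 → f i ≤ g i.1 / (Nat.totient i.1 : ℝ)) :
    ∑ i ∈ frac Q, f i ≤ ∑ q ∈ Icc 1 Q, g q := by
  unfold frac
  rw [Finset.sum_sigma]
  refine Finset.sum_le_sum fun q hq => ?_
  rw [mem_Icc] at hq
  have hφ : (0 : ℝ) < Nat.totient q := by exact_mod_cast Nat.totient_pos.mpr hq.1
  calc ∑ a ∈ (range q).filter (fun a => Nat.Coprime a q), f ⟨q, a⟩
      ≤ ∑ a ∈ (range q).filter (fun a => Nat.Coprime a q), g q / (Nat.totient q : ℝ) :=
        Finset.sum_le_sum fun a _ => hf ⟨q, a⟩ hq.1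
    _ = g q := by
        rw [Finset.sum_const, nsmul_eq_mul, card_coprime_range]
        field_simp

/-! ### The square mean -/

theorem le_card_divisors_mul_totient (n : ℕ) (hn : 1 ≤ n) :
    n ≤ n.divisors.card * Nat.totient n := by
  calc n = ∑ m ∈ n.divisors, Nat.totient m := (Nat.sum_totient n).symm
    _ ≤ ∑ m ∈ n.divisors, Nat.totient n := by
        refine Finset.sum_le_sum fun m hm => ?_
        exact Nat.le_of_dvd (Nat.totient_pos.mpr hn)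
          (Nat.totient_dvd_of_dvd (Nat.dvd_of_mem_divisors hm))
    _ = _ := by rw [Finset.sum_const, smul_eq_mul]

theorem sum_inv_le (Q : ℕ) : ∑ q ∈ Icc 1 Q, 1 / (q : ℝ) ≤ 1 + Real.log Q := by
  have h := harmonic_le_one_add_log Q
  rw [harmonic_eq_sum_Icc] at h
  push_cast at h
  simpa [one_div] using h

theorem sum_inv_totient_le (Q : ℕ) :
    ∑ q ∈ Icc 1 Q, 1 / (Nat.totient q : ℝ) ≤ (∑ q ∈ Icc 1 Q, 1 / (q : ℝ)) ^ 2 := by
  classical
  have h1 : ∀ q ∈ Icc 1 Q, 1 / (Nat.totient q : ℝ) ≤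
      ∑ p ∈ Icc 1 Q ×ˢ Icc 1 Q, if p.1 * p.2 = q then 1 / ((p.1 : ℝ) * p.2) else 0 := by
    intro q hq
    rw [mem_Icc] at hq
    have hq0 : (0 : ℝ) < q := by exact_mod_cast hq.1
    have hφ : (0 : ℝ) < Nat.totient q := by exact_mod_cast Nat.totient_pos.mpr hq.1
    have h2 := le_card_divisors_mul_totient q hq.1
    have h3 : 1 / (Nat.totient q : ℝ) ≤ (q.divisors.card : ℝ) * (1 / q) := by
      rw [mul_one_div, div_le_div_iff₀ hφ hq0]
      have : (q : ℝ) ≤ q.divisors.card * Nat.totient q := by exact_mod_cast h2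
      linarith
    refine h3.trans ?_
    have h4 : (q.divisors.card : ℝ) * (1 / q) =
        ∑ p ∈ q.divisorsAntidiagonal, 1 / ((p.1 : ℝ) * p.2) := by
      rw [Nat.sum_divisorsAntidiagonal (fun a b => 1 / ((a : ℝ) * b)),
        Finset.sum_congr rfl (g := fun _ => 1 / (q : ℝ))]
      · rw [Finset.sum_const, nsmul_eq_mul]
      · intro d hd
        have h5 : d * (q / d) = q := Nat.mul_div_cancel' (Nat.dvd_of_mem_divisors hd)
        rw [← Nat.cast_mul, h5]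
    rw [h4, ← Finset.sum_filter]
    refine Finset.sum_le_sum_of_subset_of_nonneg ?_ fun p _ _ => by positivity
    intro p hp
    rw [Nat.mem_divisorsAntidiagonal] at hp
    rw [mem_filter, mem_product, mem_Icc, mem_Icc]
    have hp1 : 0 < p.1 := Nat.pos_of_ne_zero (by rintro h; rw [h, zero_mul] at hp; omega)
    have hp2 : 0 < p.2 := Nat.pos_of_ne_zero (by rintro h; rw [h, mul_zero] at hp; omega)
    have h5 : p.1 ≤ q := by rw [← hp.1]; exact Nat.le_mul_of_pos_right _ hp2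
    have h6 : p.2 ≤ q := by rw [← hp.1]; exact Nat.le_mul_of_pos_left _ hp1
    exact ⟨⟨⟨hp1, h5.trans hq.2⟩, ⟨hp2, h6.trans hq.2⟩⟩, hp.1⟩
  refine (Finset.sum_le_sum h1).trans ?_
  rw [Finset.sum_comm, pow_two, Finset.sum_mul_sum]
  conv_rhs => rw [← Finset.sum_product']
  refine Finset.sum_le_sum fun p hp => ?_
  rw [mem_product, mem_Icc, mem_Icc] at hp
  rw [Finset.sum_ite_eq]
  split_ifs
  · rw [one_div_mul_one_div]
  · positivity

theorem modelSqStmt : ModelSqStmt := by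
  refine ⟨2, fun N Q hN hQ hQN => ?_⟩
  have hNR : (1 : ℝ) ≤ N := by exact_mod_cast hN
  have h1 : ((∑ n ∈ Icc 1 N, ‖lamQ Q n‖ ^ 2 : ℝ) : ℂ) =
      ∑ i ∈ frac Q, ∑ j ∈ frac Q, wt i * (starRingEnd ℂ) (wt j) *
        ∑ n ∈ Icc 1 N, e ((n : ℝ) * (bt i - bt j)) := by
    push_cast
    have h2 : ∀ n : ℕ, ((‖lamQ Q n‖ : ℂ)) ^ 2 = ∑ i ∈ frac Q, ∑ j ∈ frac Q,
        wt i * (starRingEnd ℂ) (wt j) * e ((n : ℝ) * (bt i - bt j)) := by
      intro n
      have h3 : ((‖lamQ Q n‖ : ℂ)) ^ 2 = lamQ Q n * (starRingEnd ℂ) (lamQ Q n) := by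
        rw [Complex.mul_conj, Complex.normSq_eq_norm_sq]
        push_cast
        rfl
      rw [h3, lamQ_eq, map_sum, Finset.sum_mul_sum]
      refine Finset.sum_congr rfl fun i _ => Finset.sum_congr rfl fun j _ => ?_
      rw [map_mul, conj_e]
      have : e ((n : ℝ) * (bt i - bt j)) = e ((n : ℝ) * bt i) * e (-((n : ℝ) * bt j)) := by
        rw [← e_add]
        congr 1
        ring
      rw [this]
      ring
    rw [Finset.sum_congr rfl (fun n _ => h2 n), Finset.sum_comm]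
    refine Finset.sum_congr rfl fun i _ => ?_
    rw [Finset.sum_comm]
    refine Finset.sum_congr rfl fun j _ => ?_
    rw [Finset.mul_sum]
  have h4 : ∀ i ∈ frac Q, ∀ j ∈ frac Q, ‖wt i * (starRingEnd ℂ) (wt j) *
        ∑ n ∈ Icc 1 N, e ((n : ℝ) * (bt i - bt j))‖ ≤
      (if j = i then ‖wt i‖ ^ 2 * N else 0) + (‖wt i‖ * i.1) * (‖wt j‖ * j.1) := by
    intro i hi j hj
    rw [norm_mul, norm_mul, Complex.norm_conj]
    by_cases hij : i = j
    · subst hij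
      rw [if_pos rfl]
      have h5 : ‖∑ n ∈ Icc 1 N, e ((n : ℝ) * (bt i - bt i))‖ ≤ N := by
        refine (norm_sum_le _ _).trans ?_
        simp [norm_e]
      have h6 : 0 ≤ (‖wt i‖ * i.1) * (‖wt i‖ * i.1) := by positivity
      nlinarith [norm_nonneg (wt i), mul_nonneg (norm_nonneg (wt i)) (norm_nonneg (wt i)),
        mul_le_mul_of_nonneg_left h5 (mul_nonneg (norm_nonneg (wt i)) (norm_nonneg (wt i)))]
    · rw [if_neg (fun h => hij h.symm), zero_add]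
      obtain ⟨h, hh, hd⟩ := frac_diff hi hj hij
      rw [mem_frac] at hi hj
      have h7 := geom_bound h (i.1 * j.1) (Nat.mul_pos hi.1.1 hj.1.1) hd N
      rw [← hh] at h7
      calc ‖wt i‖ * ‖wt j‖ * ‖∑ n ∈ Icc 1 N, e ((n : ℝ) * (bt i - bt j))‖
          ≤ ‖wt i‖ * ‖wt j‖ * ((i.1 * j.1 : ℕ) : ℝ) := by gcongr
        _ = _ := by push_cast; ring
  have h5 : ∑ n ∈ Icc 1 N, ‖lamQ Q n‖ ^ 2 ≤
      ∑ i ∈ frac Q, ∑ j ∈ frac Q, ((if j = i then ‖wt i‖ ^ 2 * N else 0) +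
        (‖wt i‖ * i.1) * (‖wt j‖ * j.1)) := by
    have h6 : ∑ n ∈ Icc 1 N, ‖lamQ Q n‖ ^ 2 = ‖((∑ n ∈ Icc 1 N, ‖lamQ Q n‖ ^ 2 : ℝ) : ℂ)‖ := by
      rw [Complex.norm_real, Real.norm_eq_abs, abs_of_nonneg]
      exact Finset.sum_nonneg fun n _ => by positivity
    rw [h6, h1]
    refine (norm_sum_le _ _).trans (Finset.sum_le_sum fun i hi => ?_)
    refine (norm_sum_le _ _).trans (Finset.sum_le_sum fun j hj => h4 i hi j hj)
  have h6 : ∑ i ∈ frac Q, ∑ j ∈ frac Q, ((if j = i then ‖wt i‖ ^ 2 * (N : ℝ) else 0) +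
        (‖wt i‖ * i.1) * (‖wt j‖ * j.1)) =
      N * ∑ i ∈ frac Q, ‖wt i‖ ^ 2 + (∑ i ∈ frac Q, ‖wt i‖ * i.1) ^ 2 := by
    simp_rw [Finset.sum_add_distrib]
    congr 1
    · rw [Finset.mul_sum]
      refine Finset.sum_congr rfl fun i hi => ?_
      rw [Finset.sum_ite_eq' (frac Q) i, if_pos hi]
      ring
    · rw [pow_two, Finset.sum_mul_sum]
  have h7 : ∑ i ∈ frac Q, ‖wt i‖ ^ 2 ≤ ∑ q ∈ Icc 1 Q, 1 / (Nat.totient q : ℝ) := by
    refine sum_frac_le Q (fun q => 1 / (Nat.totient q : ℝ)) _ ?_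
    intro i hi
    have := norm_wt_le i hi
    calc ‖wt i‖ ^ 2 ≤ (1 / (Nat.totient i.1 : ℝ)) ^ 2 := by gcongr
      _ = 1 / (Nat.totient i.1 : ℝ) / (Nat.totient i.1 : ℝ) := by ring
  have h8 : ∑ i ∈ frac Q, ‖wt i‖ * i.1 ≤ ∑ q ∈ Icc 1 Q, (q : ℝ) := by
    refine sum_frac_le Q (fun q => (q : ℝ)) _ ?_
    intro i hi
    have := norm_wt_le i hi
    calc ‖wt i‖ * i.1 ≤ (1 / (Nat.totient i.1 : ℝ)) * i.1 := by gcongr
      _ = (i.1 : ℝ) / (Nat.totient i.1 : ℝ) := by ring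
  have h9 : ∑ q ∈ Icc 1 Q, (q : ℝ) ≤ (Q : ℝ) ^ 2 := by
    calc ∑ q ∈ Icc 1 Q, (q : ℝ) ≤ ∑ q ∈ Icc 1 Q, (Q : ℝ) := by
          refine Finset.sum_le_sum fun q hq => ?_
          rw [mem_Icc] at hq
          exact_mod_cast hq.2
      _ = (Q : ℝ) ^ 2 := by simp; ring
  have hlog : 0 ≤ Real.log N := Real.log_nonneg hNR
  have h10 : ∑ q ∈ Icc 1 Q, 1 / (Nat.totient q : ℝ) ≤ (1 + Real.log N) ^ 3 := by
    refine (sum_inv_totient_le Q).trans ?_
    have hQN' : Q ≤ N := by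
      calc Q = Q ^ 1 := (pow_one Q).symm
        _ ≤ Q ^ 4 := Nat.pow_le_pow_right hQ (by norm_num)
        _ ≤ N := hQN
    have h11 : Real.log Q ≤ Real.log N :=
      Real.log_le_log (by exact_mod_cast hQ) (by exact_mod_cast hQN')
    have h12 : 0 ≤ ∑ q ∈ Icc 1 Q, 1 / (q : ℝ) := Finset.sum_nonneg fun q _ => by positivity
    calc (∑ q ∈ Icc 1 Q, 1 / (q : ℝ)) ^ 2 ≤ (1 + Real.log N) ^ 2 := by
          gcongr
          exact (sum_inv_le Q).trans (by linarith)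
      _ ≤ (1 + Real.log N) ^ 3 := pow_le_pow_right₀ (by linarith) (by norm_num)
  have h11 : (∑ i ∈ frac Q, ‖wt i‖ * i.1) ^ 2 ≤ N := by
    have h12 : 0 ≤ ∑ i ∈ frac Q, ‖wt i‖ * i.1 := Finset.sum_nonneg fun i _ => by positivity
    calc (∑ i ∈ frac Q, ‖wt i‖ * i.1) ^ 2 ≤ ((Q : ℝ) ^ 2) ^ 2 := by
          gcongr
          exact h8.trans h9
      _ = ((Q ^ 4 : ℕ) : ℝ) := by push_cast; ring
      _ ≤ N := by exact_mod_cast hQN
  have h12 : (1 : ℝ) ≤ (1 + Real.log N) ^ 3 := one_le_pow₀ (by linarith)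
  calc ∑ n ∈ Icc 1 N, ‖lamQ Q n‖ ^ 2 ≤ N * ∑ i ∈ frac Q, ‖wt i‖ ^ 2 +
        (∑ i ∈ frac Q, ‖wt i‖ * i.1) ^ 2 := h5.trans h6.le
    _ ≤ N * (1 + Real.log N) ^ 3 + N := by
        gcongr
        exact h7.trans h10
    _ ≤ 2 * N * (1 + Real.log N) ^ 3 := by nlinarith

end Vale.Agent.P026.TP
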