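import Vale.Agent.P026.TP.Cube
import Vale.Agent.P026.TP.E

/-!
# P026 TP: from the behaviour on a ray to the continuation of a Dirichlet series
-/

open Finset ArithmeticFunction Filter Topology Asymptotics

namespace Vale.Agent.P026.TP

theorem continuousOn_FL : ContinuousOn FL (Metric.ball 0 1) := by
  intro z hz
  have hz1 : ‖z‖ < 1 := by simpa using hz
  obtain ⟨r, hr, hr1⟩ := exists_between hz1
  have hr0 : 0 ≤ r := (norm_nonneg z).trans hr.le
  have hs : Summable (fun n : ℕ => ‖(vonMangoldt n : ℂ)‖ * r ^ n) := by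
    have := summable_FL (z := (r : ℂ)) (by rw [Complex.norm_real, Real.norm_of_nonneg hr0]; exact hr1)
    refine this.congr fun n => ?_
    rw [norm_mul, norm_pow, Complex.norm_real r, Real.norm_of_nonneg hr0]
  have h1 : ContinuousOn FL (Metric.ball 0 r) := by
    unfold FL
    refine continuousOn_tsum (u := fun n : ℕ => ‖(vonMangoldt n : ℂ)‖ * r ^ n)
      (fun n => by fun_prop) hs ?_
    intro n w hw
    have hw1 : ‖w‖ < r := by simpa using hw
    rw [norm_mul, norm_pow]
    gcongr
  have hmem : Metric.ball (0 : ℂ) r ∈ 𝓝 z := Metric.isOpen_ball.mem_nhds (by simpa using hr)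
  exact (h1.continuousAt hmem).continuousWithinAt

theorem norm_ray {u β : ℝ} : ‖(Real.exp (-u) : ℂ) * e β‖ = Real.exp (-u) := by
  rw [norm_mul, norm_e, mul_one, Complex.norm_real, Real.norm_of_nonneg (Real.exp_pos _).le]

theorem norm_ray_lt {u β : ℝ} (hu : 0 < u) : ‖(Real.exp (-u) : ℂ) * e β‖ < 1 := by
  rw [norm_ray, Real.exp_lt_one_iff]
  linarith

theorem continuousOn_ray (β : ℝ) :
    ContinuousOn (fun u : ℝ => FL ((Real.exp (-u) : ℂ) * e β)) (Set.Ioi 0) := by
  refine continuousOn_FL.comp (by fun_prop) ?_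
  intro u hu
  simpa using norm_ray_lt (β := β) hu

theorem norm_FL_le {z : ℂ} (hz : ‖z‖ < 1) : ‖FL z‖ ≤ ‖z‖ / (1 - ‖z‖) ^ 2 := by
  have h1 : HasSum (fun n : ℕ => (n : ℝ) * ‖z‖ ^ n) (‖z‖ / (1 - ‖z‖) ^ 2) :=
    hasSum_coe_mul_geometric_of_norm_lt_one (by simpa using hz)
  unfold FL
  refine tsum_of_norm_bounded h1 fun n => ?_
  rw [norm_mul, norm_pow, Complex.norm_real, Real.norm_of_nonneg vonMangoldt_nonneg]
  gcongr
  exact vM_le n

theorem ray_top (β : ℝ) :
    (fun u : ℝ => FL ((Real.exp (-u) : ℂ) * e β)) =O[atTop] fun t => Real.exp (-1 * t) := by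
  refine IsBigO.of_bound 4 ?_
  filter_upwards [eventually_ge_atTop 1] with u hu
  have hu0 : 0 < u := by linarith
  have h1 := norm_FL_le (norm_ray_lt (β := β) hu0)
  rw [norm_ray] at h1
  have h2 : Real.exp (-u) ≤ 1 / 2 := by
    have : Real.exp (-u) ≤ Real.exp (-1) := Real.exp_le_exp.mpr (by linarith)
    have h3 : Real.exp (-1) < 0.3678794412 := Real.exp_neg_one_lt_d9
    linarith
  have h4 : (1 / 2 : ℝ) ^ 2 ≤ (1 - Real.exp (-u)) ^ 2 := by
    apply pow_le_pow_left₀ (by norm_num); linarith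
  rw [Real.norm_of_nonneg (Real.exp_pos _).le]
  refine h1.trans ?_
  rw [div_le_iff₀ (by nlinarith)]
  have h5 : Real.exp (-1 * u) = Real.exp (-u) := by ring_nf
  rw [h5]
  have := Real.exp_pos (-u)
  nlinarith

theorem kexp_top (k : ℂ) :
    (fun u : ℝ => k * ((Real.exp (-u) : ℂ) / u)) =O[atTop] fun t => Real.exp (-1 * t) := by
  refine IsBigO.of_bound ‖k‖ ?_
  filter_upwards [eventually_ge_atTop 1] with u hu
  have hu0 : 0 < u := by linarith
  rw [norm_mul, norm_div, Complex.norm_real, Complex.norm_real, Real.norm_of_nonneg hu0.le,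
    Real.norm_of_nonneg (Real.exp_pos _).le, Real.norm_of_nonneg (Real.exp_pos _).le]
  have h5 : Real.exp (-1 * u) = Real.exp (-u) := by ring_nf
  rw [h5]
  gcongr
  rw [div_le_iff₀ hu0]
  have := Real.exp_pos (-u)
  nlinarith

theorem mellin_kexp (k : ℂ) {s : ℂ} (hs : 1 < s.re) :
    HasMellin (fun u : ℝ => k * ((Real.exp (-u) : ℂ) / u)) s (k * Complex.Gamma (s - 1)) := by
  have h0 : HasMellin (fun u : ℝ => (Real.exp (-u) : ℂ)) (s + (-1)) (Complex.Gamma (s - 1)) := by
    refine ⟨?_, ?_⟩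
    · have := Complex.GammaIntegral_convergent (s := s + (-1)) (by simp; linarith)
      refine this.congr_fun (fun t _ => ?_) measurableSet_Ioi
      simp only [smul_eq_mul]
      ring
    · rw [← Complex.GammaIntegral_eq_mellin, Complex.Gamma_eq_integral (by simp; linarith)]
      rfl
  have h1 : HasMellin (fun u : ℝ => (u : ℂ) ^ (-1 : ℂ) • (Real.exp (-u) : ℂ)) s
      (Complex.Gamma (s - 1)) := by
    refine ⟨MellinConvergent.cpow_smul.mpr h0.1, ?_⟩
    rw [mellin_cpow_smul, h0.2]
  have h2 : HasMellin (fun u : ℝ => k • ((u : ℂ) ^ (-1 : ℂ) • (Real.exp (-u) : ℂ))) s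
      (k • Complex.Gamma (s - 1)) := by
    have := hasMellin_const_smul h1.1 k
    rw [h1.2] at this
    exact this
  have h3 : (fun u : ℝ => k * ((Real.exp (-u) : ℂ) / u)) =
      fun u : ℝ => k • ((u : ℂ) ^ (-1 : ℂ) • (Real.exp (-u) : ℂ)) := by
    funext u
    rw [Complex.cpow_neg_one, smul_eq_mul, smul_eq_mul]
    ring
  rw [h3]
  exact h2

theorem mellin_ext {β δ C u₁ : ℝ} {k : ℂ} (hδ0 : 0 ≤ δ) (hδ1 : δ ≤ 1) (hu₁ : 0 < u₁)
    (hG : ∀ u, 0 < u → u ≤ u₁ →
      ‖FL ((Real.exp (-u) : ℂ) * e β) - k / u‖ ≤ C * u ^ (-1 + δ)) :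
    ∃ M : ℂ → ℂ, (∀ s : ℂ, 1 - δ < s.re → DifferentiableAt ℂ M s) ∧
      ∀ s : ℂ, 1 < s.re →
        LSeries (fun n => (vonMangoldt n : ℂ) * e ((n : ℝ) * β)) s = M s + k / (s - 1) := by
  set G : ℝ → ℂ := fun u : ℝ => FL ((Real.exp (-u) : ℂ) * e β) with hGdef
  set K : ℝ → ℂ := fun u : ℝ => k * ((Real.exp (-u) : ℂ) / u) with hKdef
  set f : ℝ → ℂ := fun u => G u - K u with hf
  have hKc : ContinuousOn K (Set.Ioi 0) := by
    intro u hu
    have hu0 : (u : ℂ) ≠ 0 := by exact_mod_cast (ne_of_gt hu)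
    refine ContinuousAt.continuousWithinAt ?_
    rw [hKdef]
    fun_prop (disch := assumption)
  have hfc : ContinuousOn f (Set.Ioi 0) := (continuousOn_ray β).sub hKc
  have hfl : MeasureTheory.LocallyIntegrableOn f (Set.Ioi 0) :=
    hfc.locallyIntegrableOn measurableSet_Ioi
  have hft : f =O[atTop] fun t => Real.exp (-1 * t) := (ray_top β).sub (kexp_top k)
  have hfb : f =O[𝓝[>] 0] (fun u : ℝ => u ^ (-(1 - δ))) := by
    refine IsBigO.of_bound (C + ‖k‖) ?_
    have hm : Set.Ioo (0 : ℝ) (min u₁ 1) ∈ 𝓝[>] (0 : ℝ) :=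
      Ioo_mem_nhdsGT (lt_min hu₁ one_pos)
    filter_upwards [hm] with u hu
    have hu0 : 0 < u := hu.1
    have huu : u ≤ u₁ := (hu.2.trans_le (min_le_left _ _)).le
    have hu1 : u ≤ 1 := (hu.2.trans_le (min_le_right _ _)).le
    have h1 := hG u hu0 huu
    have h2 : ‖k / u - K u‖ ≤ ‖k‖ * u ^ (-1 + δ) := by
      have e1 : k / u - K u = k * (((1 - Real.exp (-u)) / u : ℝ) : ℂ) := by
        rw [hKdef]
        push_cast
        ring
      rw [e1, norm_mul, Complex.norm_real]
      have e2 : Real.exp (-u) ≤ 1 := Real.exp_le_one_iff.mpr (by linarith)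
      have e3 : 1 - u ≤ Real.exp (-u) := by
        have := Real.add_one_le_exp (-u); linarith
      rw [Real.norm_of_nonneg (div_nonneg (by linarith) hu0.le)]
      have e4 : (1 - Real.exp (-u)) / u ≤ 1 := by
        rw [div_le_one hu0]; linarith
      have e5 : (1 : ℝ) ≤ u ^ (-1 + δ) :=
        Real.one_le_rpow_of_pos_of_le_one_of_nonpos hu0 hu1 (by linarith)
      gcongr
      exact e4.trans e5
    have e6 : f u = (G u - k / u) + (k / u - K u) := by rw [hf]; ring
    have e7 : -(1 - δ) = -1 + δ := by ring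
    rw [e7, Real.norm_of_nonneg (Real.rpow_nonneg hu0.le _), e6, add_mul]
    exact (norm_add_le _ _).trans (add_le_add h1 h2)
  refine ⟨fun s => mellin f s * (Complex.Gamma s)⁻¹, ?_, ?_⟩
  · intro s hs
    refine (mellin_differentiableAt_of_isBigO_rpow_exp one_pos hfl hft hfb hs).mul ?_
    exact Complex.differentiable_one_div_Gamma s
  · intro s hs
    have hs0 : 0 < s.re := by linarith
    have h1 : MellinConvergent f s :=
      mellinConvergent_of_isBigO_rpow_exp one_pos hfl hft hfb (by linarith)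
    have h2 := mellin_kexp k hs
    have h3 := hasMellin_add h1 h2.1
    have h4 : (fun t => f t + K t) = G := by funext t; rw [hf]; ring
    have h5 : mellin G s = mellin f s + k * Complex.Gamma (s - 1) := by
      have := h3.2
      rw [h2.2] at this
      rw [← this]
      congr 1
      exact h4.symm
    have hLs : LSeriesSummable (fun n => (vonMangoldt n : ℂ)) s :=
      ArithmeticFunction.LSeriesSummable_vonMangoldt hs
    have hF : ∀ t ∈ Set.Ioi (0 : ℝ), HasSum
        (fun i : ℕ => ((vonMangoldt i : ℂ) * e ((i : ℝ) * β)) * (Real.exp (-(i : ℝ) * t) : ℂ))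
        (G t) := by
      intro t ht
      have h9 := (summable_FL (norm_ray_lt (β := β) ht)).of_norm.hasSum
      have h10 : (fun i : ℕ => ((vonMangoldt i : ℂ) * e ((i : ℝ) * β)) *
          (Real.exp (-(i : ℝ) * t) : ℂ)) =
          fun n : ℕ => (vonMangoldt n : ℂ) * ((Real.exp (-t) : ℂ) * e β) ^ n := by
        funext i
        rw [e_nat_mul, mul_pow, ← Complex.ofReal_pow, ← Real.exp_nat_mul]
        have : (-(i : ℝ) * t) = (i : ℝ) * -t := by ring
        rw [this]
        ring
      rw [h10]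
      exact h9
    have hsum : Summable fun i : ℕ =>
        ‖(vonMangoldt i : ℂ) * e ((i : ℝ) * β)‖ / ((i : ℝ)) ^ s.re := by
      refine hLs.norm.congr fun i => ?_
      rw [LSeries.norm_term_eq, norm_mul, norm_e, mul_one]
      split_ifs with h
      · subst h; simp
      · rfl
    have h6 := hasSum_mellin (p := fun i : ℕ => (i : ℝ)) (s := s) (F := G)
      (a := fun i : ℕ => (vonMangoldt i : ℂ) * e ((i : ℝ) * β)) (fun i => by
        rcases Nat.eq_zero_or_pos i with rfl | hi
        · left; simp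
        · right; exact_mod_cast hi) hs0 hF hsum
    have h7 : mellin G s = Complex.Gamma s *
        LSeries (fun n => (vonMangoldt n : ℂ) * e ((n : ℝ) * β)) s := by
      rw [← h6.tsum_eq, LSeries, ← tsum_mul_left]
      refine tsum_congr fun i => ?_
      rcases Nat.eq_zero_or_pos i with rfl | hi
      · simp
      · rw [LSeries.term_of_ne_zero hi.ne']
        push_cast
        ring
    have hG0 : Complex.Gamma s ≠ 0 := Complex.Gamma_ne_zero_of_re_pos hs0
    have hs1 : s - 1 ≠ 0 := by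
      intro h
      have := congrArg Complex.re h
      simp at this
      linarith
    have hGs : Complex.Gamma s = (s - 1) * Complex.Gamma (s - 1) := by
      have := Complex.Gamma_add_one (s - 1) hs1
      rwa [sub_add_cancel] at this
    have h8 : LSeries (fun n => (vonMangoldt n : ℂ) * e ((n : ℝ) * β)) s =
        (mellin f s + k * Complex.Gamma (s - 1)) / Complex.Gamma s := by
      rw [← h5, h7, eq_div_iff hG0, mul_comm]
    have hG1 : Complex.Gamma (s - 1) ≠ 0 := by
      intro h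
      rw [h, mul_zero] at hGs
      exact hG0 hGs
    rw [h8, add_div, div_eq_mul_inv (mellin f s)]
    congr 1
    rw [hGs]
    field_simp

end Vale.Agent.P026.TP
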