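import Mathlib
import Vale.Agent.P026.TP.M1

/-! A zero free half plane gives a power saving for `∑ μ(n) χ(n)`. -/

open Finset Real DirichletCharacter ArithmeticFunction Metric

namespace Vale.Agent.P026.TP

open Rz

theorem lseries_mu_chi {q : ℕ} (χ : DirichletCharacter ℂ q) [NeZero q] {s : ℂ}
    (hs : 1 < s.re) :
    LSeries (fun n : ℕ => ((moebius n : ℤ) : ℂ) * χ (n : ZMod q)) s = (LFunction χ s)⁻¹ := by
  have h1 := LSeries.mul_mu_eq_one χ hs
  rw [← LFunction_eq_LSeries χ hs] at h1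
  have h2 : LSeries (fun n : ℕ => ((moebius n : ℤ) : ℂ) * χ (n : ZMod q)) s =
      LSeries ((fun n : ℕ => χ (n : ZMod q)) * fun n : ℕ => ((moebius n : ℤ) : ℂ)) s := by
    congr 1
    funext n
    simp [mul_comm]
  rw [h2]
  exact eq_inv_of_mul_eq_one_right h1

theorem norm_mu_chi_le {q : ℕ} (χ : DirichletCharacter ℂ q) (n : ℕ) :
    ‖((moebius n : ℤ) : ℂ) * χ (n : ZMod q)‖ ≤ 1 := by
  rw [norm_mul]
  have a1 := χ.norm_le_one (n : ZMod q)
  have a2 : ‖((moebius n : ℤ) : ℂ)‖ ≤ 1 := by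
    rw [Complex.norm_intCast]
    exact_mod_cast abs_moebius_le_one
  calc _ ≤ (1 : ℝ) * 1 := mul_le_mul a2 a1 (norm_nonneg _) zero_le_one
    _ = 1 := one_mul 1

/-- `1 / L(s, χ₀)` near the line `Re s = 1` -/
theorem zf_triv_inv {d : ℝ} (hd : 0 < d) (hd2 : d ≤ 1 / 2) {q : ℕ} [NeZero q]
    (hz : ∀ s : ℂ, 1 - d < s.re → s.re < 1 →
      LFunction (1 : DirichletCharacter ℂ q) s ≠ 0) {s : ℂ}
    (h1 : 1 - d / 40 ≤ s.re) (h2 : s.re ≤ 1 + d / 40) :
    ‖(s - 1) / LFunctionTrivChar₁ q s‖ ≤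
      3 * (Cd d * ((q : ℝ) * (1 + |s.im|)) ^ (1 / 2 : ℝ)) := by
  have hq : (1 : ℝ) ≤ q := by exact_mod_cast Nat.one_le_iff_ne_zero.mpr (NeZero.ne q)
  have ht := abs_nonneg s.im
  have hCd := Cd_pos hd
  have hT := zf_triv hd hd2 hz h1 h2
  by_cases hs2 : |s.im| < 2
  · have e1 : ‖s - 1‖ ≤ 3 := by
      have h4 := Complex.norm_le_abs_re_add_abs_im (s - 1)
      simp only [Complex.sub_re, Complex.one_re, Complex.sub_im, Complex.one_im, sub_zero] at h4
      have h5 : |s.re - 1| ≤ 1 := abs_le.mpr ⟨by linarith, by linarith⟩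
      linarith
    rw [div_eq_mul_inv, norm_mul, norm_inv]
    exact mul_le_mul e1 hT.2.1 (by positivity) (by norm_num)
  · have hs2' : 2 ≤ |s.im| := not_lt.mp hs2
    set a : ℂ := (((1 + d / 40 : ℝ) : ℂ) + (s.im : ℂ) * Complex.I) with ha
    have hare : a.re = 1 + d / 40 := by simp [ha]
    set Y : ℝ := (q : ℝ) * (1 + |s.im|) with hY
    have hY1 : 1 ≤ Y := by rw [hY]; nlinarith
    have him : ∀ z ∈ ball a d, 1 ≤ ‖z - 1‖ := by
      intro z hz1
      rw [mem_ball, dist_eq_norm] at hz1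
      have h3 : |(z - a).im| < d := (Complex.abs_im_le_norm _).trans_lt hz1
      have h4 : (z - a).im = z.im - s.im := by simp [ha]
      rw [h4] at h3
      have h5 : |s.im| ≤ |z.im| + |z.im - s.im| := by
        have := abs_sub_abs_le_abs_sub s.im z.im
        rw [abs_sub_comm s.im z.im] at this
        linarith
      have h6 : |z.im| ≤ ‖z - 1‖ := by
        have := Complex.abs_im_le_norm (z - 1)
        simpa using this
      linarith
    have hne1 : ∀ z ∈ ball a d, z ≠ 1 := by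
      intro z hz1 h
      have := him z hz1
      rw [h, sub_self, norm_zero] at this
      linarith
    have hT1 : ∀ z ∈ ball a d, LFunctionTrivChar₁ q z = (z - 1) *
        LFunction (1 : DirichletCharacter ℂ q) z := by
      intro z hz1
      rw [LFunctionTrivChar₁, Function.update_of_ne (hne1 z hz1)]
    have hsnear := near_centre hd h1 h2
    have hsball : s ∈ ball a d := by
      rw [mem_ball, dist_eq_norm]
      linarith
    have hmain : ‖LFunction (1 : DirichletCharacter ℂ q) s‖⁻¹ ≤ Cd d * Y ^ (1 / 2 : ℝ) := by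
      refine (zf_core (a := a) hd hd2 hY1 ?_ ?_ ?_ ?_ hsnear).1
      · intro z hz1
        exact (differentiableAt_LFunction _ z (Or.inl (hne1 z hz1))).differentiableWithinAt
      · intro z hz1
        have h3 := (ball_facts hd hd2 hz1).1
        by_cases h' : z.re < 1
        · exact hz z h3 h'
        · exact LFunction_ne_zero_of_one_le_re _ (Or.inr (hne1 z hz1)) (not_lt.mp h')
      · intro z hz1
        obtain ⟨_, f2, f3, f4⟩ := ball_facts hd hd2 hz1
        have h5 := Gr.norm_triv_le q (s := z) (by linarith)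
        rw [hT1 z hz1, norm_mul] at h5
        have h6 : ‖LFunction (1 : DirichletCharacter ℂ q) z‖ ≤
            ‖z - 1‖ * ‖LFunction (1 : DirichletCharacter ℂ q) z‖ :=
          le_mul_of_one_le_left (norm_nonneg _) (him z hz1)
        refine h6.trans (h5.trans ?_)
        have e1 : ‖z‖ / z.re ≤ 2 * (3 * (1 + |s.im|)) := by
          rw [div_le_iff₀ (by linarith)]
          nlinarith
        calc (q : ℝ) * (‖z‖ + ‖z - 1‖ * (‖z‖ / z.re))
            ≤ q * (3 * (1 + |s.im|) + (3 * (1 + |s.im|)) * (2 * (3 * (1 + |s.im|)))) := by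
              gcongr
          _ ≤ q * (21 * (1 + |s.im|) ^ 2) := by
              refine mul_le_mul_of_nonneg_left ?_ (by linarith)
              nlinarith
          _ ≤ 21 * Y ^ 2 := by
              rw [hY, mul_pow]
              have : (q : ℝ) ≤ q ^ 2 := by nlinarith
              nlinarith [sq_nonneg (1 + |s.im|)]
      · have := Gr.ll_inv q (1 : DirichletCharacter ℂ q) a (by rw [hare]; linarith)
          (by rw [hare]; linarith)
        rw [hare] at this
        nlinarith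
    have hs1 : s - 1 ≠ 0 := sub_ne_zero.mpr (hne1 s hsball)
    rw [hT1 s hsball]
    have e1 : (s - 1) / ((s - 1) * LFunction (1 : DirichletCharacter ℂ q) s) =
        (LFunction (1 : DirichletCharacter ℂ q) s)⁻¹ := by
      rw [div_mul_eq_div_div, div_self hs1, one_div]
    rw [e1, norm_inv]
    have : 0 ≤ Cd d * Y ^ (1 / 2 : ℝ) := by positivity
    linarith

/-- A zero free half plane of a single `L`-function gives a power saving for `∑ μ(n) χ(n)`, with
an exponent that depends on the half plane only. -/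
theorem mu_chi_power {d : ℝ} (hd : 0 < d) (hd2 : d ≤ 1 / 2) {q : ℕ} [NeZero q]
    (χ : DirichletCharacter ℂ q) (hz : ∀ s : ℂ, 1 - d < s.re → s.re < 1 → LFunction χ s ≠ 0)
    (x : ℝ) (hx : 1 ≤ x) :
    ‖∑ n ∈ Icc 1 ⌊x⌋₊, ((moebius n : ℤ) : ℂ) * χ (n : ZMod q)‖ ≤
      3 * KK d * (q : ℝ) ^ (1 / 2 : ℝ) * x ^ (1 - d / 160) := by
  have hq : (1 : ℝ) ≤ q := by exact_mod_cast Nat.one_le_iff_ne_zero.mpr (NeZero.ne q)
  set F : ℂ → ℂ := if χ = 1 then fun s => (s - 1) / LFunctionTrivChar₁ q s else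
    fun s => (LFunction χ s)⁻¹ with hF
  have hlog : ∀ n : ℕ, 1 ≤ n → 0 ≤ Real.log n := fun n hn =>
    Real.log_nonneg (by exact_mod_cast hn)
  have hFeq : ∀ s : ℂ, 1 < s.re → F s = (LFunction χ s)⁻¹ := by
    intro s hs
    by_cases h : χ = 1
    · have hs1 : s ≠ 1 := by
        intro h'
        rw [h'] at hs
        simp at hs
      have hs2 : s - 1 ≠ 0 := sub_ne_zero.mpr hs1
      rw [hF, if_pos h, LFunctionTrivChar₁, Function.update_of_ne hs1, div_mul_eq_div_div, div_self hs2,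
        one_div, h]
    · rw [hF, if_neg h]
  have hFd : ∀ s : ℂ, 1 - d / 40 ≤ s.re → s.re ≤ 1 + d / 40 → DifferentiableAt ℂ F s := by
    intro s h1 h2
    by_cases h : χ = 1
    · rw [hF, if_pos h]
      refine DifferentiableAt.fun_div (by fun_prop) (differentiable_LFunctionTrivChar₁ q s) ?_
      rw [h] at hz
      exact (zf_triv hd hd2 hz h1 h2).1
    · rw [hF, if_neg h]
      exact (differentiable_LFunction h s).inv (zf_nontriv hd hd2 h hz h1 h2).1
  have hFb : ∀ s : ℂ, 1 - d / 40 ≤ s.re → s.re ≤ 1 + d / 40 →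
      ‖F s‖ ≤ 3 * (Cd d * ((q : ℝ) * (1 + |s.im|)) ^ (1 / 2 : ℝ)) := by
    intro s h1 h2
    by_cases h : χ = 1
    · rw [hF, if_pos h]
      rw [h] at hz
      exact zf_triv_inv hd hd2 hz h1 h2
    · rw [hF, if_neg h]
      have := (zf_nontriv hd hd2 h hz h1 h2).2.1
      rw [← norm_inv] at this
      refine this.trans ?_
      have h3 := (norm_nonneg _).trans this
      linarith
  have h := power_saving (fun n => (1 / 3 : ℂ) * (((moebius n : ℤ) : ℂ) * χ (n : ZMod q))) 0
    (fun s => (1 / 3 : ℂ) * F s) hd hd2 hq (by simp) ?_ ?_ ?_ ?_ ?_ x hx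
  · rw [← Finset.mul_sum, zero_mul, sub_zero, norm_mul] at h
    have e1 : ‖(1 / 3 : ℂ)‖ = 1 / 3 := by simp
    rw [e1] at h
    linarith
  · intro n hn
    rw [norm_mul]
    have e1 : ‖(1 / 3 : ℂ)‖ = 1 / 3 := by simp
    rw [e1]
    have := norm_mu_chi_le χ n
    have := hlog n hn
    linarith
  · have h1 : LSeriesSummable (fun n : ℕ => ((moebius n : ℤ) : ℂ) * χ (n : ZMod q))
        ((1 + d / 40 : ℝ) : ℂ) := by
      refine LSeriesSummable_of_bounded_of_one_lt_re (m := 1) (fun n _ => norm_mu_chi_le χ n) ?_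
      rw [Complex.ofReal_re]
      linarith
    exact h1.smul (1 / 3 : ℂ)
  · intro s hs
    have h1 : LSeries (fun n : ℕ => (1 / 3 : ℂ) * (((moebius n : ℤ) : ℂ) * χ (n : ZMod q))) s =
        (1 / 3 : ℂ) * LSeries (fun n : ℕ => ((moebius n : ℤ) : ℂ) * χ (n : ZMod q)) s :=
      LSeries_smul _ (1 / 3 : ℂ) s
    rw [h1, lseries_mu_chi χ hs, hFeq s hs, zero_div, add_zero]
  · intro s h1 h2
    exact (hFd s h1 h2).const_mul _
  · intro s h1 h2
    rw [norm_mul]
    have e1 : ‖(1 / 3 : ℂ)‖ = 1 / 3 := by simp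
    rw [e1]
    have := hFb s h1 h2
    linarith

end Vale.Agent.P026.TP
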