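import Vale.Agent.P026.TP.SingMain
import Vale.Agent.P026.TP.Cube
import Vale.Agent.P026.TP.Mellin

/-!
# P026 TP: the cube of the generating function on the ray to `e(a/q)`
-/

open Finset ArithmeticFunction Filter Topology

namespace Vale.Agent.P026.TP

/-- elementary facts on `T = 1 / (1 - e^{-u})`. -/
theorem T_facts {u : ℝ} (hu0 : 0 < u) (hu1 : u ≤ 1) :
    1 / u ≤ 1 / (1 - Real.exp (-u)) ∧ 1 / (1 - Real.exp (-u)) ≤ 1 / u + 1 ∧
      1 / (1 - Real.exp (-u)) ≤ 2 / u ∧ 0 < 1 - Real.exp (-u) := by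
  have h1 : 1 - u ≤ Real.exp (-u) := by
    have := Real.add_one_le_exp (-u); linarith
  have h2 : Real.exp (-u) ≤ 1 - u + u ^ 2 / 2 := by
    have := Real.abs_exp_sub_one_sub_id_le (x := -u) (by rw [abs_neg, abs_of_pos hu0]; exact hu1)
    -- weaker bound; use the alternating series instead
    have h3 : 1 + u + u ^ 2 / 2 ≤ Real.exp u := Real.quadratic_le_exp_of_nonneg hu0.le
    rw [Real.exp_neg]
    rw [inv_le_iff_one_le_mul₀ (Real.exp_pos u)]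
    have h4 : 0 ≤ 1 - u + u ^ 2 / 2 := by nlinarith
    have h5 : (1 - u + u ^ 2 / 2) * (1 + u + u ^ 2 / 2) ≤ (1 - u + u ^ 2 / 2) * Real.exp u :=
      mul_le_mul_of_nonneg_left h3 h4
    have h6 : (1 - u + u ^ 2 / 2) * (1 + u + u ^ 2 / 2) = 1 + u ^ 4 / 4 := by ring
    have h7 : 0 ≤ u ^ 4 / 4 := by positivity
    linarith
  have h3 : 0 < 1 - Real.exp (-u) := by nlinarith
  have h4 : 1 - Real.exp (-u) ≤ u := by linarith
  have h5 : u - u ^ 2 / 2 ≤ 1 - Real.exp (-u) := by linarith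
  refine ⟨one_div_le_one_div_of_le h3 h4, ?_, ?_, h3⟩
  · rw [div_le_iff₀ h3]
    have : 1 ≤ (1 / u + 1) * (u - u ^ 2 / 2) := by
      have e1 : (1 / u + 1) * (u - u ^ 2 / 2) = 1 + u / 2 - u ^ 2 / 2 := by
        field_simp
        ring
      rw [e1]
      nlinarith
    refine this.trans (mul_le_mul_of_nonneg_left h5 (by positivity))
  · rw [div_le_div_iff₀ h3 hu0]
    nlinarith

/-- `∑ n ^ (2 - δ) rⁿ ≤ 13 T ^ (3 - δ)` -/
theorem sum_rpow_le {δ r : ℝ} (hδ0 : 0 ≤ δ) (hδ2 : δ ≤ 1) (hr0 : 0 ≤ r) (hr1 : r < 1) :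
    Summable (fun n : ℕ => (n : ℝ) ^ (2 - δ) * r ^ n) ∧
      ∑' n : ℕ, (n : ℝ) ^ (2 - δ) * r ^ n ≤ 13 * (1 / (1 - r)) ^ (3 - δ) := by
  have hd : 0 < 1 - r := by linarith
  set T : ℝ := 1 / (1 - r) with hT
  have hT0 : 0 < T := by positivity
  have hrn : ‖r‖ < 1 := by rwa [Real.norm_of_nonneg hr0]
  have h0 : HasSum (fun n : ℕ => r ^ n) T := by
    rw [hT, one_div]; exact hasSum_geometric_of_lt_one hr0 hr1
  obtain ⟨h2s, h2⟩ : Summable (fun n : ℕ => (n : ℝ) ^ 2 * r ^ n) ∧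
      ∑' n : ℕ, (n : ℝ) ^ 2 * r ^ n ≤ 12 * T ^ 3 := by
    obtain ⟨h3, h4⟩ := H2_abs hr0 hr1
    have h6 : (fun n : ℕ => (n : ℝ) ^ 2 * r ^ n) = fun n : ℕ => 2 * ((n : ℝ) ^ 2 / 2 * r ^ n) := by
      funext n; ring
    rw [h6]
    refine ⟨h3.mul_left 2, ?_⟩
    rw [tsum_mul_left]
    linarith
  have hTd : 0 < T ^ (-δ) := Real.rpow_pos_of_pos hT0 _
  have hpt : ∀ n : ℕ, (n : ℝ) ^ (2 - δ) * r ^ n ≤
      T ^ (-δ) * ((n : ℝ) ^ 2 * r ^ n) + T ^ (-δ) * T ^ 2 * r ^ n := by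
    intro n
    have hrp : 0 ≤ r ^ n := pow_nonneg hr0 n
    have : (n : ℝ) ^ (2 - δ) ≤ T ^ (-δ) * (n : ℝ) ^ 2 + T ^ (-δ) * T ^ 2 := by
      rcases le_or_gt (n : ℝ) T with hn | hn
      · have h8 : (n : ℝ) ^ (2 - δ) ≤ T ^ (2 - δ) :=
          Real.rpow_le_rpow (Nat.cast_nonneg n) hn (by linarith)
        have h9 : T ^ (2 - δ) = T ^ (-δ) * T ^ 2 := by
          rw [← Real.rpow_natCast, ← Real.rpow_add hT0]
          congr 1; push_cast; ring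
        have h10 : 0 ≤ T ^ (-δ) * (n : ℝ) ^ 2 := by positivity
        linarith
      · have hn0 : (0 : ℝ) < n := hT0.trans hn
        have h8 : (n : ℝ) ^ (-δ) ≤ T ^ (-δ) :=
          Real.rpow_le_rpow_of_nonpos hT0 hn.le (by linarith)
        have h9 : (n : ℝ) ^ (2 - δ) = (n : ℝ) ^ (-δ) * (n : ℝ) ^ 2 := by
          rw [← Real.rpow_natCast, ← Real.rpow_add hn0]
          congr 1; push_cast; ring
        have h10 : 0 ≤ T ^ (-δ) * T ^ 2 := by positivity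
        rw [h9]
        have h11 : (n : ℝ) ^ (-δ) * (n : ℝ) ^ 2 ≤ T ^ (-δ) * (n : ℝ) ^ 2 :=
          mul_le_mul_of_nonneg_right h8 (by positivity)
        linarith
    calc (n : ℝ) ^ (2 - δ) * r ^ n ≤ (T ^ (-δ) * (n : ℝ) ^ 2 + T ^ (-δ) * T ^ 2) * r ^ n :=
          mul_le_mul_of_nonneg_right this hrp
      _ = _ := by ring
  have hsum2 : Summable (fun n : ℕ =>
      T ^ (-δ) * ((n : ℝ) ^ 2 * r ^ n) + T ^ (-δ) * T ^ 2 * r ^ n) :=
    (h2s.mul_left _).add (h0.summable.mul_left _)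
  have hsum : Summable (fun n : ℕ => (n : ℝ) ^ (2 - δ) * r ^ n) :=
    Summable.of_nonneg_of_le (fun n => by positivity) hpt hsum2
  refine ⟨hsum, (hsum.tsum_le_tsum hpt hsum2).trans ?_⟩
  rw [(h2s.mul_left _).tsum_add (h0.summable.mul_left _), tsum_mul_left, tsum_mul_left, h0.tsum_eq]
  have h9 : T ^ (3 - δ) = T ^ (-δ) * T ^ 3 := by
    rw [← Real.rpow_natCast, ← Real.rpow_add hT0]
    congr 1; push_cast; ring
  rw [h9]
  have := mul_le_mul_of_nonneg_left h2 hTd.le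
  nlinarith

theorem ray3 (hS : SingularStmt) {δ : ℝ} (hδ0 : 0 < δ) (hδ : δ ≤ 1 / 2) (hT : ThreePrimes δ)
    {q a : ℕ} (hq : 1 ≤ q) (ha : Nat.Coprime a q) :
    ∃ C u₀ : ℝ, 0 < u₀ ∧ ∀ u, 0 < u → u ≤ u₀ →
      ‖FL ((Real.exp (-u) : ℂ) * e ((a : ℝ) / q)) ^ 3 -
        (((moebius q : ℤ) : ℂ) / (Nat.totient q : ℂ)) ^ 3 / (u : ℂ) ^ 3‖ ≤ C * u ^ (-3 + δ) := by
  obtain ⟨C₁, hC₁, hsing⟩ := sing_gen hS hq ha
  obtain ⟨C₂', hC₂'⟩ := hT
  set C₂ : ℝ := max C₂' 0 with hC₂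
  have hC20 : 0 ≤ C₂ := le_max_right _ _
  have hq0 : (0 : ℝ) < q := by exact_mod_cast hq
  have hq1 : (1 : ℝ) ≤ q := by exact_mod_cast hq
  have herr : ∀ n : ℕ, |r3 n - singular n * (n : ℝ) ^ 2 / 2| ≤ C₂ * (n : ℝ) ^ (2 - δ) := by
    intro n
    rcases Nat.eq_zero_or_pos n with rfl | hn
    · have h0 : r3 0 = 0 := by simp [r3]
      rw [h0]
      simp only [Nat.cast_zero, ne_eq, OfNat.ofNat_ne_zero, not_false_eq_true, zero_pow, mul_zero,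
        zero_div, sub_zero, abs_zero]
      rw [Real.zero_rpow (by linarith), mul_zero]
    · exact (hC₂' n hn).trans (mul_le_mul_of_nonneg_right (le_max_left _ _) (by positivity))
  have hmu : (((moebius q : ℤ) : ℂ) / (Nat.totient q : ℂ)) ^ 3 = cf q := by
    have h1 : ((moebius q : ℤ) : ℂ) ^ 3 = ((moebius q : ℤ) : ℂ) := by
      have h2 : |moebius q| ≤ 1 := abs_moebius_le_one
      rw [abs_le] at h2
      obtain ⟨h3, h4⟩ := h2
      have h5 : moebius q = -1 ∨ moebius q = 0 ∨ moebius q = 1 := by omega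
      rcases h5 with h | h | h <;> rw [h] <;> norm_num
    rw [div_pow, h1, cf]
  refine ⟨C₁ * 8 + C₂ * 13 * 8 + 7, 1 / q, by positivity, fun u hu0 hu1 => ?_⟩
  have hu1' : u ≤ 1 := hu1.trans (by rw [div_le_one hq0]; exact hq1)
  obtain ⟨hT1, hT2, hT3, hd⟩ := T_facts hu0 hu1'
  set r : ℝ := Real.exp (-u) with hr
  set T : ℝ := 1 / (1 - r) with hTdef
  have hT0 : 0 < T := by positivity
  have hr0 : 0 ≤ r := (Real.exp_pos _).le
  have hr1 : r < 1 := by linarith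
  have hrq : 1 - 1 / (q : ℝ) ≤ r := by
    have := Real.add_one_le_exp (-u)
    linarith
  set z : ℂ := (r : ℂ) * e ((a : ℝ) / q) with hz
  have hzn : ‖z‖ = r := by rw [hz, hr]; exact norm_ray
  have hz1 : ‖z‖ < 1 := by rw [hzn]; exact hr1
  obtain ⟨hs1, hb1⟩ := hsing r hr0 hrq hr1
  obtain ⟨hs2, hb2⟩ := FL_cube hz1
  obtain ⟨hs3, hb3⟩ := sum_rpow_le hδ0.le (by linarith) hr0 hr1
  have hdiff : FL z ^ 3 - ∑' n : ℕ, (singular n : ℂ) * ((n : ℂ) ^ 2 / 2) * z ^ n =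
      ∑' n : ℕ, ((r3 n - singular n * (n : ℝ) ^ 2 / 2 : ℝ) : ℂ) * z ^ n := by
    rw [hb2, ← hs2.of_norm.tsum_sub hs1.of_norm]
    refine tsum_congr fun n => ?_
    push_cast
    ring
  have hb4 : ‖FL z ^ 3 - ∑' n : ℕ, (singular n : ℂ) * ((n : ℂ) ^ 2 / 2) * z ^ n‖ ≤
      C₂ * (13 * T ^ (3 - δ)) := by
    rw [hdiff]
    have h1 : HasSum (fun n : ℕ => C₂ * ((n : ℝ) ^ (2 - δ) * r ^ n))
        (C₂ * ∑' n : ℕ, (n : ℝ) ^ (2 - δ) * r ^ n) := hs3.hasSum.mul_left C₂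
    refine (tsum_of_norm_bounded h1 fun n => ?_).trans (mul_le_mul_of_nonneg_left hb3 hC20)
    rw [norm_mul, norm_pow, hzn, Complex.norm_real, Real.norm_eq_abs, ← mul_assoc]
    exact mul_le_mul_of_nonneg_right (herr n) (by positivity)
  have hpow : ∀ x : ℝ, 0 ≤ x → x ≤ 3 → T ^ x ≤ 8 * u ^ (-x) := by
    intro x hx hx3
    calc T ^ x ≤ (2 / u) ^ x := Real.rpow_le_rpow hT0.le hT3 hx
      _ = 2 ^ x * u ^ (-x) := by
        rw [Real.div_rpow (by norm_num) hu0.le, Real.rpow_neg hu0.le, div_eq_mul_inv]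
      _ ≤ 8 * u ^ (-x) := by
        refine mul_le_mul_of_nonneg_right ?_ (by positivity)
        calc (2 : ℝ) ^ x ≤ 2 ^ (3 : ℝ) := Real.rpow_le_rpow_of_exponent_le (by norm_num) hx3
          _ = 8 := by norm_num
  have hup : ∀ x y : ℝ, x ≤ y → u ^ y ≤ u ^ x := fun x y hxy =>
    Real.rpow_le_rpow_of_exponent_ge hu0 hu1' hxy
  have hb5 : ‖cf q * (1 / (1 - (r : ℂ)) ^ 3) - cf q / (u : ℂ) ^ 3‖ ≤ 7 * u ^ (-3 + δ) := by
    have e1 : cf q * (1 / (1 - (r : ℂ)) ^ 3) - cf q / (u : ℂ) ^ 3 =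
        cf q * ((T ^ 3 - (1 / u) ^ 3 : ℝ) : ℂ) := by
      rw [hTdef]
      push_cast
      simp only [one_div, inv_pow]
      ring
    have e2 : 0 ≤ T ^ 3 - (1 / u) ^ 3 := by
      have := pow_le_pow_left₀ (by positivity) hT1 3
      linarith
    have e3 : T ^ 3 - (1 / u) ^ 3 ≤ 7 * u ^ (-2 : ℝ) := by
      have h1 := pow_le_pow_left₀ hT0.le hT2 3
      have h2 : (1 : ℝ) ≤ 1 / u := by rw [le_div_iff₀ hu0]; linarith
      have h3 : u ^ (-2 : ℝ) = (1 / u) ^ 2 := by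
        rw [one_div, inv_pow, Real.rpow_neg hu0.le]
        norm_num
      rw [h3]
      nlinarith
    rw [e1, norm_mul, Complex.norm_real, Real.norm_of_nonneg e2]
    calc ‖cf q‖ * (T ^ 3 - (1 / u) ^ 3) ≤ 1 * (7 * u ^ (-2 : ℝ)) :=
          mul_le_mul (norm_cf_le_one hq) e3 e2 zero_le_one
      _ ≤ 7 * u ^ (-3 + δ) := by
        have := hup (-3 + δ) (-2) (by linarith)
        linarith
  have hsplit : FL z ^ 3 - (((moebius q : ℤ) : ℂ) / (Nat.totient q : ℂ)) ^ 3 / (u : ℂ) ^ 3 =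
      (FL z ^ 3 - ∑' n : ℕ, (singular n : ℂ) * ((n : ℂ) ^ 2 / 2) * z ^ n) +
      (∑' n : ℕ, (singular n : ℂ) * ((n : ℂ) ^ 2 / 2) * z ^ n -
        cf q * (1 / (1 - (r : ℂ)) ^ 3)) +
      (cf q * (1 / (1 - (r : ℂ)) ^ 3) - cf q / (u : ℂ) ^ 3) := by
    rw [hmu]; ring
  rw [hsplit]
  refine (norm_add₃_le).trans ?_
  have f1 : C₂ * (13 * T ^ (3 - δ)) ≤ C₂ * 13 * 8 * u ^ (-3 + δ) := by
    have h1 := hpow (3 - δ) (by linarith) (by linarith)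
    have h2 : -(3 - δ) = -3 + δ := by ring
    rw [h2] at h1
    have h3 := mul_le_mul_of_nonneg_left h1 hC20
    nlinarith
  have f2 : C₁ * T ^ (5 / 2 : ℝ) ≤ C₁ * 8 * u ^ (-3 + δ) := by
    have h1 := hpow (5 / 2) (by norm_num) (by norm_num)
    have h2 := hup (-3 + δ) (-(5 / 2)) (by linarith)
    have h3 := mul_le_mul_of_nonneg_left (h1.trans (mul_le_mul_of_nonneg_left h2 (by norm_num)))
      hC₁.le
    linarith
  have f3 := hb4.trans f1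
  have f4 := hb1.trans f2
  linarith [f3, f4, hb5]

end Vale.Agent.P026.TP
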