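import Vale.Agent.P026.TP.M7
import Vale.Agent.P026.TP.Defs2

/-!
# P026 (binary Goldbach in mean square): the singular series
-/

open Finset ArithmeticFunction

namespace Vale.Agent.P026.TP

/-- The terms of the binary singular series. -/
noncomputable def fR2 (n q : ℕ) : ℝ := (moebius q : ℝ) ^ 2 / (Nat.totient q : ℝ) ^ 2 * ramR n q

theorem fR2_zero (n : ℕ) : fR2 n 0 = 0 := by simp [fR2]

theorem fR2_one (n : ℕ) : fR2 n 1 = 1 := by
  simp [fR2, (ramR_mult n).1]

theorem fR2_mul (n : ℕ) {m k : ℕ} (h : Nat.Coprime m k) : fR2 n (m * k) = fR2 n m * fR2 n k := by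
  unfold fR2
  rw [Nat.totient_mul h, (ramR_mult n).2 h, isMultiplicative_moebius.2 h]
  push_cast
  rw [mul_pow, mul_pow]
  ring

/-- The majorant of the terms. -/
noncomputable def mj (n q : ℕ) : ℝ :=
  ∑ d ∈ n.divisors, if d ∣ q then 4 * (d : ℝ) * (1 / ((q : ℝ) * Real.sqrt q)) else 0

theorem abs_ramR_le_div {n : ℕ} (hn : n ≠ 0) (q : ℕ) (hq : q ≠ 0) :
    |ramR n q| ≤ ∑ d ∈ n.divisors, if d ∣ q then (d : ℝ) else 0 := by
  rw [ramR_apply]
  have h0 : ∑ d ∈ q.divisors, (moebius d : ℝ) * (if (q / d) ∣ n then ((q / d : ℕ) : ℝ) else 0) =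
      ∑ d ∈ q.divisors, (moebius (q / d) : ℝ) * (if d ∣ n then (d : ℝ) else 0) := by
    rw [← Nat.sum_div_divisors q (fun d => (moebius (q / d) : ℝ) * (if d ∣ n then (d : ℝ) else 0))]
    refine Finset.sum_congr rfl fun d hd => ?_
    rw [Nat.div_div_self (Nat.dvd_of_mem_divisors hd) hq]
  rw [h0]
  calc |∑ d ∈ q.divisors, (moebius (q / d) : ℝ) * (if d ∣ n then (d : ℝ) else 0)|
      ≤ ∑ d ∈ q.divisors, |(moebius (q / d) : ℝ) * (if d ∣ n then (d : ℝ) else 0)| :=
        Finset.abs_sum_le_sum_abs _ _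
    _ ≤ ∑ d ∈ q.divisors, (if d ∣ n then (d : ℝ) else 0) := by
        refine Finset.sum_le_sum fun d _ => ?_
        rw [abs_mul]
        have hmu : |(moebius (q / d) : ℝ)| ≤ 1 := by
          have := abs_moebius_le_one (n := q / d)
          exact_mod_cast this
        have h1 : |(if d ∣ n then (d : ℝ) else 0)| = (if d ∣ n then (d : ℝ) else 0) := by
          split_ifs
          · exact abs_of_nonneg (Nat.cast_nonneg d)
          · exact abs_zero
        rw [h1]
        have h2 : 0 ≤ (if d ∣ n then (d : ℝ) else 0) := by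
          rw [← h1]; exact abs_nonneg _
        calc _ ≤ 1 * (if d ∣ n then (d : ℝ) else 0) := mul_le_mul_of_nonneg_right hmu h2
          _ = _ := one_mul _
    _ = ∑ d ∈ n.divisors, (if d ∣ q then (d : ℝ) else 0) := by
        rw [← Finset.sum_filter, ← Finset.sum_filter]
        refine Finset.sum_congr ?_ fun _ _ => rfl
        ext d
        simp only [mem_filter, Nat.mem_divisors]
        tauto

theorem abs_fR2_le {n : ℕ} (hn : n ≠ 0) (q : ℕ) : |fR2 n q| ≤ mj n q := by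
  rcases Nat.eq_zero_or_pos q with rfl | hq
  · simp [fR2_zero, mj]
  have hq' : (0 : ℝ) < q := by exact_mod_cast hq
  have hs : 0 < Real.sqrt q := Real.sqrt_pos.2 hq'
  have hmj : 0 ≤ mj n q := by
    unfold mj
    refine Finset.sum_nonneg fun d _ => ?_
    split_ifs <;> positivity
  by_cases hsq : Squarefree q
  · have hφ : (0 : ℝ) < Nat.totient q := by exact_mod_cast Nat.totient_pos.mpr hq
    have h1 := totient_sq_ge hsq
    unfold fR2
    have hmu : (moebius q : ℝ) ^ 2 ≤ 1 := by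
      have h2 := abs_moebius_le_one (n := q)
      have h3 : |(moebius q : ℝ)| ≤ 1 := by exact_mod_cast h2
      rw [← sq_abs]
      exact pow_le_one₀ (abs_nonneg _) h3
    rw [abs_mul, abs_div, abs_of_nonneg (sq_nonneg _), abs_of_nonneg (sq_nonneg _)]
    have h4 : (moebius q : ℝ) ^ 2 / (Nat.totient q : ℝ) ^ 2 ≤ 4 * (1 / ((q : ℝ) * Real.sqrt q)) := by
      rw [mul_one_div, div_le_div_iff₀ (by positivity) (by positivity)]
      calc (moebius q : ℝ) ^ 2 * ((q : ℝ) * Real.sqrt q) ≤ 1 * ((q : ℝ) * Real.sqrt q) :=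
            mul_le_mul_of_nonneg_right hmu (by positivity)
        _ ≤ _ := by rw [one_mul]; exact h1
    calc _ ≤ 4 * (1 / ((q : ℝ) * Real.sqrt q)) * ∑ d ∈ n.divisors, (if d ∣ q then (d : ℝ) else 0) :=
          mul_le_mul h4 (abs_ramR_le_div hn q hq.ne') (abs_nonneg _) (by positivity)
      _ = mj n q := by
          unfold mj
          rw [Finset.mul_sum]
          refine Finset.sum_congr rfl fun d _ => ?_
          split_ifs
          · ring
          · simp
  · have : moebius q = 0 := moebius_eq_zero_of_not_squarefree hsq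
    unfold fR2
    rw [this]
    simpa using hmj

theorem sum_mult_eq {d : ℕ} (hd : 0 < d) (Q K : ℕ) (F : ℕ → ℝ) :
    ∑ q ∈ Ioc Q K, (if d ∣ q then F q else 0) = ∑ m ∈ Ioc (Q / d) (K / d), F (d * m) := by
  rw [← Finset.sum_filter]
  refine Finset.sum_nbij' (fun q => q / d) (fun m => d * m) ?_ ?_ ?_ ?_ ?_
  · intro q hq
    simp only [mem_filter, mem_Ioc] at hq ⊢
    obtain ⟨⟨h1, h2⟩, m, rfl⟩ := hq
    rw [Nat.mul_div_cancel_left _ hd]
    exact ⟨(Nat.div_lt_iff_lt_mul hd).2 (by rw [mul_comm]; exact h1),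
      (Nat.le_div_iff_mul_le hd).2 (by rw [mul_comm]; exact h2)⟩
  · intro m hm
    simp only [mem_filter, mem_Ioc] at hm ⊢
    refine ⟨⟨?_, ?_⟩, dvd_mul_right d m⟩
    · have := (Nat.div_lt_iff_lt_mul hd).1 hm.1
      rw [mul_comm]; exact this
    · have := (Nat.le_div_iff_mul_le hd).1 hm.2
      rw [mul_comm]; exact this
  · intro q hq
    simp only [mem_filter] at hq
    exact Nat.mul_div_cancel' hq.2
  · intro m _
    exact Nat.mul_div_cancel_left _ hd
  · intro q hq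
    simp only [mem_filter] at hq
    rw [Nat.mul_div_cancel' hq.2]

theorem sum_tail_le (X K : ℕ) (hX : 1 ≤ X) :
    ∑ m ∈ Ioc X K, 1 / ((m : ℝ) * Real.sqrt m) ≤ 2 / Real.sqrt X := by
  rcases le_total X K with h | h
  · refine (sum_Ioc_le X K hX h).trans ?_
    have : 0 ≤ 1 / Real.sqrt K := by positivity
    have h7 : 2 / Real.sqrt X = 2 * (1 / Real.sqrt X) := by ring
    rw [h7]
    linarith
  · rw [Finset.Ioc_eq_empty (by omega), Finset.sum_empty]
    positivity

theorem sum_all_le (K : ℕ) : ∑ m ∈ Ioc 0 K, 1 / ((m : ℝ) * Real.sqrt m) ≤ 3 := by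
  rcases Nat.eq_zero_or_pos K with rfl | hK
  · simp
  · have h1 : Ioc 0 K = insert 1 (Ioc 1 K) := by
      ext m
      simp only [mem_insert, mem_Ioc]
      omega
    rw [h1, Finset.sum_insert (by simp)]
    have := sum_tail_le 1 K le_rfl
    simp only [Nat.cast_one, Real.sqrt_one, mul_one, div_one] at this ⊢
    linarith

theorem sum_mult_le {d : ℕ} (hd : 0 < d) {Q : ℕ} (hQ : 1 ≤ Q) (K : ℕ) :
    ∑ q ∈ Ioc Q K, (if d ∣ q then 4 * (d : ℝ) * (1 / ((q : ℝ) * Real.sqrt q)) else 0) ≤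
      12 / Real.sqrt Q := by
  rw [sum_mult_eq hd]
  have hd' : (0 : ℝ) < d := by exact_mod_cast hd
  have hQ' : (0 : ℝ) < Q := by exact_mod_cast hQ
  have hsd : 0 < Real.sqrt d := Real.sqrt_pos.2 hd'
  have hsQ : 0 < Real.sqrt Q := Real.sqrt_pos.2 hQ'
  have h1 : ∀ m : ℕ, 4 * (d : ℝ) * (1 / (((d * m : ℕ) : ℝ) * Real.sqrt ((d * m : ℕ) : ℝ))) =
      4 / Real.sqrt d * (1 / ((m : ℝ) * Real.sqrt m)) := by
    intro m
    push_cast
    rw [Real.sqrt_mul hd'.le]
    rcases Nat.eq_zero_or_pos m with rfl | hm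
    · simp
    have hm' : (0 : ℝ) < m := by exact_mod_cast hm
    have hsm : 0 < Real.sqrt m := Real.sqrt_pos.2 hm'
    field_simp
  rw [Finset.sum_congr rfl fun m _ => h1 m, ← Finset.mul_sum]
  rcases Nat.lt_or_ge Q d with h | h
  · rw [Nat.div_eq_of_lt h]
    calc 4 / Real.sqrt d * ∑ m ∈ Ioc 0 (K / d), 1 / ((m : ℝ) * Real.sqrt m)
        ≤ 4 / Real.sqrt d * 3 := mul_le_mul_of_nonneg_left (sum_all_le _) (by positivity)
      _ ≤ 12 / Real.sqrt Q := by
          have h2 : Real.sqrt Q ≤ Real.sqrt d := Real.sqrt_le_sqrt (by exact_mod_cast h.le)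
          rw [div_mul_eq_mul_div, show (4 : ℝ) * 3 = 12 by norm_num]
          exact div_le_div_of_nonneg_left (by norm_num) hsQ h2
  · have hX : 1 ≤ Q / d := (Nat.one_le_div_iff hd).2 h
    have h2 : (Q : ℝ) ≤ 2 * (d * (Q / d : ℕ)) := by
      have h3 : Q < d * (Q / d) + d := by
        have := Nat.lt_div_mul_add (a := Q) hd
        rw [mul_comm] at this
        exact this
      have h4 : d ≤ d * (Q / d) := Nat.le_mul_of_pos_right _ hX
      have h5 : Q ≤ 2 * (d * (Q / d)) := by omega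
      exact_mod_cast h5
    have h3 : Real.sqrt Q ≤ 3 / 2 * (Real.sqrt d * Real.sqrt (Q / d : ℕ)) := by
      rw [← Real.sqrt_mul hd'.le]
      apply Real.sqrt_le_iff.2
      constructor
      · positivity
      · rw [mul_pow, Real.sq_sqrt (by positivity)]
        nlinarith [mul_nonneg hd'.le (Nat.cast_nonneg (α := ℝ) (Q / d))]
    calc 4 / Real.sqrt d * ∑ m ∈ Ioc (Q / d) (K / d), 1 / ((m : ℝ) * Real.sqrt m)
        ≤ 4 / Real.sqrt d * (2 / Real.sqrt (Q / d : ℕ)) :=
          mul_le_mul_of_nonneg_left (sum_tail_le _ _ hX) (by positivity)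
      _ = 8 / (Real.sqrt d * Real.sqrt (Q / d : ℕ)) := by
          rw [div_mul_div_comm]; norm_num
      _ ≤ 12 / Real.sqrt Q := by
          have h5 : 0 < Real.sqrt (Q / d : ℕ) := Real.sqrt_pos.2 (by exact_mod_cast hX)
          rw [div_le_div_iff₀ (by positivity) hsQ]
          nlinarith

theorem sum_mj_le {n Q : ℕ} (hQ : 1 ≤ Q) (K : ℕ) :
    ∑ q ∈ Ioc Q K, mj n q ≤ 12 * (n.divisors.card : ℝ) / Real.sqrt Q := by
  unfold mj
  rw [Finset.sum_comm]
  calc _ ≤ ∑ d ∈ n.divisors, 12 / Real.sqrt Q := by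
        refine Finset.sum_le_sum fun d hd => ?_
        exact sum_mult_le (Nat.pos_of_mem_divisors hd) hQ K
    _ = _ := by
        rw [Finset.sum_const, nsmul_eq_mul]
        ring

theorem summable_fR2 {n : ℕ} (hn : n ≠ 0) : Summable (fun q => ‖fR2 n q‖) := by
  have h1 : ∀ K : ℕ, ∑ q ∈ range K, ‖fR2 n q‖ ≤
      mj n 0 + mj n 1 + 12 * (n.divisors.card : ℝ) / Real.sqrt (1 : ℕ) := by
    intro K
    have h2 : ∀ q, 0 ≤ mj n q := fun q => (abs_nonneg _).trans (abs_fR2_le hn q)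
    calc ∑ q ∈ range K, ‖fR2 n q‖ ≤ ∑ q ∈ range K, mj n q :=
          Finset.sum_le_sum fun q _ => abs_fR2_le hn q
      _ ≤ ∑ q ∈ insert 0 (insert 1 (Ioc 1 K)), mj n q := by
          refine Finset.sum_le_sum_of_subset_of_nonneg ?_ fun q _ _ => h2 q
          intro q hq
          simp only [mem_range, mem_insert, mem_Ioc] at hq ⊢
          omega
      _ ≤ _ := by
          rw [Finset.sum_insert (by simp), Finset.sum_insert (by simp), ← add_assoc]
          have := sum_mj_le (n := n) le_rfl K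
          linarith
  exact summable_of_sum_range_le (fun q => norm_nonneg _) h1

theorem tsum_pow2 (n : ℕ) (p : Nat.Primes) :
    ∑' k : ℕ, fR2 n ((p : ℕ) ^ k) =
      if (p : ℕ) ∣ n then 1 + 1 / ((p : ℝ) - 1) else 1 - 1 / ((p : ℝ) - 1) ^ 2 := by
  have hp := p.2
  have h1 : ∀ k ∉ range 2, fR2 n ((p : ℕ) ^ k) = 0 := by
    intro k hk
    rw [mem_range, not_lt] at hk
    unfold fR2
    rw [moebius_apply_prime_pow hp (by omega), if_neg (by omega)]
    simp
  rw [tsum_eq_sum h1, Finset.sum_range_succ, Finset.sum_range_one, pow_zero, pow_one, fR2_one]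
  unfold fR2
  rw [ramR_prime n hp, moebius_apply_prime hp, Nat.totient_prime hp, Nat.cast_sub hp.one_lt.le]
  have hp1 : (0 : ℝ) < (p : ℝ) - 1 := by
    have : (1 : ℝ) < (p : ℕ) := by exact_mod_cast hp.one_lt
    linarith
  have hp1' := hp1.ne'
  split_ifs
  · push_cast
    field_simp
  · push_cast
    field_simp
    ring

theorem singular2_eq {n : ℕ} (hn : n ≠ 0) : HasSum (fR2 n) (singular2 n) := by
  have h1 := EulerProduct.eulerProduct_tprod (f := fR2 n) (fR2_one n) (fun h => fR2_mul n h)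
    (summable_fR2 hn) (fR2_zero n)
  have h2 : ∑' q, fR2 n q = singular2 n := by
    rw [← h1]
    unfold singular2
    exact tprod_congr fun p => tsum_pow2 n p
  rw [← h2]
  exact (summable_fR2 hn).of_norm.hasSum

theorem term_eq2 (n q : ℕ) :
    ((moebius q : ℤ) : ℂ) ^ 2 / (Nat.totient q : ℂ) ^ 2 * ram q n = ((fR2 n q : ℝ) : ℂ) := by
  rcases Nat.eq_zero_or_pos q with rfl | hq
  · simp [fR2]
  · rw [ram_eq_ramR q n hq]
    unfold fR2
    push_cast
    ring

theorem tail_le2 {n Q : ℕ} (hn : n ≠ 0) (hQ : 1 ≤ Q) :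
    |singular2 n - ∑ q ∈ Icc 1 Q, fR2 n q| ≤ 12 * (n.divisors.card : ℝ) / Real.sqrt Q := by
  have h1 : Filter.Tendsto (fun K => ∑ q ∈ range (K + 1), fR2 n q) Filter.atTop
      (nhds (singular2 n)) :=
    (singular2_eq hn).tendsto_sum_nat.comp (Filter.tendsto_add_atTop_nat 1)
  have h2 : Filter.Tendsto (fun K => |∑ q ∈ range (K + 1), fR2 n q - ∑ q ∈ Icc 1 Q, fR2 n q|)
      Filter.atTop (nhds |singular2 n - ∑ q ∈ Icc 1 Q, fR2 n q|) :=
    (h1.sub_const _).abs
  refine le_of_tendsto h2 ?_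
  filter_upwards [Filter.eventually_ge_atTop Q] with K hK
  have h3 : ∑ q ∈ range (K + 1), fR2 n q = ∑ q ∈ Icc 1 Q, fR2 n q + ∑ q ∈ Ioc Q K, fR2 n q := by
    have h4 : range (K + 1) = insert 0 (Icc 1 Q ∪ Ioc Q K) := by
      ext q
      simp only [mem_range, mem_insert, mem_union, mem_Icc, mem_Ioc]
      omega
    rw [h4, Finset.sum_insert, fR2_zero, zero_add, Finset.sum_union]
    · rw [Finset.disjoint_left]
      intro q h5 h6
      simp only [mem_Icc, mem_Ioc] at h5 h6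
      omega
    · simp
  rw [h3, add_sub_cancel_left]
  calc |∑ q ∈ Ioc Q K, fR2 n q| ≤ ∑ q ∈ Ioc Q K, |fR2 n q| := Finset.abs_sum_le_sum_abs _ _
    _ ≤ ∑ q ∈ Ioc Q K, mj n q := Finset.sum_le_sum fun q _ => abs_fR2_le hn q
    _ ≤ _ := sum_mj_le hQ K

theorem singular2Stmt : Singular2Stmt := by
  refine ⟨fun n hn => ?_, 12, fun n Q hn hQ => ?_⟩
  · have h1 : HasSum (fun q => ((fR2 n q : ℝ) : ℂ)) ((singular2 n : ℝ) : ℂ) :=
      Complex.hasSum_ofReal.mpr (singular2_eq (by omega))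
    refine h1.congr_fun ?_ |> fun h => h
    intro q
    exact term_eq2 n q
  · have h2 : (singular2 n : ℂ) - ∑ q ∈ Icc 1 Q,
        ((moebius q : ℤ) : ℂ) ^ 2 / (Nat.totient q : ℂ) ^ 2 * ram q n =
        ((singular2 n - ∑ q ∈ Icc 1 Q, fR2 n q : ℝ) : ℂ) := by
      rw [Finset.sum_congr rfl (fun q _ => term_eq2 n q)]
      push_cast
      rfl
    rw [h2, Complex.norm_real, Real.norm_eq_abs]
    exact tail_le2 (by omega) hQ

end Vale.Agent.P026.TP
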