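import Mathlib

/-! A lower bound for Euler's totient function. -/

open Finset Real

namespace Vale.Agent.P026.TP

theorem prod_ratio_le (S : Finset ℕ) (hS : ∀ p ∈ S, 2 ≤ p) :
    ∏ p ∈ S, ((p : ℝ) / (p - 1)) ≤ S.card + 1 := by
  induction S using Finset.induction_on_max with
  | empty => simp
  | insert m S hm ih =>
    have hmS : m ∉ S := fun h => lt_irrefl _ (hm m h)
    have hS' : ∀ p ∈ S, 2 ≤ p := fun p hp => hS p (Finset.mem_insert_of_mem hp)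
    have hm2 : 2 ≤ m := hS m (Finset.mem_insert_self _ _)
    have hcard : S.card + 2 ≤ m := by
      have h1 : S ⊆ Finset.Ico 2 m := fun p hp => Finset.mem_Ico.mpr ⟨hS' p hp, hm p hp⟩
      have h2 := Finset.card_le_card h1
      rw [Nat.card_Ico] at h2
      omega
    rw [Finset.prod_insert hmS, Finset.card_insert_of_notMem hmS]
    have hc : ((S.card : ℝ)) + 2 ≤ m := by exact_mod_cast hcard
    have hc0 : (0 : ℝ) ≤ S.card := Nat.cast_nonneg _
    have hm1 : (0 : ℝ) < m - 1 := by linarith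
    have h3 : (m : ℝ) / (m - 1) ≤ (S.card + 2) / (S.card + 1) := by
      rw [div_le_div_iff₀ hm1 (by linarith)]
      nlinarith
    calc (m : ℝ) / (m - 1) * ∏ p ∈ S, ((p : ℝ) / (p - 1))
        ≤ (S.card + 2) / (S.card + 1) * (S.card + 1) := by
          refine mul_le_mul h3 (ih hS') ?_ (by positivity)
          refine Finset.prod_nonneg fun p hp => ?_
          have : (2 : ℝ) ≤ p := by exact_mod_cast hS' p hp
          exact div_nonneg (by linarith) (by linarith)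
      _ = ((S.card + 1 : ℕ) : ℝ) + 1 := by
          push_cast
          field_simp
          ring

theorem pow_aux (n : ℕ) : (n + 1) ^ 4 ≤ 256 * 2 ^ n := by
  rcases Nat.lt_or_ge n 6 with h | h
  · interval_cases n <;> norm_num
  · induction n, h using Nat.le_induction with
    | base => norm_num
    | succ n hn ih =>
      have h1 : (n + 1 + 1) ^ 4 ≤ 2 * (n + 1) ^ 4 := by
        nlinarith [Nat.mul_le_mul hn hn, Nat.mul_le_mul (Nat.mul_le_mul hn hn) hn,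
          Nat.mul_le_mul (Nat.mul_le_mul hn hn) (Nat.mul_le_mul hn hn), sq_nonneg n]
      calc (n + 1 + 1) ^ 4 ≤ 2 * (n + 1) ^ 4 := h1
        _ ≤ 2 * (256 * 2 ^ n) := Nat.mul_le_mul_left 2 ih
        _ = 256 * 2 ^ (n + 1) := by ring

/-- `q ^ (3 / 4) ≤ 4 φ(q)` -/
theorem totient_ge {q : ℕ} (hq : 1 ≤ q) : (q : ℝ) ^ (3 / 4 : ℝ) ≤ 4 * Nat.totient q := by
  have hq0 : (0 : ℝ) < q := by exact_mod_cast hq
  have hφ : (0 : ℝ) < Nat.totient q := by exact_mod_cast Nat.totient_pos.mpr hq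
  set ω := q.primeFactors.card with hω
  have h1 : (q : ℝ) ≤ Nat.totient q * (ω + 1) := by
    have e1 := Nat.totient_eq_mul_prod_factors q
    have e2 : (Nat.totient q : ℝ) = q * ∏ p ∈ q.primeFactors, (1 - (p : ℝ)⁻¹) := by
      have e3 := congrArg (fun x : ℚ => (x : ℝ)) e1
      push_cast at e3
      exact e3
    have e3 := prod_ratio_le q.primeFactors (fun p hp => (Nat.prime_of_mem_primeFactors hp).two_le)
    have e4 : (∏ p ∈ q.primeFactors, (1 - (p : ℝ)⁻¹)) * ∏ p ∈ q.primeFactors, ((p : ℝ) / (p - 1)) =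
        1 := by
      rw [← Finset.prod_mul_distrib]
      refine Finset.prod_eq_one fun p hp => ?_
      have : (2 : ℝ) ≤ p := by exact_mod_cast (Nat.prime_of_mem_primeFactors hp).two_le
      have h0 : (p : ℝ) ≠ 0 := by linarith
      have h1 : (p : ℝ) - 1 ≠ 0 := by linarith
      field_simp
    calc (q : ℝ) = (q * ∏ p ∈ q.primeFactors, (1 - (p : ℝ)⁻¹)) *
          ∏ p ∈ q.primeFactors, ((p : ℝ) / (p - 1)) := by rw [mul_assoc, e4, mul_one]
      _ = Nat.totient q * ∏ p ∈ q.primeFactors, ((p : ℝ) / (p - 1)) := by rw [← e2]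
      _ ≤ Nat.totient q * (ω + 1) := mul_le_mul_of_nonneg_left e3 hφ.le
  have h2 : (2 : ℝ) ^ ω ≤ q := by
    have e1 : 2 ^ ω ≤ ∏ p ∈ q.primeFactors, p := by
      rw [hω, ← Finset.prod_const]
      exact Finset.prod_le_prod' fun p hp => (Nat.prime_of_mem_primeFactors hp).two_le
    have e2 := Nat.le_of_dvd (by omega) (Nat.prod_primeFactors_dvd q)
    exact_mod_cast e1.trans e2
  have h3 : ((ω : ℝ) + 1) ≤ 4 * (q : ℝ) ^ (1 / 4 : ℝ) := by
    have e1 : ((ω : ℝ) + 1) ^ 4 ≤ (4 * (q : ℝ) ^ (1 / 4 : ℝ)) ^ 4 := by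
      have e2 : ((ω : ℝ) + 1) ^ 4 ≤ 256 * 2 ^ ω := by exact_mod_cast pow_aux ω
      have e3 : (4 * (q : ℝ) ^ (1 / 4 : ℝ)) ^ 4 = 256 * q := by
        rw [mul_pow, ← Real.rpow_natCast ((q : ℝ) ^ (1 / 4 : ℝ)), ← Real.rpow_mul hq0.le]
        norm_num
      rw [e3]
      linarith
    exact (pow_le_pow_iff_left₀ (by positivity) (by positivity) (by norm_num)).mp e1
  have h4 : (q : ℝ) ^ (3 / 4 : ℝ) * (q : ℝ) ^ (1 / 4 : ℝ) = q := by
    rw [← Real.rpow_add hq0]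
    norm_num
  have h5 : 0 < (q : ℝ) ^ (1 / 4 : ℝ) := Real.rpow_pos_of_pos hq0 _
  have h6 : (q : ℝ) ^ (3 / 4 : ℝ) * (q : ℝ) ^ (1 / 4 : ℝ) ≤
      (4 * Nat.totient q) * (q : ℝ) ^ (1 / 4 : ℝ) := by
    rw [h4]
    calc (q : ℝ) ≤ Nat.totient q * (ω + 1) := h1
      _ ≤ Nat.totient q * (4 * (q : ℝ) ^ (1 / 4 : ℝ)) := mul_le_mul_of_nonneg_left h3 hφ.le
      _ = _ := by ring
  exact le_of_mul_le_mul_right h6 h5

/-- `1 / φ(q)² ≤ 16 q ^ (-3 / 2)` -/
theorem inv_totient_sq_le {q : ℕ} (hq : 1 ≤ q) :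
    1 / (Nat.totient q : ℝ) ^ 2 ≤ 16 * (q : ℝ) ^ (-(3 / 2) : ℝ) := by
  have hq0 : (0 : ℝ) < q := by exact_mod_cast hq
  have hφ : (0 : ℝ) < Nat.totient q := by exact_mod_cast Nat.totient_pos.mpr hq
  have h1 := totient_ge hq
  have h2 : ((q : ℝ) ^ (3 / 4 : ℝ)) ^ 2 ≤ (4 * Nat.totient q) ^ 2 :=
    pow_le_pow_left₀ (by positivity) h1 2
  have h3 : ((q : ℝ) ^ (3 / 4 : ℝ)) ^ 2 = (q : ℝ) ^ (3 / 2 : ℝ) := by
    rw [← Real.rpow_natCast, ← Real.rpow_mul hq0.le]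
    norm_num
  rw [h3] at h2
  rw [Real.rpow_neg hq0.le, div_le_iff₀ (by positivity)]
  have h4 : 0 < (q : ℝ) ^ (3 / 2 : ℝ) := Real.rpow_pos_of_pos hq0 _
  rw [show 16 * ((q : ℝ) ^ (3 / 2 : ℝ))⁻¹ * (Nat.totient q : ℝ) ^ 2 =
    (16 * (Nat.totient q : ℝ) ^ 2) / (q : ℝ) ^ (3 / 2 : ℝ) by ring, le_div_iff₀ h4]
  nlinarith

end Vale.Agent.P026.TP
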