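import Mathlib
import Vale.Agent.P026.TP.E
import Vale.Agent.P026.TP.Tot

/-! The generating function of the main term on a ray to a root of unity. -/

open Finset Real ArithmeticFunction

namespace Vale.Agent.P026.TP

/-- `∑ n² / 2 zⁿ` -/
noncomputable def H2 (z : ℂ) : ℂ := ∑' n : ℕ, ((n : ℂ) ^ 2 / 2) * z ^ n

theorem hasSum_H2 {z : ℂ} (hz : ‖z‖ < 1) : HasSum (fun n : ℕ => ((n : ℂ) ^ 2 / 2) * z ^ n)
    (1 / (1 - z) ^ 3 - 3 / 2 * (1 / (1 - z) ^ 2) + 1 / 2 * (1 / (1 - z))) := by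
  have h0 := hasSum_choose_mul_geometric_of_norm_lt_one 0 hz
  have h1 := hasSum_choose_mul_geometric_of_norm_lt_one 1 hz
  have h2 := hasSum_choose_mul_geometric_of_norm_lt_one 2 hz
  have h3 := (h2.sub (h1.mul_left (3 / 2))).add (h0.mul_left (1 / 2))
  simp only [zero_add, pow_one] at h3
  have h4 : (fun n : ℕ => ((n : ℂ) ^ 2 / 2) * z ^ n) = fun n : ℕ =>
      (((n + 2).choose 2 : ℕ) : ℂ) * z ^ n - 3 / 2 * ((((n + 1).choose 1 : ℕ) : ℂ) * z ^ n) +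
        1 / 2 * ((((n + 0).choose 0 : ℕ) : ℂ) * z ^ n) := by
    funext n
    rw [Nat.cast_choose_two, Nat.choose_one_right, Nat.choose_zero_right]
    push_cast
    ring
  rw [h4]
  exact h3

theorem H2_eq {z : ℂ} (hz : ‖z‖ < 1) :
    H2 z = 1 / (1 - z) ^ 3 - 3 / 2 * (1 / (1 - z) ^ 2) + 1 / 2 * (1 / (1 - z)) :=
  (hasSum_H2 hz).tsum_eq

theorem one_sub_ne {z : ℂ} (hz : ‖z‖ < 1) : 1 - z ≠ 0 := by
  intro h
  have : z = 1 := (sub_eq_zero.mp h).symm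
  rw [this, norm_one] at hz
  exact lt_irrefl _ hz

theorem norm_H2_le {z : ℂ} (hz : ‖z‖ < 1) : ‖H2 z‖ ≤ 6 / ‖1 - z‖ ^ 3 := by
  have h0 : 0 < ‖1 - z‖ := norm_pos_iff.mpr (one_sub_ne hz)
  have h2 : ‖1 - z‖ ≤ 2 := by
    refine (norm_sub_le _ _).trans ?_
    rw [norm_one]
    linarith
  have e1 : ‖(1 : ℂ) / (1 - z) ^ 3‖ = 1 / ‖1 - z‖ ^ 3 := by rw [norm_div, norm_one, norm_pow]
  have e2 : ‖3 / 2 * ((1 : ℂ) / (1 - z) ^ 2)‖ = 3 / 2 * (1 / ‖1 - z‖ ^ 2) := by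
    rw [norm_mul, norm_div, norm_div, norm_one, norm_pow]; simp
  have e3 : ‖1 / 2 * ((1 : ℂ) / (1 - z))‖ = 1 / 2 * (1 / ‖1 - z‖) := by
    rw [norm_mul, norm_div, norm_div, norm_one]; simp
  rw [H2_eq hz]
  refine (norm_add_le _ _).trans ((add_le_add (norm_sub_le _ _) le_rfl).trans ?_)
  rw [e1, e2, e3]
  have f2 : 1 / ‖1 - z‖ ^ 2 ≤ 2 / ‖1 - z‖ ^ 3 := by
    rw [div_le_div_iff₀ (by positivity) (by positivity)]
    nlinarith [pow_pos h0 2]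
  have f3 : 1 / ‖1 - z‖ ≤ 4 / ‖1 - z‖ ^ 3 := by
    rw [div_le_div_iff₀ h0 (by positivity)]
    nlinarith [pow_pos h0 2, mul_pos h0 h0]
  have f1 : 6 / ‖1 - z‖ ^ 3 = 1 / ‖1 - z‖ ^ 3 + 3 / 2 * (2 / ‖1 - z‖ ^ 3) +
      1 / 2 * (4 / ‖1 - z‖ ^ 3) := by ring
  rw [f1]
  linarith

theorem H2_real {r : ℝ} (hr0 : 0 ≤ r) (hr1 : r < 1) :
    ‖H2 (r : ℂ) - 1 / (1 - (r : ℂ)) ^ 3‖ ≤ 2 * (1 / (1 - r)) ^ 2 := by
  have hz : ‖(r : ℂ)‖ < 1 := by rwa [Complex.norm_real, Real.norm_of_nonneg hr0]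
  have h1 : ‖1 - (r : ℂ)‖ = 1 - r := by
    have : (1 - (r : ℂ)) = ((1 - r : ℝ) : ℂ) := by push_cast; rfl
    rw [this, Complex.norm_real, Real.norm_of_nonneg (by linarith)]
  have hT : 1 ≤ 1 / (1 - r) := by
    rw [le_div_iff₀ (by linarith)]
    linarith
  rw [H2_eq hz]
  have e0 : 1 / (1 - (r : ℂ)) ^ 3 - 3 / 2 * (1 / (1 - (r : ℂ)) ^ 2) + 1 / 2 * (1 / (1 - (r : ℂ))) -
      1 / (1 - (r : ℂ)) ^ 3 = 1 / 2 * (1 / (1 - (r : ℂ))) - 3 / 2 * (1 / (1 - (r : ℂ)) ^ 2) := by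
    ring
  rw [e0]
  have e2 : ‖3 / 2 * ((1 : ℂ) / (1 - (r : ℂ)) ^ 2)‖ = 3 / 2 * (1 / (1 - r)) ^ 2 := by
    rw [norm_mul, norm_div, norm_div, norm_one, norm_pow, h1]
    simp
  have e3 : ‖1 / 2 * ((1 : ℂ) / (1 - (r : ℂ)))‖ = 1 / 2 * (1 / (1 - r)) := by
    rw [norm_mul, norm_div, norm_div, norm_one, h1]
    simp
  refine (norm_sub_le _ _).trans ?_
  rw [e2, e3]
  nlinarith

/-- the pair `(q', b)` gives back the point `1` only for `q' = q` and `b ≡ - a` -/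
theorem frac_int {a q b q' : ℕ} (hq : 1 ≤ q) (hq' : 1 ≤ q') (ha : Nat.Coprime a q)
    (hb : Nat.Coprime b q') (h : ((q * q' : ℕ) : ℤ) ∣ ((a * q' + b * q : ℕ) : ℤ)) :
    q' = q ∧ q ∣ a + b := by
  have h' : q * q' ∣ a * q' + b * q := by exact_mod_cast h
  have h1 : q ∣ q' := by
    have e1 : q ∣ a * q' + b * q := (Dvd.intro _ rfl).trans h'
    have e2 : q ∣ a * q' := (Nat.dvd_add_left (Dvd.intro_left b rfl)).mp e1
    exact (Nat.Coprime.dvd_of_dvd_mul_left (Nat.Coprime.symm ha) e2)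
  have h2 : q' ∣ q := by
    have e1 : q' ∣ a * q' + b * q := (Dvd.intro_left _ rfl).trans h'
    have e2 : q' ∣ b * q := (Nat.dvd_add_right (Dvd.intro_left a rfl)).mp e1
    exact (Nat.Coprime.dvd_of_dvd_mul_left (Nat.Coprime.symm hb) e2)
  have h3 : q' = q := Nat.dvd_antisymm h2 h1
  refine ⟨h3, ?_⟩
  subst h3
  have e1 : q' * q' ∣ (a + b) * q' := by rw [add_mul]; exact h'
  exact Nat.dvd_of_mul_dvd_mul_right (by omega) e1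

end Vale.Agent.P026.TP
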