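import Mathlib
import Vale.Agent.P026.TP.SingGen

/-! The generating function of the main term on a ray to a root of unity: the estimate. -/

open Finset Real ArithmeticFunction

namespace Vale.Agent.P026.TP

/-- the reduced residues -/
def RR (q : ℕ) : Finset ℕ := (range q).filter (fun a => Nat.Coprime a q)

theorem card_RR (q : ℕ) : (RR q).card = Nat.totient q := by
  rw [Nat.totient_eq_card_coprime, RR]
  congr 1
  ext a
  simp [Nat.coprime_comm]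

/-- the coefficient `μ(q) / φ(q)³` -/
noncomputable def cf (q : ℕ) : ℂ := ((moebius q : ℤ) : ℂ) / (Nat.totient q : ℂ) ^ 3

theorem norm_cf_le (q : ℕ) : ‖cf q‖ ≤ 1 / (Nat.totient q : ℝ) ^ 3 := by
  rw [cf, norm_div, norm_pow, Complex.norm_natCast]
  refine div_le_div_of_nonneg_right ?_ (by positivity)
  rw [Complex.norm_intCast]
  exact_mod_cast abs_moebius_le_one

theorem norm_cf_le_one {q : ℕ} (hq : 1 ≤ q) : ‖cf q‖ ≤ 1 := by
  refine (norm_cf_le q).trans ?_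
  have : (1 : ℝ) ≤ Nat.totient q := by exact_mod_cast Nat.totient_pos.mpr hq
  rw [div_le_one (by positivity)]
  exact one_le_pow₀ this

/-- real version of the bound for `H2` -/
theorem H2_abs {r : ℝ} (hr0 : 0 ≤ r) (hr1 : r < 1) :
    Summable (fun n : ℕ => ((n : ℝ) ^ 2 / 2) * r ^ n) ∧
      ∑' n : ℕ, ((n : ℝ) ^ 2 / 2) * r ^ n ≤ 6 * (1 / (1 - r)) ^ 3 := by
  have hz : ‖(r : ℂ)‖ < 1 := by rwa [Complex.norm_real, Real.norm_of_nonneg hr0]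
  have h1 : ‖1 - (r : ℂ)‖ = 1 - r := by
    have : (1 - (r : ℂ)) = ((1 - r : ℝ) : ℂ) := by push_cast; rfl
    rw [this, Complex.norm_real, Real.norm_of_nonneg (by linarith)]
  have hs := (hasSum_H2 hz).summable
  have hcast : (fun n : ℕ => ((n : ℂ) ^ 2 / 2) * (r : ℂ) ^ n) =
      fun n : ℕ => (((n : ℝ) ^ 2 / 2 * r ^ n : ℝ) : ℂ) := by
    funext n
    push_cast
    rfl
  rw [hcast] at hs
  have hs' : Summable (fun n : ℕ => ((n : ℝ) ^ 2 / 2) * r ^ n) := Complex.summable_ofReal.mp hs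
  refine ⟨hs', ?_⟩
  have h2 := norm_H2_le hz
  rw [H2, hcast, ← Complex.ofReal_tsum, Complex.norm_real, h1] at h2
  have h3 : 6 / (1 - r) ^ 3 = 6 * (1 / (1 - r)) ^ 3 := by rw [one_div, inv_pow, div_eq_mul_inv]
  rw [← h3]
  exact (le_abs_self _).trans h2

theorem ram_term {a q q' n : ℕ} (r : ℝ) :
    ram q' n * ((n : ℂ) ^ 2 / 2) * ((r : ℂ) * e ((a : ℝ) / q)) ^ n =
      ∑ b ∈ RR q', ((n : ℂ) ^ 2 / 2) * ((r : ℂ) * e ((a : ℝ) / q + (b : ℝ) / q')) ^ n := by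
  rw [ram, Finset.sum_mul, Finset.sum_mul, RR]
  refine Finset.sum_congr rfl fun b _ => ?_
  have h1 : e ((b : ℝ) * n / q') = (e ((b : ℝ) / q')) ^ n := by
    rw [← e_nat_mul]
    congr 1
    ring
  rw [h1, e_add, mul_pow, mul_pow, mul_pow]
  ring

theorem exists_inverse {q a : ℕ} (hq : 1 ≤ q) (ha : Nat.Coprime a q) :
    ∃ b₀ ∈ RR q, q ∣ a + b₀ ∧ ∀ b ∈ RR q, q ∣ a + b → b = b₀ := by
  obtain ⟨b₀, hb₀, hdvd⟩ : ∃ b₀ : ℕ, b₀ < q ∧ q ∣ a + b₀ := by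
    have hlt : a % q < q := Nat.mod_lt _ (by omega)
    rcases Nat.eq_zero_or_pos (a % q) with h | h
    · exact ⟨0, by omega, by rw [add_zero]; exact Nat.dvd_of_mod_eq_zero h⟩
    · refine ⟨q - a % q, by omega, ⟨a / q + 1, ?_⟩⟩
      have := Nat.div_add_mod a q
      rw [mul_add, mul_one]
      omega
  refine ⟨b₀, ?_, hdvd, ?_⟩
  · rw [RR, Finset.mem_filter, Finset.mem_range]
    refine ⟨hb₀, ?_⟩
    have h1 : Nat.gcd b₀ q ∣ a := by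
      have e1 : Nat.gcd b₀ q ∣ a + b₀ := (Nat.gcd_dvd_right b₀ q).trans hdvd
      exact (Nat.dvd_add_left (Nat.gcd_dvd_left b₀ q)).mp e1
    have h2 : Nat.gcd b₀ q ∣ Nat.gcd a q := Nat.dvd_gcd h1 (Nat.gcd_dvd_right b₀ q)
    rw [Nat.Coprime] at ha ⊢
    rw [ha] at h2
    exact Nat.dvd_one.mp h2
  · intro b hb hb'
    rw [RR, Finset.mem_filter, Finset.mem_range] at hb
    have h1 : a + b ≡ a + b₀ [MOD q] :=
      ((Nat.modEq_zero_iff_dvd).mpr hb').trans ((Nat.modEq_zero_iff_dvd).mpr hdvd).symm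
    have h2 : b ≡ b₀ [MOD q] := Nat.ModEq.add_left_cancel' a h1
    exact Nat.ModEq.eq_of_lt_of_lt h2 hb.1 hb₀

/-- the exceptional terms -/
theorem exc_sum {q a Y : ℕ} (hq : 1 ≤ q) (ha : Nat.Coprime a q) (hY : q ≤ Y) (v : ℂ) :
    ∑ q' ∈ Icc 1 Y, ∑ b ∈ RR q', (if q' = q ∧ q ∣ a + b then v else 0) = v := by
  obtain ⟨b₀, hb₀, hd, huniq⟩ := exists_inverse hq ha
  rw [Finset.sum_eq_single q, Finset.sum_eq_single b₀]
  · rw [if_pos ⟨rfl, hd⟩]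
  · intro b hb hne
    rw [if_neg]
    rintro ⟨_, h⟩
    exact hne (huniq b hb h)
  · intro h
    exact absurd hb₀ h
  · intro q' _ hne
    refine Finset.sum_eq_zero fun b _ => ?_
    rw [if_neg]
    rintro ⟨h, _⟩
    exact hne h
  · intro h
    exact absurd (Finset.mem_Icc.mpr ⟨hq, hY⟩) h

/-- a term away from the exceptional one -/
theorem term_bound {q a b q' : ℕ} (hq : 1 ≤ q) (hq' : 1 ≤ q') (ha : Nat.Coprime a q)
    (hb : Nat.Coprime b q') (hex : ¬ (q' = q ∧ q ∣ a + b)) {r : ℝ} (hr0 : 0 ≤ r) (hr1 : r < 1) :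
    ‖H2 ((r : ℂ) * e ((a : ℝ) / q + (b : ℝ) / q'))‖ ≤ 3 / 4 * ((q : ℝ) * q') ^ 3 := by
  have hq0 : (0 : ℝ) < q := by exact_mod_cast hq
  have hq0' : (0 : ℝ) < q' := by exact_mod_cast hq'
  have hz : ‖(r : ℂ) * e ((a : ℝ) / q + (b : ℝ) / q')‖ < 1 := by
    rw [norm_mul, norm_e, mul_one, Complex.norm_real, Real.norm_of_nonneg hr0]
    exact hr1
  have h1 : (a : ℝ) / q + (b : ℝ) / q' = (((a * q' + b * q : ℕ) : ℤ) : ℝ) / ((q * q' : ℕ) : ℝ) := by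
    push_cast
    field_simp
  have h2 : 4 / ((q * q' : ℕ) : ℝ) ≤ ‖1 - e ((a : ℝ) / q + (b : ℝ) / q')‖ := by
    rw [h1]
    exact norm_one_sub_e_rat (Nat.one_le_iff_ne_zero.mpr (by positivity))
      (fun h => hex (frac_int hq hq' ha hb h))
  have h3 := norm_one_sub_mul_e_ge hr0 hr1.le ((a : ℝ) / q + (b : ℝ) / q')
  have h4 : 2 / ((q : ℝ) * q') ≤ ‖1 - (r : ℂ) * e ((a : ℝ) / q + (b : ℝ) / q')‖ := by
    push_cast at h2
    have : 2 / ((q : ℝ) * q') = (4 / ((q : ℝ) * q')) / 2 := by ring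
    rw [this]
    linarith
  have h5 : (2 / ((q : ℝ) * q')) ^ 3 ≤
      ‖1 - (r : ℂ) * e ((a : ℝ) / q + (b : ℝ) / q')‖ ^ 3 :=
    pow_le_pow_left₀ (by positivity) h4 3
  calc ‖H2 ((r : ℂ) * e ((a : ℝ) / q + (b : ℝ) / q'))‖
      ≤ 6 / ‖1 - (r : ℂ) * e ((a : ℝ) / q + (b : ℝ) / q')‖ ^ 3 := norm_H2_le hz
    _ ≤ 6 / (2 / ((q : ℝ) * q')) ^ 3 := by
        refine div_le_div_of_nonneg_left (by norm_num) (by positivity) h5
    _ = 3 / 4 * ((q : ℝ) * q') ^ 3 := by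
        field_simp
        norm_num

/-- the contribution of the terms away from the exceptional one -/
theorem main_bound {q a Y : ℕ} (hq : 1 ≤ q) (ha : Nat.Coprime a q) (hY : q ≤ Y) {r : ℝ}
    (hr0 : 0 ≤ r) (hr1 : r < 1) :
    ‖∑ q' ∈ Icc 1 Y, cf q' * ∑ b ∈ RR q', H2 ((r : ℂ) * e ((a : ℝ) / q + (b : ℝ) / q')) -
      cf q * H2 r‖ ≤ 12 * (q : ℝ) ^ 3 * (Y : ℝ) ^ (5 / 2 : ℝ) := by
  have hY0 : (0 : ℝ) < Y := by exact_mod_cast (by omega : 0 < Y)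
  have h1 := exc_sum hq ha hY (cf q * H2 r)
  rw [← h1, ← Finset.sum_sub_distrib]
  have hterm : ∀ q' ∈ Icc 1 Y, ‖cf q' * ∑ b ∈ RR q', H2 ((r : ℂ) * e ((a : ℝ) / q + (b : ℝ) / q')) -
      ∑ b ∈ RR q', (if q' = q ∧ q ∣ a + b then cf q * H2 r else 0)‖ ≤
        12 * (q : ℝ) ^ 3 * (Y : ℝ) ^ (3 / 2 : ℝ) := by
    intro q' hq'
    rw [Finset.mem_Icc] at hq'
    have hq0 : (0 : ℝ) < q' := by exact_mod_cast hq'.1
    have hφ : (0 : ℝ) < Nat.totient q' := by exact_mod_cast Nat.totient_pos.mpr hq'.1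
    rw [Finset.mul_sum, ← Finset.sum_sub_distrib]
    have hb1 : ∀ b ∈ RR q', ‖cf q' * H2 ((r : ℂ) * e ((a : ℝ) / q + (b : ℝ) / q')) -
        (if q' = q ∧ q ∣ a + b then cf q * H2 r else 0)‖ ≤
          1 / (Nat.totient q' : ℝ) ^ 3 * (3 / 4 * ((q : ℝ) * q') ^ 3) := by
      intro b hb
      rw [RR, Finset.mem_filter] at hb
      by_cases hex : q' = q ∧ q ∣ a + b
      · rw [if_pos hex]
        obtain ⟨rfl, k, hk⟩ := hex
        have e1 : e ((a : ℝ) / q' + (b : ℝ) / q') = 1 := by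
          have : (a : ℝ) / q' + (b : ℝ) / q' = ((k : ℤ) : ℝ) := by
            rw [← add_div, div_eq_iff hq0.ne']
            have : ((a + b : ℕ) : ℝ) = ((q' * k : ℕ) : ℝ) := by rw [hk]
            push_cast at this ⊢
            linarith
          rw [this, e_int]
        rw [e1, mul_one, sub_self, norm_zero]
        positivity
      · rw [if_neg hex, sub_zero, norm_mul]
        exact mul_le_mul (norm_cf_le q') (term_bound hq hq'.1 ha hb.2 hex hr0 hr1)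
          (norm_nonneg _) (by positivity)
    refine (norm_sum_le_of_le _ hb1).trans ?_
    rw [Finset.sum_const, card_RR, nsmul_eq_mul]
    have e1 : (Nat.totient q' : ℝ) * (1 / (Nat.totient q' : ℝ) ^ 3 * (3 / 4 * ((q : ℝ) * q') ^ 3)) =
        1 / (Nat.totient q' : ℝ) ^ 2 * (3 / 4 * (q : ℝ) ^ 3 * (q' : ℝ) ^ 3) := by
      field_simp
    rw [e1]
    calc 1 / (Nat.totient q' : ℝ) ^ 2 * (3 / 4 * (q : ℝ) ^ 3 * (q' : ℝ) ^ 3)
        ≤ 16 * (q' : ℝ) ^ (-(3 / 2) : ℝ) * (3 / 4 * (q : ℝ) ^ 3 * (q' : ℝ) ^ 3) :=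
          mul_le_mul_of_nonneg_right (inv_totient_sq_le hq'.1) (by positivity)
      _ = 12 * (q : ℝ) ^ 3 * ((q' : ℝ) ^ (-(3 / 2) : ℝ) * (q' : ℝ) ^ (3 : ℝ)) := by
          rw [show (q' : ℝ) ^ (3 : ℝ) = (q' : ℝ) ^ 3 by norm_cast]
          ring
      _ = 12 * (q : ℝ) ^ 3 * (q' : ℝ) ^ (3 / 2 : ℝ) := by
          rw [← Real.rpow_add hq0]
          norm_num
      _ ≤ 12 * (q : ℝ) ^ 3 * (Y : ℝ) ^ (3 / 2 : ℝ) := by
          refine mul_le_mul_of_nonneg_left ?_ (by positivity)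
          exact Real.rpow_le_rpow hq0.le (by exact_mod_cast hq'.2) (by norm_num)
  refine (norm_sum_le_of_le _ hterm).trans (le_of_eq ?_)
  rw [Finset.sum_const, Nat.card_Icc, nsmul_eq_mul, Nat.add_sub_cancel]
  have : (Y : ℝ) ^ (5 / 2 : ℝ) = Y * (Y : ℝ) ^ (3 / 2 : ℝ) := by
    nth_rw 2 [← Real.rpow_one (Y : ℝ)]
    rw [← Real.rpow_add hY0]
    norm_num
  rw [this]
  ring

/-- The generating function of the main term of the three primes theorem on the ray to `e(a/q)`. -/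
theorem sing_gen (hS : SingularStmt) {q a : ℕ} (hq : 1 ≤ q) (ha : Nat.Coprime a q) :
    ∃ C : ℝ, 0 < C ∧ ∀ r : ℝ, 0 ≤ r → 1 - 1 / (q : ℝ) ≤ r → r < 1 →
      Summable (fun n : ℕ =>
        ‖(singular n : ℂ) * ((n : ℂ) ^ 2 / 2) * ((r : ℂ) * e ((a : ℝ) / q)) ^ n‖) ∧
      ‖∑' n : ℕ, (singular n : ℂ) * ((n : ℂ) ^ 2 / 2) * ((r : ℂ) * e ((a : ℝ) / q)) ^ n -
        cf q * (1 / (1 - (r : ℂ)) ^ 3)‖ ≤ C * (1 / (1 - r)) ^ (5 / 2 : ℝ) := by
  obtain ⟨hsum, C₀', hC₀'⟩ := hS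
  set C₀ : ℝ := max C₀' 0 with hC₀
  have hC0 : 0 ≤ C₀ := le_max_right _ _
  have htail : ∀ n Q : ℕ, 1 ≤ Q → ‖(singular n : ℂ) - ∑ q ∈ Icc 1 Q, cf q * ram q n‖ ≤
      C₀ / Real.sqrt Q := fun n Q hQ =>
    (hC₀' n Q hQ).trans (div_le_div_of_nonneg_right (le_max_left _ _) (Real.sqrt_nonneg _))
  have hq0 : (0 : ℝ) < q := by exact_mod_cast hq
  refine ⟨9 * C₀ + 12 * (q : ℝ) ^ 3 + 2, by positivity, ?_⟩
  intro r hr0 hrq hr1
  have hd : 0 < 1 - r := by linarith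
  set T : ℝ := 1 / (1 - r) with hT
  have hTq : (q : ℝ) ≤ T := by
    rw [hT, le_div_iff₀ hd]
    have : (q : ℝ) * (1 - r) ≤ q * (1 / q) := mul_le_mul_of_nonneg_left (by linarith) hq0.le
    rw [mul_one_div_cancel hq0.ne'] at this
    exact this
  have hq1 : (1 : ℝ) ≤ q := by exact_mod_cast hq
  have hT1 : 1 ≤ T := hq1.trans hTq
  have hT0 : 0 < T := by linarith
  set Y : ℕ := ⌊T⌋₊ with hY
  have hYq : q ≤ Y := Nat.le_floor hTq
  have hYT : (Y : ℝ) ≤ T := Nat.floor_le hT0.le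
  have hTY : T ≤ 2 * Y := by
    have h1 : T < Y + 1 := Nat.lt_floor_add_one T
    have h2 : (1 : ℝ) ≤ Y := by exact_mod_cast hq.trans hYq
    linarith
  have hY0 : (0 : ℝ) < Y := by linarith
  set z : ℂ := (r : ℂ) * e ((a : ℝ) / q) with hz
  have hzn : ‖z‖ = r := by
    rw [hz, norm_mul, norm_e, mul_one, Complex.norm_real, Real.norm_of_nonneg hr0]
  obtain ⟨hHs, hHb⟩ := H2_abs hr0 hr1
  have hnorm2 : ∀ n : ℕ, ‖((n : ℂ) ^ 2 / 2)‖ = (n : ℝ) ^ 2 / 2 := by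
    intro n
    rw [norm_div, norm_pow, Complex.norm_natCast]
    simp
  -- boundedness of the singular series
  have hsb : ∀ n : ℕ, ‖(singular n : ℂ)‖ ≤ C₀ + 1 := by
    intro n
    have h1 := htail n 1 le_rfl
    have h2 : ∑ q ∈ Icc 1 1, cf q * ram q n = 1 := by
      simp [cf, ram, e_zero]
    rw [h2, Nat.cast_one, Real.sqrt_one, div_one] at h1
    have h3 := norm_add_le ((singular n : ℂ) - 1) 1
    rw [sub_add_cancel, norm_one] at h3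
    linarith
  have hs1 : Summable (fun n : ℕ => ‖(singular n : ℂ) * ((n : ℂ) ^ 2 / 2) * z ^ n‖) := by
    refine Summable.of_nonneg_of_le (fun _ => norm_nonneg _) (fun n => ?_)
      (hHs.mul_left (C₀ + 1))
    rw [norm_mul, norm_mul, norm_pow, hzn, hnorm2, mul_assoc]
    exact mul_le_mul_of_nonneg_right (hsb n) (by positivity)
  refine ⟨hs1, ?_⟩
  -- the truncated series
  have hP : HasSum (fun n : ℕ => (∑ q' ∈ Icc 1 Y, cf q' * ram q' n) * ((n : ℂ) ^ 2 / 2) * z ^ n)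
      (∑ q' ∈ Icc 1 Y, cf q' * ∑ b ∈ RR q', H2 ((r : ℂ) * e ((a : ℝ) / q + (b : ℝ) / q'))) := by
    have h1 : (fun n : ℕ => (∑ q' ∈ Icc 1 Y, cf q' * ram q' n) * ((n : ℂ) ^ 2 / 2) * z ^ n) =
        fun n : ℕ => ∑ q' ∈ Icc 1 Y, cf q' * ∑ b ∈ RR q', ((n : ℂ) ^ 2 / 2) *
          ((r : ℂ) * e ((a : ℝ) / q + (b : ℝ) / q')) ^ n := by
      funext n
      rw [Finset.sum_mul, Finset.sum_mul]
      refine Finset.sum_congr rfl fun q' _ => ?_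
      rw [← ram_term, hz]
      ring
    rw [h1]
    refine hasSum_sum fun q' _ => HasSum.mul_left _ (hasSum_sum fun b _ => ?_)
    have h2 : ‖(r : ℂ) * e ((a : ℝ) / q + (b : ℝ) / q')‖ < 1 := by
      rw [norm_mul, norm_e, mul_one, Complex.norm_real, Real.norm_of_nonneg hr0]
      exact hr1
    rw [H2]
    exact (hasSum_H2 h2).summable.hasSum
  have hdiff : ‖∑' n : ℕ, (singular n : ℂ) * ((n : ℂ) ^ 2 / 2) * z ^ n -
      ∑ q' ∈ Icc 1 Y, cf q' * ∑ b ∈ RR q', H2 ((r : ℂ) * e ((a : ℝ) / q + (b : ℝ) / q'))‖ ≤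
        C₀ / Real.sqrt Y * (6 * T ^ 3) := by
    rw [← hP.tsum_eq, ← hs1.of_norm.tsum_sub hP.summable]
    have h1 : ∀ n : ℕ, ‖(singular n : ℂ) * ((n : ℂ) ^ 2 / 2) * z ^ n -
        (∑ q' ∈ Icc 1 Y, cf q' * ram q' n) * ((n : ℂ) ^ 2 / 2) * z ^ n‖ ≤
          C₀ / Real.sqrt Y * (((n : ℝ) ^ 2 / 2) * r ^ n) := by
      intro n
      rw [← sub_mul, ← sub_mul, norm_mul, norm_mul, norm_pow, hzn, hnorm2, mul_assoc]
      exact mul_le_mul_of_nonneg_right (htail n Y (hq.trans hYq)) (by positivity)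
    have h2 := hHs.mul_left (C₀ / Real.sqrt Y)
    refine (tsum_of_norm_bounded h2.hasSum h1).trans ?_
    rw [tsum_mul_left]
    exact mul_le_mul_of_nonneg_left hHb (by positivity)
  have hmain := main_bound hq ha hYq hr0 hr1
  have hreal := H2_real hr0 hr1
  -- combine
  have hsplit : ∑' n : ℕ, (singular n : ℂ) * ((n : ℂ) ^ 2 / 2) * z ^ n -
      cf q * (1 / (1 - (r : ℂ)) ^ 3) =
      (∑' n : ℕ, (singular n : ℂ) * ((n : ℂ) ^ 2 / 2) * z ^ n -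
        ∑ q' ∈ Icc 1 Y, cf q' * ∑ b ∈ RR q', H2 ((r : ℂ) * e ((a : ℝ) / q + (b : ℝ) / q'))) +
      (∑ q' ∈ Icc 1 Y, cf q' * ∑ b ∈ RR q', H2 ((r : ℂ) * e ((a : ℝ) / q + (b : ℝ) / q')) -
        cf q * H2 r) + cf q * (H2 (r : ℂ) - 1 / (1 - (r : ℂ)) ^ 3) := by ring
  rw [hsplit]
  have hsq : 1 / Real.sqrt Y ≤ 3 / 2 / Real.sqrt T := by
    have h1 : Real.sqrt T ≤ 3 / 2 * Real.sqrt Y := by
      rw [Real.sqrt_le_left (by positivity)] 
      rw [mul_pow, Real.sq_sqrt hY0.le]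
      linarith
    have h2 : 0 < Real.sqrt Y := Real.sqrt_pos.mpr hY0
    have h3 : 0 < Real.sqrt T := Real.sqrt_pos.mpr hT0
    rw [div_le_div_iff₀ h2 h3]
    linarith
  have hTp : T ^ (5 / 2 : ℝ) = T ^ 3 / Real.sqrt T := by
    rw [Real.sqrt_eq_rpow, ← Real.rpow_natCast, ← Real.rpow_sub hT0]
    norm_num
  have b1 : C₀ / Real.sqrt Y * (6 * T ^ 3) ≤ 9 * C₀ * T ^ (5 / 2 : ℝ) := by
    rw [hTp]
    calc C₀ / Real.sqrt Y * (6 * T ^ 3) = C₀ * 6 * T ^ 3 * (1 / Real.sqrt Y) := by ring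
      _ ≤ C₀ * 6 * T ^ 3 * (3 / 2 / Real.sqrt T) := mul_le_mul_of_nonneg_left hsq (by positivity)
      _ = 9 * C₀ * (T ^ 3 / Real.sqrt T) := by ring
  have b2 : 12 * (q : ℝ) ^ 3 * (Y : ℝ) ^ (5 / 2 : ℝ) ≤ 12 * (q : ℝ) ^ 3 * T ^ (5 / 2 : ℝ) :=
    mul_le_mul_of_nonneg_left (Real.rpow_le_rpow hY0.le hYT (by norm_num)) (by positivity)
  have b3 : ‖cf q * (H2 (r : ℂ) - 1 / (1 - (r : ℂ)) ^ 3)‖ ≤ 2 * T ^ (5 / 2 : ℝ) := by
    rw [norm_mul]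
    have e1 : T ^ 2 ≤ T ^ (5 / 2 : ℝ) := by
      rw [← Real.rpow_natCast]
      exact Real.rpow_le_rpow_of_exponent_le hT1 (by norm_num)
    calc ‖cf q‖ * ‖H2 (r : ℂ) - 1 / (1 - (r : ℂ)) ^ 3‖ ≤ 1 * (2 * T ^ 2) :=
          mul_le_mul (norm_cf_le_one hq) hreal (norm_nonneg _) zero_le_one
      _ ≤ 2 * T ^ (5 / 2 : ℝ) := by linarith
  refine (norm_add_le _ _).trans ((add_le_add (norm_add_le _ _) le_rfl).trans ?_)
  calc _ ≤ 9 * C₀ * T ^ (5 / 2 : ℝ) + 12 * (q : ℝ) ^ 3 * T ^ (5 / 2 : ℝ) +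
        2 * T ^ (5 / 2 : ℝ) :=
        add_le_add (add_le_add (hdiff.trans b1) (hmain.trans b2)) b3
    _ = _ := by ring

end Vale.Agent.P026.TP
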