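import Mathlib
import Vale.Agent.P026.TP.SingMain
import Vale.Agent.P026.TP.Cube
import Vale.Agent.P026.TP.Defs2
import Vale.Agent.P026.TP.M3

/-! The square of the generating function of the von Mangoldt function on a ray to a root of
unity, from the binary Goldbach asymptotic formula in mean square. -/

open Finset Real ArithmeticFunction

namespace Vale.Agent.P026.TP

/-! ### the coefficients -/

/-- the coefficient `μ(q)² / φ(q)²` -/
noncomputable def cf2 (q : ℕ) : ℂ := ((moebius q : ℤ) : ℂ) ^ 2 / (Nat.totient q : ℂ) ^ 2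

theorem norm_cf2_le (q : ℕ) : ‖cf2 q‖ ≤ 1 / (Nat.totient q : ℝ) ^ 2 := by
  rw [cf2, norm_div, norm_pow, norm_pow, Complex.norm_natCast]
  refine div_le_div_of_nonneg_right ?_ (by positivity)
  rw [Complex.norm_intCast]
  refine pow_le_one₀ (abs_nonneg _) ?_
  exact_mod_cast abs_moebius_le_one

theorem norm_cf2_le_one {q : ℕ} (hq : 1 ≤ q) : ‖cf2 q‖ ≤ 1 := by
  refine (norm_cf2_le q).trans ?_
  have : (1 : ℝ) ≤ Nat.totient q := by exact_mod_cast Nat.totient_pos.mpr hq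
  rw [div_le_one (by positivity)]
  exact one_le_pow₀ this

theorem inv_totient_le {q : ℕ} (hq : 1 ≤ q) :
    1 / (Nat.totient q : ℝ) ≤ 4 * (q : ℝ) ^ (-(3 / 4) : ℝ) := by
  have hq0 : (0 : ℝ) < q := by exact_mod_cast hq
  have hφ : (0 : ℝ) < Nat.totient q := by exact_mod_cast Nat.totient_pos.mpr hq
  have h1 := totient_ge hq
  have h2 : 0 < (q : ℝ) ^ (3 / 4 : ℝ) := Real.rpow_pos_of_pos hq0 _
  rw [Real.rpow_neg hq0.le, div_le_iff₀ hφ, show 4 * ((q : ℝ) ^ (3 / 4 : ℝ))⁻¹ * (Nat.totient q : ℝ) =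
    (4 * (Nat.totient q : ℝ)) / (q : ℝ) ^ (3 / 4 : ℝ) by ring, le_div_iff₀ h2, one_mul]
  exact h1

/-! ### the function `∑ n zⁿ` -/

/-- `∑ n zⁿ` -/
noncomputable def H1 (z : ℂ) : ℂ := ∑' n : ℕ, (n : ℂ) * z ^ n

theorem hasSum_H1 {z : ℂ} (hz : ‖z‖ < 1) : HasSum (fun n : ℕ => (n : ℂ) * z ^ n)
    (z / (1 - z) ^ 2) := hasSum_coe_mul_geometric_of_norm_lt_one hz

theorem H1_eq {z : ℂ} (hz : ‖z‖ < 1) : H1 z = z / (1 - z) ^ 2 := (hasSum_H1 hz).tsum_eq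

theorem norm_H1_le {z : ℂ} (hz : ‖z‖ < 1) : ‖H1 z‖ ≤ 1 / ‖1 - z‖ ^ 2 := by
  rw [H1_eq hz, norm_div, norm_pow]
  exact div_le_div_of_nonneg_right hz.le (by positivity)

/-- `∑ n e^{- u n}` is close to `1 / u²` -/
theorem H1_real {u : ℝ} (hu : 0 < u) :
    ‖H1 (Real.exp (-u) : ℂ) - 1 / (u : ℂ) ^ 2‖ ≤ 1 / u := by
  have hr1 : Real.exp (-u) < 1 := by rw [Real.exp_lt_one_iff]; linarith
  have hr0 : 0 < Real.exp (-u) := Real.exp_pos _
  have hz : ‖((Real.exp (-u) : ℝ) : ℂ)‖ < 1 := by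
    rwa [Complex.norm_real, Real.norm_of_nonneg hr0.le]
  rw [H1_eq hz]
  have e1 : ((Real.exp (-u) : ℝ) : ℂ) / (1 - ((Real.exp (-u) : ℝ) : ℂ)) ^ 2 - 1 / (u : ℂ) ^ 2 =
      ((Real.exp (-u) / (1 - Real.exp (-u)) ^ 2 - 1 / u ^ 2 : ℝ) : ℂ) := by
    push_cast; rfl
  rw [e1, Complex.norm_real, Real.norm_eq_abs, abs_le]
  have h1 : 0 < 1 - Real.exp (-u) := by linarith
  have h2 : 1 - Real.exp (-u) ≤ u := by
    have := Real.add_one_le_exp (-u)
    linarith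
  constructor
  · have h3 : Real.exp (-u) / u ^ 2 ≤ Real.exp (-u) / (1 - Real.exp (-u)) ^ 2 :=
      div_le_div_of_nonneg_left hr0.le (by positivity) (pow_le_pow_left₀ h1.le h2 2)
    have h4 : (1 - u) / u ^ 2 ≤ Real.exp (-u) / u ^ 2 := by
      refine div_le_div_of_nonneg_right ?_ (by positivity)
      linarith
    have h5 : (1 - u) / u ^ 2 = 1 / u ^ 2 - 1 / u := by
      field_simp
    linarith
  · have h3 : Real.exp (-u) / (1 - Real.exp (-u)) ^ 2 ≤ 1 / u ^ 2 := by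
      rw [div_le_div_iff₀ (by positivity) (by positivity), one_mul]
      have h4 : u / 2 ≤ Real.sinh (u / 2) := Real.self_le_sinh_iff.mpr (by linarith)
      rw [Real.sinh_eq] at h4
      have h5 : u ≤ Real.exp (u / 2) - Real.exp (-(u / 2)) := by linarith
      have h6 : Real.exp (-u) = Real.exp (-(u / 2)) * Real.exp (-(u / 2)) := by
        rw [← Real.exp_add]; congr 1; ring
      have h7 : 1 = Real.exp (u / 2) * Real.exp (-(u / 2)) := by
        rw [← Real.exp_add, add_neg_cancel, Real.exp_zero]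
      have h8 : 1 - Real.exp (-u) =
          (Real.exp (u / 2) - Real.exp (-(u / 2))) * Real.exp (-(u / 2)) := by
        rw [sub_mul, ← h7, ← h6]
      rw [h8, mul_pow, h6, mul_comm]
      have h9 : u ^ 2 ≤ (Real.exp (u / 2) - Real.exp (-(u / 2))) ^ 2 :=
        pow_le_pow_left₀ hu.le h5 2
      rw [sq (Real.exp (-(u / 2)))]
      exact mul_le_mul_of_nonneg_right h9 (by positivity)
    have : 0 ≤ 1 / u := by positivity
    linarith

/-! ### decay -/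

theorem rpow_mul_exp_le {a u x : ℝ} (ha : 0 < a) (hu : 0 < u) (hx : 0 ≤ x) :
    x ^ a * Real.exp (-(u * x)) ≤ (a / u) ^ a := by
  have h1 : u * x / a ≤ Real.exp (u * x / a) := by
    have := Real.add_one_le_exp (u * x / a)
    linarith
  have h2 : (u * x / a) ^ a ≤ Real.exp (u * x) := by
    have h3 := Real.rpow_le_rpow (by positivity) h1 ha.le
    rwa [← Real.exp_mul, div_mul_cancel₀ _ ha.ne'] at h3
  have h3 : x ^ a = (a / u) ^ a * (u * x / a) ^ a := by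
    rw [← Real.mul_rpow (by positivity) (by positivity)]
    congr 1
    field_simp
  rw [h3, Real.exp_neg, mul_assoc]
  refine mul_le_of_le_one_right (by positivity) ?_
  rw [← div_eq_mul_inv, div_le_one (Real.exp_pos _)]
  exact h2

theorem exp_pow_eq (u : ℝ) (n : ℕ) : Real.exp (-u) ^ n = Real.exp (-(u * n)) := by
  rw [← Real.exp_nat_mul]
  congr 1
  ring

theorem summable_tau : Summable (fun n : ℕ => M3.tau n * (n : ℝ) ^ (-(9 / 8) : ℝ)) := by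
  have hs : Summable (fun n : ℕ => (n : ℝ) ^ (-(9 / 8) : ℝ)) :=
    Real.summable_nat_rpow.mpr (by norm_num)
  set S : ℝ := ∑' n : ℕ, (n : ℝ) ^ (-(9 / 8) : ℝ) with hS
  have hnn : ∀ n : ℕ, 0 ≤ (n : ℝ) ^ (-(9 / 8) : ℝ) := fun n => by positivity
  have hS0 : 0 ≤ S := tsum_nonneg hnn
  have hle : ∀ s : Finset ℕ, ∑ n ∈ s, (n : ℝ) ^ (-(9 / 8) : ℝ) ≤ S := fun s =>
    hs.sum_le_tsum s fun n _ => hnn n
  refine summable_of_sum_range_le (c := S * S) (fun n => mul_nonneg (M3.tau_nonneg n) (hnn n)) ?_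
  intro N
  have h0 : ∑ n ∈ range N, M3.tau n * (n : ℝ) ^ (-(9 / 8) : ℝ) ≤
      ∑ n ∈ Icc 1 N, M3.tau n * (n : ℝ) ^ (-(9 / 8) : ℝ) := by
    have h1 : ∑ n ∈ (range N).filter (fun n => n ≠ 0), M3.tau n * (n : ℝ) ^ (-(9 / 8) : ℝ) =
        ∑ n ∈ range N, M3.tau n * (n : ℝ) ^ (-(9 / 8) : ℝ) := by
      refine Finset.sum_filter_of_ne fun n _ h => ?_
      rintro rfl
      exact h (by simp [M3.tau])
    rw [← h1]
    refine Finset.sum_le_sum_of_subset_of_nonneg ?_ fun n _ _ =>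
      mul_nonneg (M3.tau_nonneg n) (hnn n)
    intro n hn
    rw [Finset.mem_filter, Finset.mem_range] at hn
    rw [Finset.mem_Icc]
    omega
  refine h0.trans ?_
  have h1 : ∀ n ∈ Icc 1 N, M3.tau n * (n : ℝ) ^ (-(9 / 8) : ℝ) =
      ∑ x ∈ n.divisorsAntidiagonal, (x.1 : ℝ) ^ (-(9 / 8) : ℝ) * (x.2 : ℝ) ^ (-(9 / 8) : ℝ) := by
    intro n _
    rw [M3.sum_tau_mul]
    refine Finset.sum_congr rfl fun x hx => ?_
    rw [← (Nat.mem_divisorsAntidiagonal.1 hx).1]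
    push_cast
    rw [Real.mul_rpow (by positivity) (by positivity)]
  rw [Finset.sum_congr rfl h1,
    M3.reindex N (fun a b => (a : ℝ) ^ (-(9 / 8) : ℝ) * (b : ℝ) ^ (-(9 / 8) : ℝ))]
  calc ∑ a ∈ Icc 1 N, ∑ b ∈ Icc 1 (N / a), (a : ℝ) ^ (-(9 / 8) : ℝ) * (b : ℝ) ^ (-(9 / 8) : ℝ)
      ≤ ∑ a ∈ Icc 1 N, (a : ℝ) ^ (-(9 / 8) : ℝ) * S := by
        refine Finset.sum_le_sum fun a _ => ?_
        rw [← Finset.mul_sum]
        exact mul_le_mul_of_nonneg_left (hle _) (hnn a)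
    _ ≤ S * S := by
        rw [← Finset.sum_mul]
        exact mul_le_mul_of_nonneg_right (hle _) hS0

/-- `∑ τ(n) n e^{- u n} ≤ C u ^ (-17 / 8)` -/
theorem tau_tail : ∃ C : ℝ, 0 < C ∧ ∀ u : ℝ, 0 < u →
    Summable (fun n : ℕ => M3.tau n * n * Real.exp (-u) ^ n) ∧
    ∑' n : ℕ, M3.tau n * n * Real.exp (-u) ^ n ≤ C * u ^ (-(17 / 8) : ℝ) := by
  have hs := summable_tau
  set S : ℝ := ∑' n : ℕ, M3.tau n * (n : ℝ) ^ (-(9 / 8) : ℝ) with hS
  have hS0 : 0 ≤ S := tsum_nonneg fun n => mul_nonneg (M3.tau_nonneg n) (by positivity)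
  refine ⟨(17 / 8 : ℝ) ^ (17 / 8 : ℝ) * S + 1, by positivity, fun u hu => ?_⟩
  have hpt : ∀ n : ℕ, M3.tau n * n * Real.exp (-u) ^ n ≤
      ((17 / 8) / u) ^ (17 / 8 : ℝ) * (M3.tau n * (n : ℝ) ^ (-(9 / 8) : ℝ)) := by
    intro n
    rcases Nat.eq_zero_or_pos n with rfl | hn
    · simp [M3.tau]
    · have hn0 : (0 : ℝ) < n := by exact_mod_cast hn
      rw [exp_pow_eq]
      have h1 := rpow_mul_exp_le (a := 17 / 8) (by norm_num) hu hn0.le
      have h2 : (n : ℝ) = (n : ℝ) ^ (17 / 8 : ℝ) * (n : ℝ) ^ (-(9 / 8) : ℝ) := by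
        rw [← Real.rpow_add hn0]
        norm_num
      calc M3.tau n * n * Real.exp (-(u * n))
          = M3.tau n * ((n : ℝ) ^ (17 / 8 : ℝ) * (n : ℝ) ^ (-(9 / 8) : ℝ)) *
              Real.exp (-(u * n)) := by rw [← h2]
        _ = (n : ℝ) ^ (17 / 8 : ℝ) * Real.exp (-(u * n)) *
              (M3.tau n * (n : ℝ) ^ (-(9 / 8) : ℝ)) := by ring
        _ ≤ _ := mul_le_mul_of_nonneg_right h1 (mul_nonneg (M3.tau_nonneg n) (by positivity))
  have hs2 := hs.mul_left (((17 / 8) / u) ^ (17 / 8 : ℝ))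
  have hs1 : Summable (fun n : ℕ => M3.tau n * n * Real.exp (-u) ^ n) :=
    Summable.of_nonneg_of_le (fun n => mul_nonneg (mul_nonneg (M3.tau_nonneg n) (by positivity))
      (by positivity)) hpt hs2
  refine ⟨hs1, (hs1.tsum_le_tsum hpt hs2).trans ?_⟩
  rw [tsum_mul_left, ← hS, Real.div_rpow (by norm_num) hu.le]
  have h3 : (17 / 8 : ℝ) ^ (17 / 8 : ℝ) / u ^ (17 / 8 : ℝ) * S =
      ((17 / 8 : ℝ) ^ (17 / 8 : ℝ) * S) * u ^ (-(17 / 8) : ℝ) := by
    rw [Real.rpow_neg hu.le]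
    ring
  rw [h3]
  exact mul_le_mul_of_nonneg_right (by linarith) (by positivity)

/-! ### the square -/

theorem r2_eq (n : ℕ) : r2 n = ∑ x ∈ antidiagonal n, vonMangoldt x.1 * vonMangoldt x.2 := by
  rw [r2, ← Finset.sum_product', ← Finset.sum_filter]
  refine Finset.sum_congr ?_ fun _ _ => rfl
  ext y
  simp only [Finset.HasAntidiagonal.mem_antidiagonal, Finset.mem_filter, Finset.mem_product,
    Finset.mem_range]
  omega

theorem FL_sq {z : ℂ} (hz : ‖z‖ < 1) :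
    Summable (fun n : ℕ => ‖(r2 n : ℂ) * z ^ n‖) ∧
      FL z ^ 2 = ∑' n : ℕ, (r2 n : ℂ) * z ^ n := by
  set f : ℕ → ℂ := fun n => (vonMangoldt n : ℂ) * z ^ n with hf
  have hs : Summable (fun n => ‖f n‖) := summable_FL hz
  have hcs := summable_norm_sum_mul_antidiagonal_of_summable_norm hs hs
  have h2 : FL z * FL z = ∑' n, ∑ kl ∈ antidiagonal n, f kl.1 * f kl.2 :=
    tsum_mul_tsum_eq_tsum_sum_antidiagonal_of_summable_norm hs hs
  have heq : ∀ n, ∑ kl ∈ antidiagonal n, f kl.1 * f kl.2 = (r2 n : ℂ) * z ^ n := by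
    intro n
    rw [r2_eq]
    push_cast
    rw [Finset.sum_mul]
    refine Finset.sum_congr rfl fun x hx => ?_
    rw [Finset.HasAntidiagonal.mem_antidiagonal] at hx
    simp only [hf]
    rw [← hx, pow_add]
    ring
  simp only [heq] at hcs h2
  exact ⟨hcs, by rw [sq, h2]⟩

/-! ### the error term -/

/-- the error of the binary Goldbach asymptotic formula -/
noncomputable def er2 (n : ℕ) : ℝ := r2 n - singular2 n * n

theorem er2_zero : er2 0 = 0 := by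
  simp [er2, r2]

/-- Abel summation -/
theorem err_sq_sum {δ : ℝ} (hδ : δ ≤ 1 / 2) (hB : BinaryMean δ) :
    ∃ C : ℝ, 0 < C ∧ ∀ u : ℝ, 0 < u → u ≤ 1 →
      Summable (fun n : ℕ => er2 n ^ 2 * Real.exp (-u) ^ n) ∧
      ∑' n : ℕ, er2 n ^ 2 * Real.exp (-u) ^ n ≤ C * u ^ (-3 + δ) := by
  obtain ⟨C₀', hC₀'⟩ := hB
  set C₀ : ℝ := max C₀' 0 with hC₀
  have hC0 : 0 ≤ C₀ := le_max_right _ _
  set E : ℕ → ℝ := fun N => ∑ n ∈ range (N + 1), er2 n ^ 2 with hE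
  have hE0 : ∀ N, 0 ≤ E N := fun N => Finset.sum_nonneg fun _ _ => sq_nonneg _
  have hEb : ∀ N : ℕ, E N ≤ C₀ * (N : ℝ) ^ (3 - δ) := by
    intro N
    rcases Nat.eq_zero_or_pos N with rfl | hN
    · rw [hE]
      simp only [zero_add, Finset.sum_range_one, er2_zero]
      rw [Nat.cast_zero, Real.zero_rpow (by linarith)]
      simp
    · have h1 : E N = ∑ n ∈ Icc 1 N, (r2 n - singular2 n * n) ^ 2 := by
        rw [hE]
        simp only
        rw [Finset.range_eq_Ico, Finset.sum_eq_sum_Ico_succ_bot (by omega), er2_zero]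
        rw [zero_pow two_ne_zero, zero_add]
        rfl
      rw [h1]
      refine (hC₀' N hN).trans ?_
      exact mul_le_mul_of_nonneg_right (le_max_left _ _) (by positivity)
  set a : ℝ := 3 - δ with ha
  have ha0 : 0 < a := by rw [ha]; linarith
  set K : ℝ := (2 * a) ^ a with hK
  have hK0 : 0 < K := by positivity
  refine ⟨4 * C₀ * K + 1, by positivity, fun u hu hu1 => ?_⟩
  set r : ℝ := Real.exp (-u) with hr
  have hr0 : 0 < r := Real.exp_pos _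
  have hr1 : r < 1 := by rw [hr, Real.exp_lt_one_iff]; linarith
  set s : ℝ := Real.exp (-(u / 2)) with hs
  have hs0 : 0 < s := Real.exp_pos _
  have hs1 : s < 1 := by rw [hs, Real.exp_lt_one_iff]; linarith
  -- pointwise bound
  have hpt : ∀ N : ℕ, E N * r ^ N ≤ C₀ * (K * u ^ (-a)) * s ^ N := by
    intro N
    have h1 := rpow_mul_exp_le ha0 (by positivity : 0 < u / 2) (Nat.cast_nonneg N : (0 : ℝ) ≤ N)
    have h2 : r ^ N = Real.exp (-(u / 2 * N)) * s ^ N := by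
      rw [hr, hs, exp_pow_eq, exp_pow_eq, ← Real.exp_add]
      congr 1
      ring
    have h3 : (a / (u / 2)) ^ a = K * u ^ (-a) := by
      rw [hK, Real.rpow_neg hu.le, ← Real.inv_rpow hu.le, ← Real.mul_rpow (by positivity)
        (by positivity)]
      congr 1
      field_simp
    rw [h3] at h1
    calc E N * r ^ N ≤ C₀ * (N : ℝ) ^ a * r ^ N :=
          mul_le_mul_of_nonneg_right (hEb N) (by positivity)
      _ = C₀ * ((N : ℝ) ^ a * Real.exp (-(u / 2 * N))) * s ^ N := by rw [h2]; ring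
      _ ≤ C₀ * (K * u ^ (-a)) * s ^ N := by
          refine mul_le_mul_of_nonneg_right (mul_le_mul_of_nonneg_left h1 hC0) (by positivity)
  have hgs := (summable_geometric_of_lt_one hs0.le hs1).mul_left (C₀ * (K * u ^ (-a)))
  have hEs : Summable (fun N : ℕ => E N * r ^ N) :=
    Summable.of_nonneg_of_le (fun N => mul_nonneg (hE0 N) (by positivity)) hpt hgs
  have hes : Summable (fun n : ℕ => er2 n ^ 2 * r ^ n) := by
    refine Summable.of_nonneg_of_le (fun N => by positivity) (fun N => ?_) hEs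
    refine mul_le_mul_of_nonneg_right ?_ (by positivity)
    exact Finset.single_le_sum (f := fun n => er2 n ^ 2) (fun _ _ => sq_nonneg _)
      (Finset.mem_range.mpr (Nat.lt_succ_self N))
  refine ⟨hes, ?_⟩
  have hrs := summable_geometric_of_lt_one hr0.le hr1
  have hconv : (∑' n : ℕ, er2 n ^ 2 * r ^ n) * ∑' n : ℕ, r ^ n = ∑' N : ℕ, E N * r ^ N := by
    rw [tsum_mul_tsum_eq_tsum_sum_antidiagonal_of_summable_norm
      (by simpa only [Real.norm_of_nonneg (show 0 ≤ er2 _ ^ 2 * r ^ _ by positivity)] using hes)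
      (by simpa only [Real.norm_of_nonneg (show 0 ≤ r ^ _ by positivity)] using hrs)]
    refine tsum_congr fun N => ?_
    rw [hE]
    simp only
    rw [Finset.Nat.sum_antidiagonal_eq_sum_range_succ (fun i j => er2 i ^ 2 * r ^ i * r ^ j),
      Finset.sum_mul]
    refine Finset.sum_congr rfl fun i hi => ?_
    rw [Finset.mem_range] at hi
    rw [mul_assoc, ← pow_add, Nat.add_sub_cancel' (by omega)]
  rw [tsum_geometric_of_lt_one hr0.le hr1] at hconv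
  have h1r : 0 < 1 - r := by linarith
  have h1s : 0 < 1 - s := by linarith
  have h4 : ∑' n : ℕ, er2 n ^ 2 * r ^ n = (1 - r) * ∑' N : ℕ, E N * r ^ N := by
    rw [← hconv]
    field_simp
  have h5 : ∑' N : ℕ, E N * r ^ N ≤ C₀ * (K * u ^ (-a)) * (1 - s)⁻¹ := by
    refine (hEs.tsum_le_tsum hpt hgs).trans (le_of_eq ?_)
    rw [tsum_mul_left, tsum_geometric_of_lt_one hs0.le hs1]
  have h6 : 1 - r = (1 - s) * (1 + s) := by
    have : r = s * s := by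
      rw [hr, hs, ← Real.exp_add]; congr 1; ring
    rw [this]; ring
  rw [h4]
  calc (1 - r) * ∑' N : ℕ, E N * r ^ N
      ≤ (1 - r) * (C₀ * (K * u ^ (-a)) * (1 - s)⁻¹) := mul_le_mul_of_nonneg_left h5 h1r.le
    _ = (1 + s) * (C₀ * K * u ^ (-a)) := by rw [h6]; field_simp
    _ ≤ 4 * (C₀ * K * u ^ (-a)) := by
        refine mul_le_mul_of_nonneg_right (by linarith) (by positivity)
    _ = 4 * C₀ * K * u ^ (-3 + δ) := by
        rw [show -a = -3 + δ by rw [ha]; ring]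
        ring
    _ ≤ (4 * C₀ * K + 1) * u ^ (-3 + δ) :=
        mul_le_mul_of_nonneg_right (by linarith) (by positivity)

/-- Cauchy-Schwarz -/
theorem err_sum {δ : ℝ} (hδ : δ ≤ 1 / 2) (hB : BinaryMean δ) :
    ∃ C : ℝ, 0 < C ∧ ∀ u : ℝ, 0 < u → u ≤ 1 →
      Summable (fun n : ℕ => |er2 n| * Real.exp (-u) ^ n) ∧
      ∑' n : ℕ, |er2 n| * Real.exp (-u) ^ n ≤ C * u ^ (-2 + δ / 2) := by
  obtain ⟨C, hC, h⟩ := err_sq_sum hδ hB
  refine ⟨C + 2, by positivity, fun u hu hu1 => ?_⟩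
  obtain ⟨hs, hb⟩ := h u hu hu1
  set r : ℝ := Real.exp (-u) with hr
  have hr0 : 0 < r := Real.exp_pos _
  have hr1 : r < 1 := by rw [hr, Real.exp_lt_one_iff]; linarith
  set l : ℝ := u ^ (1 - δ / 2) with hl
  have hl0 : 0 < l := by positivity
  have hrs := summable_geometric_of_lt_one hr0.le hr1
  have hpt : ∀ n : ℕ, |er2 n| * r ^ n ≤ l * (er2 n ^ 2 * r ^ n) + l⁻¹ * r ^ n := by
    intro n
    have h1 : |er2 n| ≤ l * er2 n ^ 2 + l⁻¹ := by
      have h2 : 0 ≤ (l * |er2 n| - 1) ^ 2 := sq_nonneg _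
      have h3 : (l * |er2 n| - 1) ^ 2 = l * (l * er2 n ^ 2 + l⁻¹ - 2 * |er2 n|) := by
        have : er2 n ^ 2 = |er2 n| ^ 2 := (sq_abs _).symm
        rw [this]
        field_simp
        ring
      rw [h3] at h2
      have h4 := nonneg_of_mul_nonneg_right h2 hl0
      have h5 := abs_nonneg (er2 n)
      linarith
    calc |er2 n| * r ^ n ≤ (l * er2 n ^ 2 + l⁻¹) * r ^ n :=
          mul_le_mul_of_nonneg_right h1 (by positivity)
      _ = _ := by ring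
  have hss := (hs.mul_left l).add (hrs.mul_left l⁻¹)
  have hs1 : Summable (fun n : ℕ => |er2 n| * r ^ n) :=
    Summable.of_nonneg_of_le (fun n => by positivity) hpt hss
  refine ⟨hs1, (hs1.tsum_le_tsum hpt hss).trans ?_⟩
  rw [(hs.mul_left l).tsum_add (hrs.mul_left l⁻¹), tsum_mul_left, tsum_mul_left,
    tsum_geometric_of_lt_one hr0.le hr1]
  have h1 : l * ∑' n : ℕ, er2 n ^ 2 * r ^ n ≤ C * u ^ (-2 + δ / 2) := by
    calc l * ∑' n : ℕ, er2 n ^ 2 * r ^ n ≤ l * (C * u ^ (-3 + δ)) :=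
          mul_le_mul_of_nonneg_left hb hl0.le
      _ = C * (u ^ (1 - δ / 2) * u ^ (-3 + δ)) := by rw [hl]; ring
      _ = _ := by
          rw [← Real.rpow_add hu]
          congr 2
          ring
  have h2 : (1 - r)⁻¹ ≤ 2 * u⁻¹ := by
    have h3 : u / 2 ≤ 1 - r := by
      have h5 : r = (Real.exp (u / 2))⁻¹ * (Real.exp (u / 2))⁻¹ := by
        rw [hr, ← Real.exp_neg, ← Real.exp_add]; congr 1; ring
      have h6 : 1 + u / 2 ≤ Real.exp (u / 2) := by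
        have := Real.add_one_le_exp (u / 2); linarith
      have h7 : (Real.exp (u / 2))⁻¹ ≤ (1 + u / 2)⁻¹ := inv_anti₀ (by positivity) h6
      have h8 : r ≤ (1 + u / 2)⁻¹ * (1 + u / 2)⁻¹ := by
        rw [h5]
        exact mul_le_mul h7 h7 (by positivity) (by positivity)
      have h9 : (1 + u / 2)⁻¹ * (1 + u / 2)⁻¹ ≤ 1 - u / 2 := by
        rw [← mul_inv, inv_le_iff_one_le_mul₀ (by positivity)]
        set v : ℝ := u / 2 with hv
        have hv0 : 0 ≤ v := by positivity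
        have hv1 : v ≤ 1 / 2 := by rw [hv]; linarith
        have hq : 0 ≤ v * (1 - v - v * v) := by
          refine mul_nonneg hv0 ?_
          nlinarith
        have : (1 - v) * ((1 + v) * (1 + v)) = 1 + v * (1 - v - v * v) := by ring
        rw [this]
        linarith
      linarith
    have h4 : (1 - r)⁻¹ ≤ (u / 2)⁻¹ := inv_anti₀ (by positivity) h3
    rw [inv_div] at h4
    rw [← div_eq_mul_inv]
    exact h4
  have h3 : l⁻¹ * (1 - r)⁻¹ ≤ 2 * u ^ (-2 + δ / 2) := by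
    calc l⁻¹ * (1 - r)⁻¹ ≤ l⁻¹ * (2 * u⁻¹) := mul_le_mul_of_nonneg_left h2 (by positivity)
      _ = 2 * (u ^ (-(1 - δ / 2)) * u ^ (-1 : ℝ)) := by
          rw [hl, Real.rpow_neg hu.le, Real.rpow_neg_one]
          ring
      _ = _ := by
          rw [← Real.rpow_add hu]
          congr 2
          ring
  linarith

/-! ### the main term -/

theorem term_bound2 {q a b q' : ℕ} (hq : 1 ≤ q) (hq' : 1 ≤ q') (ha : Nat.Coprime a q)
    (hb : Nat.Coprime b q') (hex : ¬ (q' = q ∧ q ∣ a + b)) {r : ℝ} (hr0 : 0 ≤ r) (hr1 : r < 1) :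
    ‖H1 ((r : ℂ) * e ((a : ℝ) / q + (b : ℝ) / q'))‖ ≤ 1 / 4 * ((q : ℝ) * q') ^ 2 := by
  have hq0 : (0 : ℝ) < q := by exact_mod_cast hq
  have hq0' : (0 : ℝ) < q' := by exact_mod_cast hq'
  have hz : ‖(r : ℂ) * e ((a : ℝ) / q + (b : ℝ) / q')‖ < 1 := by
    rw [norm_mul, norm_e, mul_one, Complex.norm_real, Real.norm_of_nonneg hr0]
    exact hr1
  have h1 : (a : ℝ) / q + (b : ℝ) / q' = (((a * q' + b * q : ℕ) : ℤ) : ℝ) / ((q * q' : ℕ) : ℝ) := by
    push_cast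
    field_simp
  have h2 : 4 / ((q * q' : ℕ) : ℝ) ≤ ‖1 - e ((a : ℝ) / q + (b : ℝ) / q')‖ := by
    rw [h1]
    exact norm_one_sub_e_rat (Nat.one_le_iff_ne_zero.mpr (by positivity))
      (fun h => hex (frac_int hq hq' ha hb h))
  have h3 := norm_one_sub_mul_e_ge hr0 hr1.le ((a : ℝ) / q + (b : ℝ) / q')
  have h4 : 2 / ((q : ℝ) * q') ≤ ‖1 - (r : ℂ) * e ((a : ℝ) / q + (b : ℝ) / q')‖ := by
    push_cast at h2
    have : 2 / ((q : ℝ) * q') = (4 / ((q : ℝ) * q')) / 2 := by ring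
    rw [this]
    linarith
  have h5 : (2 / ((q : ℝ) * q')) ^ 2 ≤
      ‖1 - (r : ℂ) * e ((a : ℝ) / q + (b : ℝ) / q')‖ ^ 2 :=
    pow_le_pow_left₀ (by positivity) h4 2
  calc ‖H1 ((r : ℂ) * e ((a : ℝ) / q + (b : ℝ) / q'))‖
      ≤ 1 / ‖1 - (r : ℂ) * e ((a : ℝ) / q + (b : ℝ) / q')‖ ^ 2 := norm_H1_le hz
    _ ≤ 1 / (2 / ((q : ℝ) * q')) ^ 2 := by
        refine div_le_div_of_nonneg_left (by norm_num) (by positivity) h5
    _ = 1 / 4 * ((q : ℝ) * q') ^ 2 := by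
        field_simp
        norm_num

/-- the contribution of the terms away from the exceptional one -/
theorem main_bound2 {q a Y : ℕ} (hq : 1 ≤ q) (ha : Nat.Coprime a q) (hY : q ≤ Y) {r : ℝ}
    (hr0 : 0 ≤ r) (hr1 : r < 1) :
    ‖∑ q' ∈ Icc 1 Y, cf2 q' * ∑ b ∈ RR q', H1 ((r : ℂ) * e ((a : ℝ) / q + (b : ℝ) / q')) -
      cf2 q * H1 r‖ ≤ (q : ℝ) ^ 2 * (Y : ℝ) ^ (9 / 4 : ℝ) := by
  have hY0 : (0 : ℝ) < Y := by exact_mod_cast (by omega : 0 < Y)
  have h1 := exc_sum hq ha hY (cf2 q * H1 r)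
  rw [← h1, ← Finset.sum_sub_distrib]
  have hterm : ∀ q' ∈ Icc 1 Y, ‖cf2 q' * ∑ b ∈ RR q', H1 ((r : ℂ) * e ((a : ℝ) / q + (b : ℝ) / q')) -
      ∑ b ∈ RR q', (if q' = q ∧ q ∣ a + b then cf2 q * H1 r else 0)‖ ≤
        (q : ℝ) ^ 2 * (Y : ℝ) ^ (5 / 4 : ℝ) := by
    intro q' hq'
    rw [Finset.mem_Icc] at hq'
    have hq0 : (0 : ℝ) < q' := by exact_mod_cast hq'.1
    have hφ : (0 : ℝ) < Nat.totient q' := by exact_mod_cast Nat.totient_pos.mpr hq'.1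
    rw [Finset.mul_sum, ← Finset.sum_sub_distrib]
    have hb1 : ∀ b ∈ RR q', ‖cf2 q' * H1 ((r : ℂ) * e ((a : ℝ) / q + (b : ℝ) / q')) -
        (if q' = q ∧ q ∣ a + b then cf2 q * H1 r else 0)‖ ≤
          1 / (Nat.totient q' : ℝ) ^ 2 * (1 / 4 * ((q : ℝ) * q') ^ 2) := by
      intro b hb
      rw [RR, Finset.mem_filter] at hb
      by_cases hex : q' = q ∧ q ∣ a + b
      · rw [if_pos hex]
        obtain ⟨rfl, k, hk⟩ := hex
        have e1 : e ((a : ℝ) / q' + (b : ℝ) / q') = 1 := by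
          have : (a : ℝ) / q' + (b : ℝ) / q' = ((k : ℤ) : ℝ) := by
            rw [← add_div, div_eq_iff hq0.ne']
            have : ((a + b : ℕ) : ℝ) = ((q' * k : ℕ) : ℝ) := by rw [hk]
            push_cast at this ⊢
            linarith
          rw [this, e_int]
        rw [e1, mul_one, sub_self, norm_zero]
        positivity
      · rw [if_neg hex, sub_zero, norm_mul]
        exact mul_le_mul (norm_cf2_le q') (term_bound2 hq hq'.1 ha hb.2 hex hr0 hr1)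
          (norm_nonneg _) (by positivity)
    refine (norm_sum_le_of_le _ hb1).trans ?_
    rw [Finset.sum_const, card_RR, nsmul_eq_mul]
    have e1 : (Nat.totient q' : ℝ) * (1 / (Nat.totient q' : ℝ) ^ 2 * (1 / 4 * ((q : ℝ) * q') ^ 2)) =
        1 / (Nat.totient q' : ℝ) * (1 / 4 * (q : ℝ) ^ 2 * (q' : ℝ) ^ 2) := by
      field_simp
    rw [e1]
    calc 1 / (Nat.totient q' : ℝ) * (1 / 4 * (q : ℝ) ^ 2 * (q' : ℝ) ^ 2)
        ≤ 4 * (q' : ℝ) ^ (-(3 / 4) : ℝ) * (1 / 4 * (q : ℝ) ^ 2 * (q' : ℝ) ^ 2) :=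
          mul_le_mul_of_nonneg_right (inv_totient_le hq'.1) (by positivity)
      _ = (q : ℝ) ^ 2 * ((q' : ℝ) ^ (-(3 / 4) : ℝ) * (q' : ℝ) ^ (2 : ℝ)) := by
          rw [show (q' : ℝ) ^ (2 : ℝ) = (q' : ℝ) ^ 2 by norm_cast]
          ring
      _ = (q : ℝ) ^ 2 * (q' : ℝ) ^ (5 / 4 : ℝ) := by
          rw [← Real.rpow_add hq0]
          norm_num
      _ ≤ (q : ℝ) ^ 2 * (Y : ℝ) ^ (5 / 4 : ℝ) := by
          refine mul_le_mul_of_nonneg_left ?_ (by positivity)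
          exact Real.rpow_le_rpow hq0.le (by exact_mod_cast hq'.2) (by norm_num)
  refine (norm_sum_le_of_le _ hterm).trans (le_of_eq ?_)
  rw [Finset.sum_const, Nat.card_Icc, nsmul_eq_mul, Nat.add_sub_cancel]
  have : (Y : ℝ) ^ (9 / 4 : ℝ) = Y * (Y : ℝ) ^ (5 / 4 : ℝ) := by
    nth_rw 2 [← Real.rpow_one (Y : ℝ)]
    rw [← Real.rpow_add hY0]
    norm_num
  rw [this]
  ring

theorem ram_term2 {a q q' n : ℕ} (r : ℝ) :
    ram q' n * (n : ℂ) * ((r : ℂ) * e ((a : ℝ) / q)) ^ n =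
      ∑ b ∈ RR q', (n : ℂ) * ((r : ℂ) * e ((a : ℝ) / q + (b : ℝ) / q')) ^ n := by
  rw [ram, Finset.sum_mul, Finset.sum_mul, RR]
  refine Finset.sum_congr rfl fun b _ => ?_
  have h1 : e ((b : ℝ) * n / q') = (e ((b : ℝ) / q')) ^ n := by
    rw [← e_nat_mul]
    congr 1
    ring
  rw [h1, e_add, mul_pow, mul_pow, mul_pow]
  ring

/-- The generating function of the main term of the binary Goldbach problem on the ray to
`e(a/q)`. -/
theorem sing2_gen (hS : Singular2Stmt) {q a : ℕ} (hq : 1 ≤ q) (ha : Nat.Coprime a q) :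
    ∃ C u₀ : ℝ, 0 < C ∧ 0 < u₀ ∧ u₀ ≤ 1 ∧ ∀ u : ℝ, 0 < u → u ≤ u₀ →
      Summable (fun n : ℕ =>
        ‖(singular2 n : ℂ) * (n : ℂ) * ((Real.exp (-u) : ℂ) * e ((a : ℝ) / q)) ^ n‖) ∧
      ‖∑' n : ℕ, (singular2 n : ℂ) * (n : ℂ) * ((Real.exp (-u) : ℂ) * e ((a : ℝ) / q)) ^ n -
        cf2 q / (u : ℂ) ^ 2‖ ≤ C * u ^ (-(7 / 4) : ℝ) := by
  obtain ⟨hsum, C₀', hC₀'⟩ := hS
  set C₀ : ℝ := max C₀' 0 with hC₀
  have hC0 : 0 ≤ C₀ := le_max_right _ _
  have htail : ∀ n Q : ℕ, 1 ≤ n → 1 ≤ Q → ‖(singular2 n : ℂ) - ∑ q ∈ Icc 1 Q, cf2 q * ram q n‖ ≤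
      C₀ * M3.tau n / Real.sqrt Q := fun n Q hn hQ =>
    (hC₀' n Q hn hQ).trans (div_le_div_of_nonneg_right
      (mul_le_mul_of_nonneg_right (le_max_left _ _) (Nat.cast_nonneg _)) (Real.sqrt_nonneg _))
  obtain ⟨C₁, hC₁, htau⟩ := tau_tail
  have hq0 : (0 : ℝ) < q := by exact_mod_cast hq
  have hq1 : (1 : ℝ) ≤ q := by exact_mod_cast hq
  refine ⟨2 * C₀ * C₁ + (q : ℝ) ^ 2 + 1, (q : ℝ) ^ (-(4 / 3) : ℝ), by positivity, by positivity,
    Real.rpow_le_one_of_one_le_of_nonpos hq1 (by norm_num), ?_⟩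
  intro u hu huq
  have hu1 : u ≤ 1 := huq.trans (Real.rpow_le_one_of_one_le_of_nonpos hq1 (by norm_num))
  set r : ℝ := Real.exp (-u) with hr
  have hr0 : 0 < r := Real.exp_pos _
  have hr1 : r < 1 := by rw [hr, Real.exp_lt_one_iff]; linarith
  obtain ⟨hts, htb⟩ := htau u hu
  rw [← hr] at hts htb
  set T : ℝ := u ^ (-(3 / 4) : ℝ) with hT
  have hT0 : 0 < T := by positivity
  have hTq : (q : ℝ) ≤ T := by
    have h1 : (q : ℝ) = ((q : ℝ) ^ (-(4 / 3) : ℝ)) ^ (-(3 / 4) : ℝ) := by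
      rw [← Real.rpow_mul hq0.le]
      norm_num
    rw [h1, hT]
    exact Real.rpow_le_rpow_of_nonpos hu huq (by norm_num)
  set Y : ℕ := ⌊T⌋₊ with hY
  have hYq : q ≤ Y := Nat.le_floor hTq
  have hYT : (Y : ℝ) ≤ T := Nat.floor_le hT0.le
  have hTY : T ≤ 2 * Y := by
    have h1 : T < Y + 1 := Nat.lt_floor_add_one T
    have h2 : (1 : ℝ) ≤ Y := by exact_mod_cast hq.trans hYq
    linarith
  have hY0 : (0 : ℝ) < Y := by linarith
  set z : ℂ := (r : ℂ) * e ((a : ℝ) / q) with hz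
  have hzn : ‖z‖ = r := by
    rw [hz, norm_mul, norm_e, mul_one, Complex.norm_real, Real.norm_of_nonneg hr0.le]
  -- bound for the singular series
  have hsb : ∀ n : ℕ, 1 ≤ n → ‖(singular2 n : ℂ)‖ ≤ (C₀ + 1) * M3.tau n := by
    intro n hn
    have h1 := htail n 1 hn le_rfl
    have h2 : ∑ q ∈ Icc 1 1, cf2 q * ram q n = 1 := by
      simp [cf2, ram, e_zero]
    rw [h2, Nat.cast_one, Real.sqrt_one, div_one] at h1
    have h3 := norm_add_le ((singular2 n : ℂ) - 1) 1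
    rw [sub_add_cancel, norm_one] at h3
    have h4 : 1 ≤ M3.tau n := by
      have : 0 < n.divisors.card := Finset.card_pos.mpr ⟨1, Nat.one_mem_divisors.mpr (by omega)⟩
      unfold M3.tau
      exact_mod_cast this
    linarith
  have hs1 : Summable (fun n : ℕ => ‖(singular2 n : ℂ) * (n : ℂ) * z ^ n‖) := by
    refine Summable.of_nonneg_of_le (fun _ => norm_nonneg _) (fun n => ?_)
      (hts.mul_left (C₀ + 1))
    rcases Nat.eq_zero_or_pos n with rfl | hn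
    · simp
    · rw [norm_mul, norm_mul, norm_pow, hzn, Complex.norm_natCast, mul_assoc (M3.tau n), ← mul_assoc,
        mul_assoc]
      exact mul_le_mul_of_nonneg_right (hsb n hn) (by positivity)
  refine ⟨hs1, ?_⟩
  -- the truncated series
  have hP : HasSum (fun n : ℕ => (∑ q' ∈ Icc 1 Y, cf2 q' * ram q' n) * (n : ℂ) * z ^ n)
      (∑ q' ∈ Icc 1 Y, cf2 q' * ∑ b ∈ RR q', H1 ((r : ℂ) * e ((a : ℝ) / q + (b : ℝ) / q'))) := by
    have h1 : (fun n : ℕ => (∑ q' ∈ Icc 1 Y, cf2 q' * ram q' n) * (n : ℂ) * z ^ n) =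
        fun n : ℕ => ∑ q' ∈ Icc 1 Y, cf2 q' * ∑ b ∈ RR q', (n : ℂ) *
          ((r : ℂ) * e ((a : ℝ) / q + (b : ℝ) / q')) ^ n := by
      funext n
      rw [Finset.sum_mul, Finset.sum_mul]
      refine Finset.sum_congr rfl fun q' _ => ?_
      rw [← ram_term2, hz]
      ring
    rw [h1]
    refine hasSum_sum fun q' _ => HasSum.mul_left _ (hasSum_sum fun b _ => ?_)
    have h2 : ‖(r : ℂ) * e ((a : ℝ) / q + (b : ℝ) / q')‖ < 1 := by
      rw [norm_mul, norm_e, mul_one, Complex.norm_real, Real.norm_of_nonneg hr0.le]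
      exact hr1
    rw [H1]
    exact (hasSum_H1 h2).summable.hasSum
  have hdiff : ‖∑' n : ℕ, (singular2 n : ℂ) * (n : ℂ) * z ^ n -
      ∑ q' ∈ Icc 1 Y, cf2 q' * ∑ b ∈ RR q', H1 ((r : ℂ) * e ((a : ℝ) / q + (b : ℝ) / q'))‖ ≤
        C₀ / Real.sqrt Y * (C₁ * u ^ (-(17 / 8) : ℝ)) := by
    rw [← hP.tsum_eq, ← hs1.of_norm.tsum_sub hP.summable]
    have h1 : ∀ n : ℕ, ‖(singular2 n : ℂ) * (n : ℂ) * z ^ n -
        (∑ q' ∈ Icc 1 Y, cf2 q' * ram q' n) * (n : ℂ) * z ^ n‖ ≤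
          C₀ / Real.sqrt Y * (M3.tau n * n * r ^ n) := by
      intro n
      rcases Nat.eq_zero_or_pos n with rfl | hn
      · simp
      rw [← sub_mul, ← sub_mul, norm_mul, norm_mul, norm_pow, hzn, Complex.norm_natCast]
      calc _ ≤ C₀ * M3.tau n / Real.sqrt Y * n * r ^ n := by
            refine mul_le_mul_of_nonneg_right (mul_le_mul_of_nonneg_right
              (htail n Y hn (hq.trans hYq)) (by positivity)) (by positivity)
        _ = _ := by ring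
    have h2 := hts.mul_left (C₀ / Real.sqrt Y)
    refine (tsum_of_norm_bounded h2.hasSum h1).trans ?_
    rw [tsum_mul_left]
    exact mul_le_mul_of_nonneg_left htb (by positivity)
  have hmain := main_bound2 hq ha hYq hr0.le hr1
  have hreal := H1_real hu
  rw [← hr] at hreal
  -- combine
  have hsplit : ∑' n : ℕ, (singular2 n : ℂ) * (n : ℂ) * z ^ n - cf2 q / (u : ℂ) ^ 2 =
      (∑' n : ℕ, (singular2 n : ℂ) * (n : ℂ) * z ^ n -
        ∑ q' ∈ Icc 1 Y, cf2 q' * ∑ b ∈ RR q', H1 ((r : ℂ) * e ((a : ℝ) / q + (b : ℝ) / q'))) +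
      (∑ q' ∈ Icc 1 Y, cf2 q' * ∑ b ∈ RR q', H1 ((r : ℂ) * e ((a : ℝ) / q + (b : ℝ) / q')) -
        cf2 q * H1 r) + cf2 q * (H1 (r : ℂ) - 1 / (u : ℂ) ^ 2) := by ring
  rw [hsplit]
  have hsq : 1 / Real.sqrt Y ≤ 2 / Real.sqrt T := by
    have h1 : Real.sqrt T ≤ 2 * Real.sqrt Y := by
      rw [Real.sqrt_le_left (by positivity)] 
      rw [mul_pow, Real.sq_sqrt hY0.le]
      linarith
    have h2 : 0 < Real.sqrt Y := Real.sqrt_pos.mpr hY0
    have h3 : 0 < Real.sqrt T := Real.sqrt_pos.mpr hT0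
    rw [div_le_div_iff₀ h2 h3]
    linarith
  have hTs : Real.sqrt T = u ^ (-(3 / 8) : ℝ) := by
    rw [Real.sqrt_eq_rpow, hT, ← Real.rpow_mul hu.le]
    norm_num
  have b1 : C₀ / Real.sqrt Y * (C₁ * u ^ (-(17 / 8) : ℝ)) ≤ 2 * C₀ * C₁ * u ^ (-(7 / 4) : ℝ) := by
    calc C₀ / Real.sqrt Y * (C₁ * u ^ (-(17 / 8) : ℝ))
        = C₀ * C₁ * u ^ (-(17 / 8) : ℝ) * (1 / Real.sqrt Y) := by ring
      _ ≤ C₀ * C₁ * u ^ (-(17 / 8) : ℝ) * (2 / Real.sqrt T) :=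
          mul_le_mul_of_nonneg_left hsq (by positivity)
      _ = 2 * C₀ * C₁ * (u ^ (-(17 / 8) : ℝ) * u ^ (3 / 8 : ℝ)) := by
          rw [hTs, Real.rpow_neg hu.le (3 / 8)]
          field_simp
      _ = _ := by
          rw [← Real.rpow_add hu]
          norm_num
  have b2 : (q : ℝ) ^ 2 * (Y : ℝ) ^ (9 / 4 : ℝ) ≤ (q : ℝ) ^ 2 * u ^ (-(7 / 4) : ℝ) := by
    refine mul_le_mul_of_nonneg_left ?_ (by positivity)
    calc (Y : ℝ) ^ (9 / 4 : ℝ) ≤ T ^ (9 / 4 : ℝ) := Real.rpow_le_rpow hY0.le hYT (by norm_num)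
      _ = u ^ (-(27 / 16) : ℝ) := by
          rw [hT, ← Real.rpow_mul hu.le]
          norm_num
      _ ≤ u ^ (-(7 / 4) : ℝ) := Real.rpow_le_rpow_of_exponent_ge hu hu1 (by norm_num)
  have b3 : ‖cf2 q * (H1 (r : ℂ) - 1 / (u : ℂ) ^ 2)‖ ≤ u ^ (-(7 / 4) : ℝ) := by
    rw [norm_mul]
    have e1 : 1 / u ≤ u ^ (-(7 / 4) : ℝ) := by
      rw [one_div, ← Real.rpow_neg_one]
      exact Real.rpow_le_rpow_of_exponent_ge hu hu1 (by norm_num)
    calc ‖cf2 q‖ * ‖H1 (r : ℂ) - 1 / (u : ℂ) ^ 2‖ ≤ 1 * (1 / u) :=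
          mul_le_mul (norm_cf2_le_one hq) hreal (norm_nonneg _) zero_le_one
      _ ≤ u ^ (-(7 / 4) : ℝ) := by linarith
  refine (norm_add_le _ _).trans ((add_le_add (norm_add_le _ _) le_rfl).trans ?_)
  calc _ ≤ 2 * C₀ * C₁ * u ^ (-(7 / 4) : ℝ) + (q : ℝ) ^ 2 * u ^ (-(7 / 4) : ℝ) +
        u ^ (-(7 / 4) : ℝ) :=
        add_le_add (add_le_add (hdiff.trans b1) (hmain.trans b2)) b3
    _ = _ := by ring

/-- [BG-CONV] the square of the generating function of `Λ` on the ray to `e(a/q)`. -/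
theorem square_gen (hS : Singular2Stmt) {δ : ℝ} (_hδ0 : 0 < δ) (hδ : δ ≤ 1 / 2)
    (hB : BinaryMean δ) {q a : ℕ} (hq : 1 ≤ q) (ha : Nat.Coprime a q) :
    ∃ C u₀ : ℝ, 0 < u₀ ∧ ∀ u : ℝ, 0 < u → u ≤ u₀ →
      ‖FL ((Real.exp (-u) : ℂ) * e ((a : ℝ) / q)) ^ 2 -
        (((moebius q : ℤ) : ℂ) / (Nat.totient q : ℂ)) ^ 2 / (u : ℂ) ^ 2‖ ≤
        C * u ^ (-2 + δ / 2) := by
  obtain ⟨C₁, u₀, hC₁, hu₀, hu₀1, h1⟩ := sing2_gen hS hq ha
  obtain ⟨C₂, hC₂, h2⟩ := err_sum hδ hB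
  refine ⟨C₂ + C₁, u₀, hu₀, fun u hu huu => ?_⟩
  have hu1 : u ≤ 1 := huu.trans hu₀1
  obtain ⟨hs1, hb1⟩ := h1 u hu huu
  obtain ⟨hs2, hb2⟩ := h2 u hu hu1
  set r : ℝ := Real.exp (-u) with hr
  have hr0 : 0 < r := Real.exp_pos _
  have hr1 : r < 1 := by rw [hr, Real.exp_lt_one_iff]; linarith
  set z : ℂ := (r : ℂ) * e ((a : ℝ) / q) with hz
  have hzn : ‖z‖ = r := by
    rw [hz, norm_mul, norm_e, mul_one, Complex.norm_real, Real.norm_of_nonneg hr0.le]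
  obtain ⟨hs3, h3⟩ := FL_sq (z := z) (by rw [hzn]; exact hr1)
  rw [h3]
  have hdiff : ‖∑' n : ℕ, (r2 n : ℂ) * z ^ n - ∑' n : ℕ, (singular2 n : ℂ) * (n : ℂ) * z ^ n‖ ≤
      C₂ * u ^ (-2 + δ / 2) := by
    rw [← hs3.of_norm.tsum_sub hs1.of_norm]
    have h4 : ∀ n : ℕ, ‖(r2 n : ℂ) * z ^ n - (singular2 n : ℂ) * (n : ℂ) * z ^ n‖ ≤
        |er2 n| * r ^ n := by
      intro n
      rw [← sub_mul, norm_mul, norm_pow, hzn]
      refine le_of_eq ?_
      congr 1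
      rw [er2, ← Real.norm_eq_abs, ← Complex.norm_real]
      push_cast
      rfl
    exact (tsum_of_norm_bounded hs2.hasSum h4).trans hb2
  have hcf : (((moebius q : ℤ) : ℂ) / (Nat.totient q : ℂ)) ^ 2 = cf2 q := by
    rw [cf2, div_pow]
  rw [hcf]
  have hsplit : ∑' n : ℕ, (r2 n : ℂ) * z ^ n - cf2 q / (u : ℂ) ^ 2 =
      (∑' n : ℕ, (r2 n : ℂ) * z ^ n - ∑' n : ℕ, (singular2 n : ℂ) * (n : ℂ) * z ^ n) +
      (∑' n : ℕ, (singular2 n : ℂ) * (n : ℂ) * z ^ n - cf2 q / (u : ℂ) ^ 2) := by ring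
  rw [hsplit]
  refine (norm_add_le _ _).trans ?_
  have h5 : u ^ (-(7 / 4) : ℝ) ≤ u ^ (-2 + δ / 2) :=
    Real.rpow_le_rpow_of_exponent_ge hu hu1 (by linarith)
  calc _ ≤ C₂ * u ^ (-2 + δ / 2) + C₁ * u ^ (-(7 / 4) : ℝ) := add_le_add hdiff hb1
    _ ≤ C₂ * u ^ (-2 + δ / 2) + C₁ * u ^ (-2 + δ / 2) :=
        add_le_add le_rfl (mul_le_mul_of_nonneg_left h5 hC₁.le)
    _ = _ := by ring

end Vale.Agent.P026.TP
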